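import Vale.Agent.P028.Defs

/-!
Elementary lemmas for the bilinear estimate.
-/

noncomputable section

namespace Vale.Agent.P028.BilinearAux

open Finset

/-- The valuations of a product of prime powers. -/
theorem factorization_prodPow {T : Finset ℕ} (hT : ∀ p ∈ T, p.Prime) (e : ℕ → ℕ) (p : ℕ) :
    (∏ q ∈ T, q ^ e q).factorization p = if p ∈ T then e p else 0 := by
  rw [Nat.factorization_prod (fun q hq => pow_ne_zero _ (hT q hq).ne_zero), Finset.sum_apply']
  rw [Finset.sum_congr rfl (g := fun q => if q = p then e q else 0)]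
  · rw [Finset.sum_ite_eq']
  · intro q hq
    rw [(hT q hq).factorization_pow, Finsupp.single_apply]

theorem prodPow_pos {T : Finset ℕ} (hT : ∀ p ∈ T, p.Prime) (e : ℕ → ℕ) :
    0 < ∏ q ∈ T, q ^ e q :=
  Finset.prod_pos fun q hq => pow_pos (hT q hq).pos _

theorem qd_pos {v w : ℕ} (hv : 0 < v) : 0 < qd v w :=
  Nat.div_pos (Nat.le_of_dvd hv (Nat.gcd_dvd_left v w)) (Nat.gcd_pos_of_pos_left w hv)

theorem factorization_qd {v w : ℕ} (hv : 0 < v) (hw : 0 < w) (p : ℕ) :
    (qd v w).factorization p = v.factorization p - w.factorization p := by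
  rw [qd, Nat.factorization_div (Nat.gcd_dvd_left v w), Finsupp.tsub_apply,
    Nat.factorization_gcd hv.ne' hw.ne', Finsupp.inf_apply]
  omega

theorem dist2_comm (ψ : ℕ → ℝ) (q r : ℕ) : dist2 ψ q r = dist2 ψ r q := max_comm _ _

theorem wt_nonneg {ψ : ℕ → ℝ} (hψ : ∀ q, 0 ≤ ψ q) (q : ℕ) : 0 ≤ wt ψ q :=
  mul_nonneg (div_nonneg (Nat.cast_nonneg _) (Nat.cast_nonneg _)) (hψ q)

theorem mass_mono {ψ : ℕ → ℝ} (hψ : ∀ q, 0 ≤ ψ q) {S T : Finset ℕ} (h : S ⊆ T) :
    mass ψ S ≤ mass ψ T :=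
  Finset.sum_le_sum_of_subset_of_nonneg h fun q _ _ => wt_nonneg hψ q

theorem mass_nonneg {ψ : ℕ → ℝ} (hψ : ∀ q, 0 ≤ ψ q) (S : Finset ℕ) : 0 ≤ mass ψ S :=
  Finset.sum_nonneg fun q _ => wt_nonneg hψ q

/-- Hoelder's inequality with three factors. -/
theorem sum_rpow3_le {ι : Type*} (T : Finset ι) (f g h : ι → ℝ) {a b c : ℝ} (ha : 0 < a)
    (hb : 0 < b) (hc : 0 < c) (habc : a + b + c = 1) (hf : ∀ i ∈ T, 0 ≤ f i)
    (hg : ∀ i ∈ T, 0 ≤ g i) (hh : ∀ i ∈ T, 0 ≤ h i) :
    ∑ i ∈ T, f i ^ a * g i ^ b * h i ^ c ≤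
      (∑ i ∈ T, f i) ^ a * (∑ i ∈ T, g i) ^ b * (∑ i ∈ T, h i) ^ c := by
  set F := ∑ i ∈ T, f i with hF
  set G := ∑ i ∈ T, g i with hG
  set H := ∑ i ∈ T, h i with hH
  have hF0 : 0 ≤ F := Finset.sum_nonneg hf
  have hG0 : 0 ≤ G := Finset.sum_nonneg hg
  have hH0 : 0 ≤ H := Finset.sum_nonneg hh
  rcases hF0.eq_or_lt with e | hFp
  · rw [← e, Real.zero_rpow ha.ne', zero_mul, zero_mul]
    refine le_of_eq (Finset.sum_eq_zero fun i hi => ?_)
    rw [(Finset.sum_eq_zero_iff_of_nonneg hf).1 e.symm i hi, Real.zero_rpow ha.ne', zero_mul,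
      zero_mul]
  rcases hG0.eq_or_lt with e | hGp
  · rw [← e, Real.zero_rpow hb.ne', mul_zero, zero_mul]
    refine le_of_eq (Finset.sum_eq_zero fun i hi => ?_)
    rw [(Finset.sum_eq_zero_iff_of_nonneg hg).1 e.symm i hi, Real.zero_rpow hb.ne', mul_zero,
      zero_mul]
  rcases hH0.eq_or_lt with e | hHp
  · rw [← e, Real.zero_rpow hc.ne', mul_zero]
    refine le_of_eq (Finset.sum_eq_zero fun i hi => ?_)
    rw [(Finset.sum_eq_zero_iff_of_nonneg hh).1 e.symm i hi, Real.zero_rpow hc.ne', mul_zero]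
  have hterm : ∀ i ∈ T, f i ^ a * g i ^ b * h i ^ c ≤
      F ^ a * G ^ b * H ^ c * (a * (f i / F) + b * (g i / G) + c * (h i / H)) := by
    intro i hi
    have h1 := Real.geom_mean_le_arith_mean3_weighted ha.le hb.le hc.le
      (div_nonneg (hf i hi) hF0) (div_nonneg (hg i hi) hG0) (div_nonneg (hh i hi) hH0) habc
    rw [Real.div_rpow (hf i hi) hF0, Real.div_rpow (hg i hi) hG0, Real.div_rpow (hh i hi) hH0,
      div_mul_div_comm, div_mul_div_comm, div_le_iff₀ (by positivity)] at h1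
    linarith
  refine le_trans (Finset.sum_le_sum hterm) (le_of_eq ?_)
  rw [← Finset.mul_sum, Finset.sum_add_distrib, Finset.sum_add_distrib, ← Finset.mul_sum,
    ← Finset.mul_sum, ← Finset.mul_sum, ← Finset.sum_div, ← Finset.sum_div, ← Finset.sum_div,
    ← hF, ← hG, ← hH, div_self hFp.ne', div_self hGp.ne', div_self hHp.ne', mul_one, mul_one,
    mul_one, habc, mul_one]

/-- `(1 - v) ⁻¹ (m ^ (1-v) ...)`: partial sums of `c ^ (-v)` for `0 < v < 1`. -/
theorem sum_range_rpow_neg_le {v : ℝ} (hv : 0 < v) (hv1 : v < 1) (m : ℕ) :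
    ∑ c ∈ Finset.range m, ((c : ℝ) + 1) ^ (-v) ≤ (m : ℝ) ^ (1 - v) / (1 - v) := by
  induction m with
  | zero => simp [Real.zero_rpow (sub_pos.2 hv1).ne']
  | succ m ih =>
    rw [Finset.sum_range_succ, le_div_iff₀ (sub_pos.2 hv1)]
    rw [le_div_iff₀ (sub_pos.2 hv1)] at ih
    set x : ℝ := (m : ℝ) + 1 with hx
    have hx0 : 0 < x := by positivity
    have hx1 : 1 / x ≤ 1 := by rw [div_le_one hx0]; simp [hx]
    have hb := rpow_one_add_le_one_add_mul_self (s := -(1 / x)) (p := 1 - v) (by linarith)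
      (by linarith) (by linarith)
    have hm : (m : ℝ) = x * (1 + -(1 / x)) := by rw [hx]; field_simp; ring
    have h1 : (m : ℝ) ^ (1 - v) ≤ x ^ (1 - v) * (1 + (1 - v) * -(1 / x)) := by
      rw [hm, Real.mul_rpow hx0.le (by linarith)]
      exact mul_le_mul_of_nonneg_left hb (Real.rpow_nonneg hx0.le _)
    have h2 : x ^ (-v) = x ^ (1 - v) / x := by
      rw [← Real.rpow_sub_one hx0.ne']; ring_nf
    push_cast
    rw [← hx, add_mul, h2]
    have e : x ^ (1 - v) * (1 + (1 - v) * -(1 / x)) = x ^ (1 - v) - x ^ (1 - v) / x * (1 - v) := by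
      ring
    linarith

/-- `∑_{c ≤ X} (X / c) ^ v ≤ X / (1 - v)` for `0 < v < 1`. -/
theorem sum_small_le {v X : ℝ} (hv : 0 < v) (hv1 : v < 1) (hX : 0 < X) (T : Finset ℕ)
    (hT : ∀ c ∈ T, 1 ≤ c ∧ (c : ℝ) ≤ X) :
    ∑ c ∈ T, (X / c) ^ v ≤ X / (1 - v) := by
  set m := ⌊X⌋₊ with hm
  have hsub : T ⊆ (Finset.range m).image (· + 1) := by
    intro c hc
    obtain ⟨h1, h2⟩ := hT c hc
    have h3 : c ≤ m := Nat.le_floor h2
    exact Finset.mem_image.2 ⟨c - 1, Finset.mem_range.2 (by omega), by omega⟩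
  refine le_trans (Finset.sum_le_sum_of_subset_of_nonneg hsub fun c _ _ =>
    Real.rpow_nonneg (div_nonneg hX.le (Nat.cast_nonneg _)) _) ?_
  rw [Finset.sum_image (fun a _ b _ h => Nat.succ_injective h)]
  have e : ∀ c : ℕ, (X / ((c + 1 : ℕ) : ℝ)) ^ v = X ^ v * ((c : ℝ) + 1) ^ (-v) := by
    intro c
    rw [Real.div_rpow hX.le (Nat.cast_nonneg _), Real.rpow_neg (by positivity), div_eq_mul_inv]
    push_cast
    rfl
  simp only [e, ← Finset.mul_sum]
  refine le_trans (mul_le_mul_of_nonneg_left (sum_range_rpow_neg_le hv hv1 m)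
    (Real.rpow_nonneg hX.le _)) ?_
  rw [← mul_div_assoc]
  refine div_le_div_of_nonneg_right ?_ (by linarith)
  refine le_trans (mul_le_mul_of_nonneg_left (Real.rpow_le_rpow (Nat.cast_nonneg _)
    (Nat.floor_le hX.le) (by linarith)) (Real.rpow_nonneg hX.le _)) (le_of_eq ?_)
  rw [← Real.rpow_add hX]
  simp

/-- Partial sums of `c ^ (-(u+1))` over a range above `a0`. -/
theorem sum_range_tail_le {u : ℝ} (hu : 0 < u) (a0 j : ℕ) (ha0 : 0 < a0) :
    ∑ i ∈ Finset.range j, ((a0 : ℝ) + i + 1) ^ (-(u + 1)) ≤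
      ((a0 : ℝ) ^ (-u) - ((a0 : ℝ) + j) ^ (-u)) / u := by
  induction j with
  | zero => simp
  | succ j ih =>
    rw [Finset.sum_range_succ, le_div_iff₀ hu]
    rw [le_div_iff₀ hu] at ih
    set x : ℝ := (a0 : ℝ) + j + 1 with hx
    have hy : (0 : ℝ) < (a0 : ℝ) + j := by
      have : (0 : ℝ) < a0 := by exact_mod_cast ha0
      positivity
    have hx0 : 0 < x := by positivity
    have h1 : x ^ (-u) * (1 + u / x) ≤ ((a0 : ℝ) + j) ^ (-u) := by
      have hlog : Real.log ((a0 : ℝ) + j) - Real.log x ≤ -(1 / x) := by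
        rw [← Real.log_div hy.ne' hx0.ne']
        refine le_trans (Real.log_le_sub_one_of_pos (div_pos hy hx0)) (le_of_eq ?_)
        rw [hx]; field_simp; ring
      rw [Real.rpow_def_of_pos hx0, Real.rpow_def_of_pos hy]
      refine le_trans (mul_le_mul_of_nonneg_left (by linarith [Real.add_one_le_exp (u / x)] :
        1 + u / x ≤ Real.exp (u / x)) (Real.exp_pos _).le) ?_
      rw [← Real.exp_add, Real.exp_le_exp]
      have := mul_le_mul_of_nonneg_left hlog hu.le
      have e : u * -(1 / x) = -(u / x) := by ring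
      linarith
    have h2 : x ^ (-(u + 1)) = x ^ (-u) / x := by
      rw [← Real.rpow_sub_one hx0.ne']; ring_nf
    push_cast
    rw [← add_assoc (a0 : ℝ), ← hx, add_mul, h2]
    have e : x ^ (-u) * (1 + u / x) = x ^ (-u) + x ^ (-u) / x * u := by ring
    linarith

/-- `∑_{a ≥ X} (X / a) ^ t ≤ C X` for `t > 1`. -/
theorem sum_tail_le {t X : ℝ} (ht : 1 < t) (hX : 0 < X) (T : Finset ℕ)
    (hT : ∀ a ∈ T, 1 ≤ a ∧ X ≤ (a : ℝ)) :
    ∑ a ∈ T, (X / a) ^ t ≤ (1 + 1 / (t - 1)) * X := by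
  set a0 := max 1 ⌈X⌉₊ with ha0
  have ha01 : 1 ≤ a0 := le_max_left _ _
  have hXa : X ≤ (a0 : ℝ) := le_trans (Nat.le_ceil X) (by exact_mod_cast le_max_right 1 ⌈X⌉₊)
  have hmem : ∀ a ∈ T, a0 ≤ a := fun a ha =>
    max_le (hT a ha).1 (Nat.ceil_le.2 (hT a ha).2)
  obtain ⟨M, hM⟩ : ∃ M, ∀ a ∈ T, a ≤ M := ⟨T.sup id, fun a ha => Finset.le_sup (f := id) ha⟩
  have hsub : T ⊆ insert a0 ((Finset.range (M - a0)).image (fun i => a0 + i + 1)) := by
    intro a ha
    have h1 := hmem a ha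
    have h2 := hM a ha
    rcases h1.eq_or_lt with e | e
    · exact Finset.mem_insert.2 (Or.inl e.symm)
    · exact Finset.mem_insert.2 (Or.inr (Finset.mem_image.2
        ⟨a - a0 - 1, Finset.mem_range.2 (by omega), by omega⟩))
  refine le_trans (Finset.sum_le_sum_of_subset_of_nonneg hsub fun a _ _ =>
    Real.rpow_nonneg (div_nonneg hX.le (Nat.cast_nonneg _)) _) ?_
  rw [Finset.sum_insert (by simp only [Finset.mem_image, not_exists, not_and]; intro i _; omega),
    Finset.sum_image (fun i _ k _ h => by omega)]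
  have ha0p : (0 : ℝ) < a0 := by exact_mod_cast ha01
  have h1 : (X / a0) ^ t ≤ X := by
    refine le_trans (Real.rpow_le_rpow_of_exponent_ge (div_pos hX ha0p)
      ((div_le_one ha0p).2 hXa) ht.le) ?_
    rw [Real.rpow_one]
    exact div_le_self hX.le (by exact_mod_cast ha01)
  have e : ∀ i : ℕ, (X / ((a0 + i + 1 : ℕ) : ℝ)) ^ t =
      X ^ t * ((a0 : ℝ) + i + 1) ^ (-((t - 1) + 1)) := by
    intro i
    rw [Real.div_rpow hX.le (Nat.cast_nonneg _), sub_add_cancel, Real.rpow_neg (by positivity),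
      div_eq_mul_inv]
    push_cast
    rfl
  simp only [e, ← Finset.mul_sum]
  have h2 := sum_range_tail_le (u := t - 1) (by linarith) a0 (M - a0) ha01
  have h3 : X ^ t * ((a0 : ℝ) ^ (-(t - 1)) / (t - 1)) ≤ 1 / (t - 1) * X := by
    rw [← mul_div_assoc, one_div_mul_eq_div]
    refine div_le_div_of_nonneg_right ?_ (by linarith)
    refine le_trans (mul_le_mul_of_nonneg_left
      (Real.rpow_le_rpow_of_nonpos hX hXa (by linarith)) (Real.rpow_nonneg hX.le _)) (le_of_eq ?_)
    rw [← Real.rpow_add hX]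
    simp
  have h4 : X ^ t * ∑ i ∈ Finset.range (M - a0), ((a0 : ℝ) + i + 1) ^ (-((t - 1) + 1)) ≤
      X ^ t * ((a0 : ℝ) ^ (-(t - 1)) / (t - 1)) := by
    refine mul_le_mul_of_nonneg_left (le_trans h2 (div_le_div_of_nonneg_right ?_ (by linarith)))
      (Real.rpow_nonneg hX.le _)
    linarith [Real.rpow_nonneg (show (0 : ℝ) ≤ (a0 : ℝ) + ((M - a0 : ℕ) : ℝ) by positivity)
      (-(t - 1))]
  linarith

theorem one_le_ratio {p : ℕ} (hp : p.Prime) : 1 ≤ ratio p := by
  have : (2 : ℝ) ≤ p := by exact_mod_cast hp.two_le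
  rw [ratio, one_le_div (by linarith)]
  linarith

theorem one_le_hFac (y n : ℕ) : 1 ≤ hFac y n :=
  Finset.one_le_prod fun _ hp =>
    one_le_ratio (Nat.prime_of_mem_primeFactors (Finset.mem_filter.1 hp).1)

theorem hFac_mul_le (y : ℕ) {m n : ℕ} (hm : m ≠ 0) (hn : n ≠ 0) :
    hFac y (m * n) ≤ hFac y m * hFac y n := by
  simp only [hFac]
  rw [Nat.primeFactors_mul hm hn, Finset.filter_union, ← Finset.prod_union_inter]
  refine le_mul_of_one_le_right ?_ ?_
  · refine Finset.prod_nonneg fun p hp => le_trans zero_le_one (one_le_ratio ?_)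
    rcases Finset.mem_union.1 hp with h | h <;>
      exact Nat.prime_of_mem_primeFactors (Finset.mem_filter.1 h).1
  · exact Finset.one_le_prod fun p hp =>
      one_le_ratio (Nat.prime_of_mem_primeFactors
        (Finset.mem_filter.1 (Finset.mem_inter.1 hp).1).1)

/-- The local factor of `hFac y` raised to the power `u`. -/
def wgt (y : ℕ) (u : ℝ) (p : ℕ) : ℝ := if y < p then ratio p ^ u else 1

theorem one_le_wgt {y : ℕ} {u : ℝ} (hu : 0 ≤ u) {p : ℕ} (hp : p.Prime) : 1 ≤ wgt y u p := by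
  rw [wgt]; split_ifs
  · exact Real.one_le_rpow (one_le_ratio hp) hu
  · exact le_rfl

theorem hFac_rpow (y n : ℕ) (u : ℝ) : hFac y n ^ u = ∏ p ∈ n.primeFactors, wgt y u p := by
  rw [hFac, ← Real.finsetProd_rpow _ _ (fun p hp => le_trans zero_le_one
    (one_le_ratio (Nat.prime_of_mem_primeFactors (Finset.mem_filter.1 hp).1))), Finset.prod_filter]
  rfl

/-- Above `y` the local weight exceeds `1` by at most `O((y + 1) / p)`. -/
theorem wgt_sub_one_le {K u : ℝ} {y p : ℕ} (hK : 0 ≤ K) (hu : 0 ≤ u) (huy : u ≤ K * ((y : ℝ) + 1))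
    (hp : p.Prime) (hyp : y < p) :
    wgt y u p - 1 ≤ 2 * K * Real.exp (2 * K) * (((y : ℝ) + 1) / p) ∧
      wgt y u p ≤ Real.exp (2 * K) := by
  have hp2 : (2 : ℝ) ≤ p := by exact_mod_cast hp.two_le
  have hyp' : (y : ℝ) + 1 ≤ p := by exact_mod_cast hyp
  set z := u / ((p : ℝ) - 1) with hz
  have hz0 : 0 ≤ z := div_nonneg hu (by linarith)
  have hr0 : 0 < ratio p := lt_of_lt_of_le one_pos (one_le_ratio hp)
  have hwz : wgt y u p ≤ Real.exp z := by
    rw [wgt, if_pos hyp, Real.rpow_def_of_pos hr0, Real.exp_le_exp]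
    have h1 := Real.log_le_sub_one_of_pos hr0
    have h2 : ratio p - 1 = 1 / ((p : ℝ) - 1) := by
      have : (p : ℝ) - 1 ≠ 0 := by linarith
      rw [ratio]; field_simp; ring
    rw [h2] at h1
    calc Real.log (ratio p) * u ≤ 1 / ((p : ℝ) - 1) * u := mul_le_mul_of_nonneg_right h1 hu
      _ = z := by rw [hz]; ring
  have hz2 : z ≤ 2 * K * (((y : ℝ) + 1) / p) := by
    rw [hz]
    calc u / ((p : ℝ) - 1) ≤ K * ((y : ℝ) + 1) / ((p : ℝ) / 2) :=
          div_le_div₀ (by positivity) huy (by positivity) (by linarith)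
      _ = _ := by ring
  have hz3 : z ≤ 2 * K := le_trans hz2 (mul_le_of_le_one_right (by positivity)
    ((div_le_one (by linarith)).2 hyp'))
  refine ⟨?_, le_trans hwz (Real.exp_le_exp.2 hz3)⟩
  have h4 : Real.exp z - 1 ≤ z * Real.exp z := by
    have h5 := mul_le_mul_of_nonneg_left (Real.one_sub_le_exp_neg z) (Real.exp_pos z).le
    have h6 : Real.exp z * Real.exp (-z) = 1 := by rw [← Real.exp_add]; simp
    rw [h6] at h5
    linarith
  calc wgt y u p - 1 ≤ z * Real.exp z := by linarith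
    _ ≤ (2 * K * (((y : ℝ) + 1) / p)) * Real.exp (2 * K) :=
      mul_le_mul hz2 (Real.exp_le_exp.2 hz3) (Real.exp_pos _).le (by positivity)
    _ = _ := by ring

theorem sum_inv_sq_tail_le (y : ℕ) (Pm : Finset ℕ) (h : ∀ p ∈ Pm, y < p) :
    ∑ p ∈ Pm, 1 / (p : ℝ) ^ 2 ≤ 2 / ((y : ℝ) + 1) := by
  obtain ⟨M, hM⟩ : ∃ M, ∀ p ∈ Pm, p ≤ M := ⟨Pm.sup id, fun p hp => Finset.le_sup (f := id) hp⟩
  have hsub : Pm ⊆ (Finset.range (M - y)).image (fun i => y + 1 + i) := by
    intro p hp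
    have := h p hp
    have := hM p hp
    exact Finset.mem_image.2 ⟨p - y - 1, Finset.mem_range.2 (by omega), by omega⟩
  refine le_trans (Finset.sum_le_sum_of_subset_of_nonneg hsub fun _ _ _ => by positivity) ?_
  rw [Finset.sum_image (fun i _ k _ h => by omega)]
  suffices ∀ j : ℕ, ∑ i ∈ Finset.range j, 1 / ((y + 1 + i : ℕ) : ℝ) ^ 2 ≤
      2 / ((y : ℝ) + 1) - 2 / ((y : ℝ) + 1 + j) by
    refine le_trans (this _) (sub_le_self _ (by positivity))
  intro j
  induction j with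
  | zero => simp
  | succ j ih =>
    rw [Finset.sum_range_succ]
    push_cast at *
    set x : ℝ := (y : ℝ) + 1 + j with hx
    have hx1 : 1 ≤ x := by rw [hx]; linarith [Nat.cast_nonneg (α := ℝ) y, Nat.cast_nonneg (α := ℝ) j]
    have h1 : 1 / x ^ 2 ≤ 2 / x - 2 / (x + 1) := by
      rw [div_sub_div _ _ (by linarith) (by linarith), div_le_div_iff₀ (by positivity)
        (by positivity)]
      nlinarith
    rw [← add_assoc (((y : ℝ) + 1)), ← hx]
    linarith

/-- The reciprocal sum of the excess of the local weights is bounded. -/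
theorem sum_wgt_sub_one_div_le {K u : ℝ} {y : ℕ} (hK : 0 ≤ K) (hu : 0 ≤ u)
    (huy : u ≤ K * ((y : ℝ) + 1)) (Pm : Finset ℕ) (hPm : ∀ p ∈ Pm, p.Prime) :
    ∑ p ∈ Pm, (wgt y u p - 1) / p ≤ 4 * K * Real.exp (2 * K) := by
  rw [← Finset.sum_filter_add_sum_filter_not Pm (fun p => y < p),
    Finset.sum_eq_zero (s := Pm.filter fun p => ¬ y < p) (fun p hp => by
      rw [wgt, if_neg (Finset.mem_filter.1 hp).2]; simp), add_zero]
  calc ∑ p ∈ Pm.filter (fun p => y < p), (wgt y u p - 1) / p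
      ≤ ∑ p ∈ Pm.filter (fun p => y < p),
          2 * K * Real.exp (2 * K) * ((y : ℝ) + 1) * (1 / (p : ℝ) ^ 2) := by
        refine Finset.sum_le_sum fun p hp => ?_
        obtain ⟨h1, h2⟩ := Finset.mem_filter.1 hp
        refine le_trans (div_le_div_of_nonneg_right (wgt_sub_one_le hK hu huy (hPm p h1) h2).1
          (Nat.cast_nonneg _)) (le_of_eq ?_)
        ring
    _ ≤ 2 * K * Real.exp (2 * K) * ((y : ℝ) + 1) * (2 / ((y : ℝ) + 1)) := by
        rw [← Finset.mul_sum]
        exact mul_le_mul_of_nonneg_left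
          (sum_inv_sq_tail_le y _ fun p hp => (Finset.mem_filter.1 hp).2) (by positivity)
    _ = _ := by field_simp; ring

/-- Expansion of `hFac ^ u` in a sum over `T`. -/
theorem sum_mul_hFac_le {K u : ℝ} {y M : ℕ} (hK : 0 ≤ K) (hu : 0 ≤ u)
    (huy : u ≤ K * ((y : ℝ) + 1)) (T : Finset ℕ) (hT : ∀ c ∈ T, 1 ≤ c ∧ c ≤ M) (F : ℕ → ℝ)
    {B : ℝ} (hB : 0 ≤ B)
    (hd : ∀ e : ℕ, 0 < e → ∑ c ∈ T.filter (fun c => e ∣ c), F c ≤ B / e) :
    ∑ c ∈ T, F c * hFac y c ^ u ≤ B * Real.exp (4 * K * Real.exp (2 * K)) := by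
  classical
  set Pm := (Finset.range (M + 1)).filter Nat.Prime with hPm
  have hPp : ∀ p ∈ Pm, p.Prime := fun p hp => (Finset.mem_filter.1 hp).2
  have hexp : ∀ c ∈ T, hFac y c ^ u =
      ∑ e ∈ Pm.powerset, if (∏ p ∈ e, p) ∣ c then ∏ p ∈ e, (wgt y u p - 1) else 0 := by
    intro c hc
    obtain ⟨hc1, hc2⟩ := hT c hc
    rw [hFac_rpow, ← Finset.sum_filter,
      Finset.prod_congr rfl (g := fun p => 1 + (wgt y u p - 1)) (fun p _ => by ring),
      Finset.prod_one_add]
    refine Finset.sum_congr ?_ fun _ _ => rfl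
    ext e
    simp only [Finset.mem_powerset, Finset.mem_filter]
    constructor
    · intro h
      refine ⟨fun p hp => ?_, ?_⟩
      · have hp' := h hp
        exact Finset.mem_filter.2 ⟨Finset.mem_range.2 (Nat.lt_succ_of_le
          ((Nat.le_of_mem_primeFactors hp').trans hc2)), Nat.prime_of_mem_primeFactors hp'⟩
      · exact (Finset.prod_dvd_prod_of_subset _ _ _ h).trans (Nat.prod_primeFactors_dvd c)
    · rintro ⟨h1, h2⟩ p hp
      exact Nat.mem_primeFactors.2 ⟨hPp p (h1 hp),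
        (Finset.dvd_prod_of_mem (fun p => p) hp).trans h2, by omega⟩
  have hg : ∀ p ∈ Pm, 0 ≤ wgt y u p - 1 := fun p hp => sub_nonneg.2 (one_le_wgt hu (hPp p hp))
  calc ∑ c ∈ T, F c * hFac y c ^ u
      = ∑ e ∈ Pm.powerset, (∏ p ∈ e, (wgt y u p - 1)) *
          ∑ c ∈ T.filter (fun c => (∏ p ∈ e, p) ∣ c), F c := by
        rw [Finset.sum_congr rfl fun c hc => by rw [hexp c hc, Finset.mul_sum], Finset.sum_comm]
        refine Finset.sum_congr rfl fun e _ => ?_
        rw [Finset.mul_sum, Finset.sum_filter]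
        refine Finset.sum_congr rfl fun c _ => ?_
        split_ifs <;> ring
    _ ≤ ∑ e ∈ Pm.powerset, B * ∏ p ∈ e, ((wgt y u p - 1) / p) := by
        refine Finset.sum_le_sum fun e he => ?_
        have he' := Finset.mem_powerset.1 he
        refine le_trans (mul_le_mul_of_nonneg_left
          (hd _ (Finset.prod_pos fun p hp => (hPp p (he' hp)).pos))
          (Finset.prod_nonneg fun p hp => hg p (he' hp))) (le_of_eq ?_)
        rw [Finset.prod_div_distrib]
        push_cast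
        ring
    _ = B * ∏ p ∈ Pm, (1 + (wgt y u p - 1) / p) := by
        rw [Finset.prod_one_add, Finset.mul_sum]
    _ ≤ _ := by
        refine mul_le_mul_of_nonneg_left ?_ hB
        refine le_trans (Finset.prod_le_prod (fun p hp => add_nonneg zero_le_one
          (div_nonneg (hg p hp) (Nat.cast_nonneg _))) fun p _ => ?_)
          (le_trans (le_of_eq (Real.exp_sum _ _).symm)
            (Real.exp_le_exp.2 (sum_wgt_sub_one_div_le hK hu huy Pm hPp)))
        linarith [Real.add_one_le_exp ((wgt y u p - 1) / p)]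

/-- `hFac y n ^ s` is at most any positive power of `n`. -/
theorem hFac_rpow_le {K u δ : ℝ} {y : ℕ} (hK : 0 ≤ K) (hu : 0 ≤ u) (huy : u ≤ K * ((y : ℝ) + 1))
    (hδ : 0 < δ) {n : ℕ} (hn : 0 < n) :
    hFac y n ^ u ≤ Real.exp (2 * K) ^ ⌈Real.exp (2 * K / δ)⌉₊ * (n : ℝ) ^ δ := by
  set P0 := ⌈Real.exp (2 * K / δ)⌉₊ with hP0
  set E := Real.exp (2 * K) with hE
  have hE1 : 1 ≤ E := Real.one_le_exp (by positivity)
  rw [hFac_rpow]
  calc ∏ p ∈ n.primeFactors, wgt y u p
      ≤ ∏ p ∈ n.primeFactors, ((if p < P0 then E else 1) * (p : ℝ) ^ δ) := by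
        refine Finset.prod_le_prod (fun p hp => le_trans zero_le_one
          (one_le_wgt hu (Nat.prime_of_mem_primeFactors hp))) fun p hp => ?_
        have hp' := Nat.prime_of_mem_primeFactors hp
        have hp1 : (1 : ℝ) ≤ (p : ℝ) ^ δ :=
          Real.one_le_rpow (by exact_mod_cast hp'.one_lt.le) hδ.le
        have hw : wgt y u p ≤ E := by
          by_cases h : y < p
          · exact (wgt_sub_one_le hK hu huy hp' h).2
          · rw [wgt, if_neg h]; exact hE1
        split_ifs with h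
        · exact le_trans hw (le_mul_of_one_le_right (by linarith) hp1)
        · rw [one_mul]
          refine le_trans hw ?_
          have h1 : Real.exp (2 * K / δ) ≤ p := le_trans (Nat.le_ceil _)
            (by exact_mod_cast not_lt.1 h)
          refine le_trans (le_of_eq ?_) (Real.rpow_le_rpow (Real.exp_pos _).le h1 hδ.le)
          rw [← Real.exp_mul, hE, div_mul_cancel₀ _ hδ.ne']
    _ ≤ E ^ P0 * (n : ℝ) ^ δ := by
        rw [Finset.prod_mul_distrib]
        refine mul_le_mul ?_ ?_ (Finset.prod_nonneg fun _ _ => Real.rpow_nonneg (Nat.cast_nonneg _) _)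
          (by positivity)
        · rw [← Finset.prod_filter, Finset.prod_const]
          refine pow_le_pow_right₀ hE1 ?_
          refine le_trans (Finset.card_le_card (t := Finset.range P0) fun p hp => ?_)
            (Finset.card_range P0).le
          exact Finset.mem_range.2 (Finset.mem_filter.1 hp).2
        · rw [Real.finsetProd_rpow _ _ (fun p _ => Nat.cast_nonneg _), ← Nat.cast_prod]
          exact Real.rpow_le_rpow (Nat.cast_nonneg _)
            (by exact_mod_cast Nat.le_of_dvd hn (Nat.prod_primeFactors_dvd n)) hδ.le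

theorem totient_div_eq (n : ℕ) (hn : 0 < n) :
    (Nat.totient n : ℝ) / n = ∏ p ∈ n.primeFactors, (1 - 1 / (p : ℝ)) := by
  have h : ((n.totient : ℝ)) * ∏ p ∈ n.primeFactors, (p : ℝ) =
      (n : ℝ) * ∏ p ∈ n.primeFactors, ((p : ℝ) - 1) := by
    have h1 := congrArg (fun m : ℕ => (m : ℝ)) (Nat.totient_mul_prod_primeFactors n)
    simp only [Nat.cast_mul, Nat.cast_prod] at h1
    rw [h1]
    congr 1
    refine Finset.prod_congr rfl fun p hp => ?_
    rw [Nat.cast_sub (Nat.pos_of_mem_primeFactors hp)]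
    simp
  have e : ∀ p ∈ n.primeFactors, 1 - 1 / (p : ℝ) = ((p : ℝ) - 1) / (p : ℝ) := fun p hp => by
    have : (p : ℝ) ≠ 0 := by exact_mod_cast (Nat.pos_of_mem_primeFactors hp).ne'
    field_simp
  rw [Finset.prod_congr rfl e, Finset.prod_div_distrib, div_eq_div_iff (by positivity)
    (Finset.prod_ne_zero_iff.2 fun p hp => by
      exact_mod_cast (Nat.pos_of_mem_primeFactors hp).ne'), mul_comm _ (n : ℝ)]
  exact h

/-- `φ(w)/w ≤ φ(N)/N · d/φ(d)` when every prime of `N` divides `w d`. -/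
theorem totient_div_le {N w d : ℕ} (hN : 0 < N) (hw : 0 < w) (hd : 0 < d)
    (h : N.primeFactors ⊆ w.primeFactors ∪ d.primeFactors) :
    (Nat.totient w : ℝ) / w ≤
      (Nat.totient N : ℝ) / N * ((d : ℝ) / Nat.totient d) := by
  have hf : ∀ p : ℕ, p.Prime → 0 < 1 - 1 / (p : ℝ) ∧ 1 - 1 / (p : ℝ) ≤ 1 := by
    intro p hp
    have : (2 : ℝ) ≤ p := by exact_mod_cast hp.two_le
    constructor
    · rw [sub_pos, div_lt_one (by linarith)]; linarith
    · linarith [show (0 : ℝ) ≤ 1 / (p : ℝ) by positivity]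
  have hmem : ∀ {m p : ℕ}, p ∈ m.primeFactors → p.Prime := Nat.prime_of_mem_primeFactors
  have hd' : (Nat.totient d : ℝ) / d = ∏ p ∈ d.primeFactors, (1 - 1 / (p : ℝ)) := totient_div_eq d hd
  rw [← inv_div (Nat.totient d : ℝ), hd', totient_div_eq N hN, totient_div_eq w hw,
    ← div_eq_mul_inv, le_div_iff₀ (Finset.prod_pos fun p hp => (hf p (hmem hp)).1)]
  have hu : ∀ p ∈ w.primeFactors ∪ d.primeFactors, p.Prime := fun p hp =>
    (Finset.mem_union.1 hp).elim (fun h => hmem h) fun h => hmem h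
  rw [← Finset.prod_union_inter]
  refine le_trans (mul_le_of_le_one_right (Finset.prod_nonneg fun p hp => (hf p (hu p hp)).1.le)
    (Finset.prod_le_one (fun p hp => (hf p (hmem (Finset.mem_inter.1 hp).1)).1.le)
      fun p hp => (hf p (hmem (Finset.mem_inter.1 hp).1)).2)) ?_
  rw [← Finset.prod_sdiff h]
  exact mul_le_of_le_one_left (Finset.prod_nonneg fun p hp => (hf p (hmem hp)).1.le)
    (Finset.prod_le_one (fun p hp => (hf p (hu p (Finset.mem_sdiff.1 hp).1)).1.le)
      fun p hp => (hf p (hu p (Finset.mem_sdiff.1 hp).1)).2)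

theorem weighted_divisor_sum_mul (R : ℕ → ℝ) {a b : ℕ} (hab : a.Coprime b) :
    ∑ d ∈ (a * b).divisors, (∏ p ∈ d.primeFactors, R p) / (Nat.totient d : ℝ) =
      (∑ d ∈ a.divisors, (∏ p ∈ d.primeFactors, R p) / (Nat.totient d : ℝ)) *
        ∑ d ∈ b.divisors, (∏ p ∈ d.primeFactors, R p) / (Nat.totient d : ℝ) := by
  let f : ArithmeticFunction ℝ :=
    ⟨fun d => (∏ p ∈ d.primeFactors, R p) / (Nat.totient d : ℝ), by simp⟩
  have hf : f.IsMultiplicative := by
    refine ⟨by simp [f], fun {m n} hmn => ?_⟩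
    simp only [f, ArithmeticFunction.coe_mk]
    rw [Nat.Coprime.primeFactors_mul hmn, Finset.prod_union hmn.disjoint_primeFactors,
      Nat.totient_mul hmn, Nat.cast_mul, div_mul_div_comm]
  have h := (ArithmeticFunction.isMultiplicative_zeta.natCast.mul hf).map_mul_of_coprime hab
  rw [ArithmeticFunction.coe_zeta_mul_apply, ArithmeticFunction.coe_zeta_mul_apply,
    ArithmeticFunction.coe_zeta_mul_apply] at h
  exact h

/-- A weighted divisor sum. -/
theorem divisor_sum_le (R : ℕ → ℝ) (hR : ∀ p, p.Prime → 1 ≤ R p) (N : ℕ) (hN : 0 < N) :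
    (Nat.totient N : ℝ) / N * ∑ d ∈ N.divisors, (∏ p ∈ d.primeFactors, R p) / (Nat.totient d : ℝ) ≤
      ∏ p ∈ N.primeFactors,
        (1 + (1 / ((p : ℝ) * ((p : ℝ) - 1)) + (R p - 1) / ((p : ℝ) - 1))) := by
  induction N using Nat.recOnPosPrimePosCoprime with
  | zero => simp at hN
  | one => simp
  | prime_pow p k hp hk =>
    have hp2 : (2 : ℝ) ≤ p := by exact_mod_cast hp.two_le
    have hp1 : ((p : ℝ) - 1) ≠ 0 := by linarith
    rw [totient_div_eq _ (pow_pos hp.pos k), Nat.primeFactors_prime_pow (by omega) hp,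
      Finset.prod_singleton, Finset.prod_singleton, Nat.divisors_prime_pow hp, Finset.sum_map]
    simp only [Function.Embedding.coeFn_mk]
    rw [Finset.sum_range_succ']
    have hterm : ∀ i : ℕ, (∏ q ∈ (p ^ (i + 1)).primeFactors, R q) / (Nat.totient (p ^ (i + 1)) : ℝ) =
        R p / ((p : ℝ) - 1) * (1 / (p : ℝ)) ^ i := by
      intro i
      rw [Nat.primeFactors_prime_pow (by omega) hp, Finset.prod_singleton,
        Nat.totient_prime_pow hp (Nat.succ_pos i)]
      simp only [Nat.succ_sub_one]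
      rw [Nat.cast_mul, Nat.cast_sub hp.one_lt.le, Nat.cast_pow, one_div_pow, Nat.cast_one]
      field_simp
    simp only [hterm, ← Finset.mul_sum, pow_zero, Nat.primeFactors_one, Finset.prod_empty,
      Nat.totient_one, Nat.cast_one, div_one]
    have hgeom : ∑ i ∈ Finset.range k, (1 / (p : ℝ)) ^ i ≤ (p : ℝ) / ((p : ℝ) - 1) := by
      refine le_trans ((summable_geometric_of_lt_one (by positivity)
        ((div_lt_one (by linarith)).2 (by linarith))).sum_le_tsum _ fun i _ => by positivity) ?_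
      rw [tsum_geometric_of_lt_one (by positivity) ((div_lt_one (by linarith)).2 (by linarith))]
      refine le_of_eq ?_
      field_simp
    have h0 : 0 ≤ 1 - 1 / (p : ℝ) := by rw [sub_nonneg, div_le_one (by linarith)]; linarith
    have hRp : 0 ≤ R p / ((p : ℝ) - 1) := div_nonneg (by linarith [hR p hp]) (by linarith)
    refine le_trans (mul_le_mul_of_nonneg_left (add_le_add
      (mul_le_mul_of_nonneg_left hgeom hRp) (le_refl 1)) h0) (le_of_eq ?_)
    field_simp
    ring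
  | coprime a b ha hb hab iha ihb =>
    have ha0 : 0 < a := by omega
    have hb0 : 0 < b := by omega
    rw [Nat.Coprime.primeFactors_mul hab, Finset.prod_union hab.disjoint_primeFactors]
    refine le_trans (le_of_eq ?_) (mul_le_mul (iha ha0) (ihb hb0) ?_ ?_)
    · rw [Nat.totient_mul hab, weighted_divisor_sum_mul R hab]
      push_cast
      ring
    · refine mul_nonneg (by positivity) (Finset.sum_nonneg fun d _ => div_nonneg
        (Finset.prod_nonneg fun p hp => le_trans zero_le_one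
          (hR p (Nat.prime_of_mem_primeFactors hp))) (Nat.cast_nonneg _))
    · refine Finset.prod_nonneg fun p hp => ?_
      have hp' := Nat.prime_of_mem_primeFactors hp
      have : (2 : ℝ) ≤ p := by exact_mod_cast hp'.two_le
      have := hR p hp'
      have : 0 ≤ 1 / ((p : ℝ) * ((p : ℝ) - 1)) := div_nonneg zero_le_one (by nlinarith)
      have : 0 ≤ (R p - 1) / ((p : ℝ) - 1) := div_nonneg (by linarith) (by linarith)
      linarith

theorem sum_inv_mul_pred_le (T : Finset ℕ) (hT : ∀ p ∈ T, 2 ≤ p) :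
    ∑ p ∈ T, 1 / ((p : ℝ) * ((p : ℝ) - 1)) ≤ 1 := by
  obtain ⟨M, hM⟩ : ∃ M, ∀ p ∈ T, p ≤ M := ⟨T.sup id, fun p hp => Finset.le_sup (f := id) hp⟩
  have hsub : T ⊆ (Finset.range (M - 1)).image (fun i => i + 2) := fun p hp => by
    have := hT p hp
    have := hM p hp
    exact Finset.mem_image.2 ⟨p - 2, Finset.mem_range.2 (by omega), by omega⟩
  refine le_trans (Finset.sum_le_sum_of_subset_of_nonneg hsub fun p hp _ => ?_) ?_
  · obtain ⟨i, _, rfl⟩ := Finset.mem_image.1 hp
    push_cast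
    exact div_nonneg zero_le_one (mul_nonneg (by positivity) (by linarith [Nat.cast_nonneg (α := ℝ) i]))
  rw [Finset.sum_image (fun i _ k _ h => by omega)]
  suffices ∀ j : ℕ, ∑ i ∈ Finset.range j, 1 / (((i + 2 : ℕ) : ℝ) * (((i + 2 : ℕ) : ℝ) - 1)) =
      1 - 1 / ((j : ℝ) + 1) by
    rw [this]; exact sub_le_self _ (by positivity)
  intro j
  induction j with
  | zero => simp
  | succ j ih =>
    rw [Finset.sum_range_succ, ih]
    push_cast
    have h1 : (j : ℝ) + 1 ≠ 0 := by positivity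
    have h2 : (j : ℝ) + 2 ≠ 0 := by positivity
    rw [show (j : ℝ) + 2 - 1 = (j : ℝ) + 1 by ring, show (j : ℝ) + 1 + 1 = (j : ℝ) + 2 by ring]
    field_simp
    ring

/-- The weighted divisor sum is bounded when the excess weights have bounded reciprocal sum. -/
theorem divisor_sum_bound {B : ℝ} (R : ℕ → ℝ) (hR : ∀ p, p.Prime → 1 ≤ R p) (N : ℕ) (hN : 0 < N)
    (hB : ∑ p ∈ N.primeFactors, (R p - 1) / (p : ℝ) ≤ B) :
    (Nat.totient N : ℝ) / N * ∑ d ∈ N.divisors, (∏ p ∈ d.primeFactors, R p) / (Nat.totient d : ℝ) ≤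
      Real.exp (1 + 2 * B) := by
  refine le_trans (divisor_sum_le R hR N hN) (le_trans (Finset.prod_le_prod ?_ fun p _ =>
    (add_comm _ _).trans_le (Real.add_one_le_exp _)) ?_)
  · intro p hp
    have : (2 : ℝ) ≤ p := by exact_mod_cast (Nat.prime_of_mem_primeFactors hp).two_le
    have := hR p (Nat.prime_of_mem_primeFactors hp)
    exact add_nonneg zero_le_one (add_nonneg (div_nonneg zero_le_one (by nlinarith))
      (div_nonneg (by linarith) (by linarith)))
  rw [← Real.exp_sum]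
  rw [Real.exp_le_exp, Finset.sum_add_distrib]
  refine add_le_add (sum_inv_mul_pred_le _ fun p hp => (Nat.prime_of_mem_primeFactors hp).two_le) ?_
  refine le_trans (Finset.sum_le_sum fun p hp => ?_) (le_trans
    (le_of_eq (Finset.mul_sum _ _ _).symm) (mul_le_mul_of_nonneg_left hB (by norm_num)))
  have h2 : (2 : ℝ) ≤ p := by exact_mod_cast (Nat.prime_of_mem_primeFactors hp).two_le
  have h3 : 0 ≤ R p - 1 := by linarith [hR p (Nat.prime_of_mem_primeFactors hp)]
  calc (R p - 1) / ((p : ℝ) - 1) ≤ (R p - 1) / ((p : ℝ) / 2) :=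
        div_le_div_of_nonneg_left h3 (by linarith) (by linarith)
    _ = 2 * ((R p - 1) / (p : ℝ)) := by ring

end Vale.Agent.P028.BilinearAux
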