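import Mathlib

/-!
The prime-by-prime splitting argument.  A state is given by a set `U` of unfixed primes, two finite
sets `V`, `W` whose members have prescribed valuations `i`, `j` outside `U`.  If in every state the
pairs without a common deviation from a centre `k` obey the bound `G`, so do all pairs.
-/

noncomputable section

namespace Vale.Agent.P028

open Finset

/-- `∏ p ^ (i p - j p)` over a set of fixed primes. -/
def fixedPart (T : Finset ℕ) (i j : ℕ → ℕ) : ℕ := ∏ p ∈ T, p ^ (i p - j p)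

/-- In `v`, `w` no prime of `U` deviates from the centre `k` on both sides. -/
def NoCoDev (U : Finset ℕ) (k : ℕ → ℕ) (v w : ℕ) : Prop :=
  ∀ p ∈ U, v.factorization p = k p ∨ w.factorization p = k p

/-- The hypothesis on final states, for two weights. -/
def FinalBound2 (θ β G : ℝ) (P S : Finset ℕ) (F F' : ℕ → ℝ) (K : ℕ → ℕ → ℝ) : Prop :=
  ∀ (U V W : Finset ℕ) (i j k : ℕ → ℕ), U ⊆ P → V ⊆ S → W ⊆ S →
    (∀ v ∈ V, ∀ p, p ∉ U → v.factorization p = i p) →
    (∀ w ∈ W, ∀ p, p ∉ U → w.factorization p = j p) →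
    ∀ K' : ℕ → ℕ → ℝ, (∀ v w, 0 ≤ K' v w) → (∀ v w, K' v w ≤ K v w) →
      (∀ v w, K' v w ≠ 0 → NoCoDev U k v w) →
      ∑ v ∈ V, ∑ w ∈ W, K' v w * (F v * F' w) ≤
        G * ((∑ v ∈ V, F v) * ∑ w ∈ W, F' w) ^ θ /
          ((fixedPart (P \ U) i j * fixedPart (P \ U) j i : ℕ) : ℝ) ^ β

/-- The hypothesis on final states. -/
def FinalBound (θ β G : ℝ) (P S : Finset ℕ) (F : ℕ → ℝ) (K : ℕ → ℕ → ℝ) : Prop :=
  ∀ (U V W : Finset ℕ) (i j k : ℕ → ℕ), U ⊆ P → V ⊆ S → W ⊆ S →
    (∀ v ∈ V, ∀ p, p ∉ U → v.factorization p = i p) →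
    (∀ w ∈ W, ∀ p, p ∉ U → w.factorization p = j p) →
    ∀ K' : ℕ → ℕ → ℝ, (∀ v w, 0 ≤ K' v w) → (∀ v w, K' v w ≤ K v w) →
      (∀ v w, K' v w ≠ 0 → NoCoDev U k v w) →
      ∑ v ∈ V, ∑ w ∈ W, K' v w * (F v * F w) ≤
        G * ((∑ v ∈ V, F v) * ∑ w ∈ W, F w) ^ θ /
          ((fixedPart (P \ U) i j * fixedPart (P \ U) j i : ℕ) : ℝ) ^ β

/-! ### Geometric weights -/

private theorem sum_pow_succ_le {u : ℝ} (h0 : 0 ≤ u) (h1 : u < 1) (m : ℕ) :
    ∑ d ∈ Finset.range m, u ^ (d + 1) ≤ u / (1 - u) := by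
  have hfix : u * (1 + u / (1 - u)) = u / (1 - u) := by
    have : (1 - u) ≠ 0 := by linarith
    field_simp
    ring
  induction m with
  | zero => simpa using div_nonneg h0 (by linarith)
  | succ m ih =>
    have : ∑ d ∈ Finset.range (m + 1), u ^ (d + 1)
        = u * (1 + ∑ d ∈ Finset.range m, u ^ (d + 1)) := by
      rw [Finset.sum_range_succ', mul_add, Finset.mul_sum, mul_one, zero_add, pow_one, add_comm]
      exact congrArg (u + ·) (Finset.sum_congr rfl fun d _ => pow_succ' u (d + 1))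
    rw [this, ← hfix]
    gcongr

private theorem sum_dist_off_le {u : ℝ} (h0 : 0 ≤ u) (h1 : u < 1) (n i : ℕ) :
    ∑ j ∈ Finset.range n, (if i = j then 0 else u ^ Nat.dist i j) ≤ 2 * u / (1 - u) := by
  have hmono : ∑ j ∈ Finset.range n, (if i = j then 0 else u ^ Nat.dist i j) ≤
      ∑ j ∈ Finset.range (i + (n + 1)), (if i = j then 0 else u ^ Nat.dist i j) := by
    apply Finset.sum_le_sum_of_subset_of_nonneg (Finset.range_mono (by omega))
    intro j _ _
    split <;> positivity
  refine hmono.trans ?_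
  rw [Finset.sum_range_add, Finset.sum_range_succ']
  have e1 : ∑ j ∈ Finset.range i, (if i = j then 0 else u ^ Nat.dist i j)
      = ∑ d ∈ Finset.range i, u ^ (d + 1) := by
    rw [← Finset.sum_range_reflect]
    apply Finset.sum_congr rfl
    intro d hd
    rw [Finset.mem_range] at hd
    rw [if_neg (by omega)]
    congr 1
    simp only [Nat.dist]
    omega
  have e2 : ∑ d ∈ Finset.range n, (if i = i + (d + 1) then 0 else u ^ Nat.dist i (i + (d + 1)))
      = ∑ d ∈ Finset.range n, u ^ (d + 1) := by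
    apply Finset.sum_congr rfl
    intro d _
    rw [if_neg (by omega)]
    congr 1
    simp only [Nat.dist]
    omega
  rw [e1, e2, mul_div_assoc, two_mul]
  simp only [add_zero, if_true]
  exact add_le_add (sum_pow_succ_le h0 h1 i) (sum_pow_succ_le h0 h1 n)

private theorem sum_dist_le {u : ℝ} (h0 : 0 ≤ u) (h1 : u < 1) (n i : ℕ) :
    ∑ j ∈ Finset.range n, u ^ Nat.dist i j ≤ 1 + 2 * u / (1 - u) := by
  have h := sum_dist_off_le h0 h1 n i
  have e : ∀ j, u ^ Nat.dist i j
      = (if i = j then (1 : ℝ) else 0) + (if i = j then 0 else u ^ Nat.dist i j) := by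
    intro j
    split_ifs with hij
    · subst hij; simp [Nat.dist]
    · simp
  rw [Finset.sum_congr rfl (fun j _ => e j), Finset.sum_add_distrib]
  refine add_le_add ?_ h
  rw [Finset.sum_ite_eq]
  split <;> norm_num

/-! ### The weighted product of two families -/

private theorem mul_rpow_le_linear {θ h x y : ℝ} (hθ : 1 / 2 ≤ θ) (_hh : 0 ≤ h) (hx : 0 ≤ x)
    (hy : 0 ≤ y) (hxh : x ≤ h) (hyh : y ≤ h) :
    (x * y) ^ θ ≤ h ^ (2 * θ - 1) * ((x + y) / 2) := by
  have key : ∀ z : ℝ, 0 ≤ z → z ≤ h → (z ^ θ) ^ 2 ≤ h ^ (2 * θ - 1) * z := by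
    intro z hz hzh
    have e : (z ^ θ) ^ 2 = z ^ (2 * θ - 1) * z := by
      conv_rhs => rw [← Real.rpow_add_one' hz (by linarith)]
      rw [← Real.rpow_natCast (z ^ θ) 2, ← Real.rpow_mul hz]
      congr 1
      push_cast
      ring
    rw [e]
    exact mul_le_mul_of_nonneg_right (Real.rpow_le_rpow hz hzh (by linarith)) hz
  rw [Real.mul_rpow hx hy]
  nlinarith [key x hx hxh, key y hy hyh, sq_nonneg (x ^ θ - y ^ θ)]

private theorem weighted_le {θ h R : ℝ} (hθ : 1 / 2 ≤ θ) (hh : 0 ≤ h) (hR : 0 ≤ R) (n : ℕ)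
    (w : ℕ → ℕ → ℝ) (hw : ∀ i j, 0 ≤ w i j) (hsym : ∀ i j, w i j = w j i)
    (hrow : ∀ i, ∑ j ∈ Finset.range n, w i j ≤ R)
    (x y : ℕ → ℝ) (hx : ∀ i, 0 ≤ x i) (hy : ∀ i, 0 ≤ y i)
    (hxs : ∑ i ∈ Finset.range n, x i ≤ h) (hys : ∑ i ∈ Finset.range n, y i ≤ h) :
    ∑ i ∈ Finset.range n, ∑ j ∈ Finset.range n, (x i * y j) ^ θ * w i j ≤
      R * h ^ (2 * θ) := by
  set s := Finset.range n
  have hp : h ^ (2 * θ) = h ^ (2 * θ - 1) * h := by
    rw [← Real.rpow_add_one' hh (by linarith)]
    congr 1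
    ring
  calc ∑ i ∈ s, ∑ j ∈ s, (x i * y j) ^ θ * w i j
      ≤ ∑ i ∈ s, ∑ j ∈ s, h ^ (2 * θ - 1) * ((x i + y j) / 2) * w i j := by
        apply Finset.sum_le_sum
        intro i hi
        apply Finset.sum_le_sum
        intro j hj
        refine mul_le_mul_of_nonneg_right (mul_rpow_le_linear hθ hh (hx i) (hy j) ?_ ?_) (hw i j)
        · exact (Finset.single_le_sum (fun k _ => hx k) hi).trans hxs
        · exact (Finset.single_le_sum (fun k _ => hy k) hj).trans hys
    _ = h ^ (2 * θ - 1) / 2 * (∑ i ∈ s, x i * ∑ j ∈ s, w i j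
          + ∑ j ∈ s, y j * ∑ i ∈ s, w j i) := by
        simp only [Finset.mul_sum]
        rw [Finset.sum_comm (f := fun j i => y j * w j i), ← Finset.sum_add_distrib, Finset.mul_sum]
        apply Finset.sum_congr rfl
        intro i _
        rw [← Finset.sum_add_distrib, Finset.mul_sum]
        apply Finset.sum_congr rfl
        intro j _
        rw [hsym j i]
        ring
    _ ≤ h ^ (2 * θ - 1) / 2 * (∑ i ∈ s, x i * R + ∑ j ∈ s, y j * R) := by
        refine mul_le_mul_of_nonneg_left ?_ (by positivity)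
        gcongr with i _ j _
        · exact hx i
        · exact hrow i
        · exact hy j
        · exact hrow j
    _ ≤ h ^ (2 * θ - 1) / 2 * (h * R + h * R) := by
        rw [← Finset.sum_mul, ← Finset.sum_mul]
        gcongr
    _ = R * h ^ (2 * θ) := by rw [hp]; ring

private theorem rpow_neg_pow (p : ℕ) (β : ℝ) (d : ℕ) :
    1 / (p : ℝ) ^ (β * (d : ℝ)) = ((p : ℝ) ^ (-β)) ^ d := by
  rw [Real.rpow_mul (Nat.cast_nonneg p), Real.rpow_natCast, Real.rpow_neg (Nat.cast_nonneg p),
    inv_pow, one_div]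

private theorem eventually_small {β δ : ℝ} (hβ : 0 < β) (hδ : 0 < δ) :
    ∃ p0 : ℕ, ∀ p : ℕ, p0 ≤ p → (p : ℝ) ^ (-β) ≤ δ := by
  have h := ((tendsto_rpow_neg_atTop hβ).comp tendsto_natCast_atTop_atTop).eventually
    (Iic_mem_nhds hδ)
  rw [Filter.eventually_atTop] at h
  obtain ⟨p0, h⟩ := h
  exact ⟨p0, fun p hp => h p hp⟩

private theorem diag_centre_le {θ H : ℝ} (hθ : 1 / 2 < θ)
    (n k : ℕ) (hk : k ∈ Finset.range n)
    (a b a' b' : ℕ → ℝ) (ha'0 : ∀ i, 0 ≤ a' i) (hb'0 : ∀ i, 0 ≤ b' i)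
    (ha' : a' = fun i => if i = k then 0 else a i) (hb' : b' = fun i => if i = k then 0 else b i)
    (hH0 : 0 ≤ H)
    (hsa' : ∑ i ∈ Finset.range n, a' i ≤ H) (hsb' : ∑ i ∈ Finset.range n, b' i ≤ H) :
    ∑ i ∈ Finset.range n, (a i * b i) ^ θ ≤ (a k * b k) ^ θ + H ^ (2 * θ) := by
  have hθ0 : 0 < θ := by linarith
  set s := Finset.range n
  have := weighted_le hθ.le hH0 zero_le_one n (fun i j => if i = j then (1:ℝ) else 0)
    (fun i j => by split <;> norm_num) (fun i j => by simp only [eq_comm (a := i)])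
    (fun i => by rw [Finset.sum_ite_eq]; split <;> norm_num) a' b' ha'0 hb'0 hsa' hsb'
  rw [one_mul] at this
  rw [← Finset.sum_erase_add s _ hk, add_comm]
  refine add_le_add le_rfl (le_trans ?_ this)
  rw [← Finset.sum_erase s (f := fun i => ∑ j ∈ s, (a' i * b' j) ^ θ * (if i = j then (1:ℝ) else 0))
    (a := k) (by simp [ha', hθ0.ne'])]
  apply le_of_eq
  apply Finset.sum_congr rfl
  intro i hi
  obtain ⟨hik, his⟩ := Finset.mem_erase.1 hi
  simp [ha', hb', hik, his]

private theorem off_centre_le {θ u H : ℝ} (hθ : 1 / 2 < θ) (hu0 : 0 ≤ u)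
    (n k : ℕ) (hk : k ∈ Finset.range n) (off : ℕ → ℕ → ℝ)
    (hoff0 : ∀ i j, 0 ≤ off i j) (hoffs : ∀ i j, off i j = off j i) (hdia : ∀ i, off i i = 0)
    (hoffr : ∀ i, ∑ j ∈ Finset.range n, off i j ≤ 3 * u)
    (a b a' b' : ℕ → ℝ) (ha : ∀ i, 0 ≤ a i) (hb : ∀ i, 0 ≤ b i) (hak : a k ≤ 1) (hbk : b k ≤ 1)
    (ha'0 : ∀ i, 0 ≤ a' i) (hb'0 : ∀ i, 0 ≤ b' i)
    (ha' : a' = fun i => if i = k then 0 else a i) (hb' : b' = fun i => if i = k then 0 else b i)
    (hH0 : 0 ≤ H) (hH1' : H ≤ 1)
    (hsa' : ∑ i ∈ Finset.range n, a' i ≤ H) (hsb' : ∑ i ∈ Finset.range n, b' i ≤ H) :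
    ∑ i ∈ Finset.range n, ∑ j ∈ Finset.range n, (a i * b j) ^ θ * off i j ≤ 9 * u * H ^ θ := by
  have hθ0 : 0 < θ := by linarith
  set s := Finset.range n
  have hmono : H ^ (2 * θ) ≤ H ^ θ := by
    rcases eq_or_lt_of_le hH0 with h | h
    · rw [← h, Real.zero_rpow (by linarith), Real.zero_rpow (by linarith)]
    · exact Real.rpow_le_rpow_of_exponent_ge h hH1' (by linarith)
  have hH1 : ∀ f f' : ℕ → ℝ, (∀ i, 0 ≤ f' i) → f' = (fun i => if i = k then 0 else f i) →
      ∑ i ∈ s, f' i ≤ H → ∑ i ∈ s, (f' i) ^ θ * off i k ≤ 3 * u * H ^ θ := by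
    intro f f' hf' _ hfs
    calc ∑ i ∈ s, (f' i) ^ θ * off i k ≤ ∑ i ∈ s, H ^ θ * off i k := by
          apply Finset.sum_le_sum
          intro i hi
          refine mul_le_mul_of_nonneg_right (Real.rpow_le_rpow (hf' i) ?_ hθ0.le) (hoff0 _ _)
          exact (Finset.single_le_sum (fun j _ => hf' j) hi).trans hfs
      _ = H ^ θ * ∑ i ∈ s, off k i := by
          rw [Finset.mul_sum]
          exact Finset.sum_congr rfl (fun i _ => by rw [hoffs])
      _ ≤ H ^ θ * (3 * u) := mul_le_mul_of_nonneg_left (hoffr k) (Real.rpow_nonneg hH0 _)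
      _ = _ := by ring
  have h3 := weighted_le hθ.le hH0 (by linarith : (0:ℝ) ≤ 3 * u) n off hoff0 hoffs hoffr a' b' ha'0 hb'0 hsa' hsb'
  have hpt : ∀ i ∈ s, ∀ j ∈ s, (a i * b j) ^ θ * off i j ≤
      (a' i * b' j) ^ θ * off i j + (if j = k then (a' i) ^ θ * off i j else 0)
        + (if i = k then (b' j) ^ θ * off i j else 0) := by
    intro i hi j hj
    by_cases hik : i = k
    · by_cases hjk : j = k
      · subst hik; subst hjk; simp [hdia]
      · rw [if_neg hjk, if_pos hik]
        simp only [ha', hb', if_pos hik, if_neg hjk, zero_mul, Real.zero_rpow hθ0.ne', zero_add]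
        refine mul_le_mul_of_nonneg_right (Real.rpow_le_rpow (mul_nonneg (ha i) (hb j)) ?_ hθ0.le)
          (hoff0 _ _)
        subst hik
        exact mul_le_of_le_one_left (hb j) hak
    · by_cases hjk : j = k
      · rw [if_pos hjk, if_neg hik]
        simp only [ha', hb', if_neg hik, if_pos hjk, mul_zero, zero_mul, Real.zero_rpow hθ0.ne',
          zero_add, add_zero]
        refine mul_le_mul_of_nonneg_right (Real.rpow_le_rpow (mul_nonneg (ha i) (hb j)) ?_ hθ0.le)
          (hoff0 _ _)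
        subst hjk
        exact mul_le_of_le_one_right (ha i) hbk
      · simp [ha', hb', hik, hjk]
  refine (Finset.sum_le_sum fun i hi => Finset.sum_le_sum (hpt i hi)).trans ?_
  simp only [Finset.sum_add_distrib]
  have t2 : ∑ i ∈ s, ∑ j ∈ s, (if j = k then (a' i) ^ θ * off i j else 0)
      = ∑ i ∈ s, (a' i) ^ θ * off i k :=
    Finset.sum_congr rfl (fun i _ => by rw [Finset.sum_ite_eq', if_pos hk])
  have t3 : ∑ i ∈ s, ∑ j ∈ s, (if i = k then (b' j) ^ θ * off i j else 0)
      = ∑ j ∈ s, (b' j) ^ θ * off j k := by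
    rw [Finset.sum_comm]
    exact Finset.sum_congr rfl (fun j _ => by rw [Finset.sum_ite_eq', if_pos hk, hoffs])
  rw [t2, t3]
  have hu' : (0:ℝ) ≤ 3 * u := by linarith
  nlinarith [hH1 a a' ha'0 ha' hsa', hH1 b b' hb'0 hb' hsb', h3,
    mul_le_mul_of_nonneg_left hmono hu']

/-- Concentration at one prime: if splitting by valuations does not decrease the bound, both
distributions concentrate at one common valuation. -/
theorem exists_concentration (θ β : ℝ) (hθ : 1 / 2 < θ) (hθ1 : θ < 1) (hβ : 0 < β) :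
    ∃ (C : ℝ) (p0 : ℕ), ∀ p : ℕ, p0 ≤ p → ∀ (n : ℕ) (a b : ℕ → ℝ),
      (∀ i, 0 ≤ a i) → (∀ i, 0 ≤ b i) →
      (∑ i ∈ Finset.range n, a i = 1) → (∑ i ∈ Finset.range n, b i = 1) →
      1 < ∑ i ∈ Finset.range n, ∑ j ∈ Finset.range n,
          (a i * b j) ^ θ / (p : ℝ) ^ (β * (Nat.dist i j : ℝ)) →
      ∃ k, k < n ∧ 1 - a k ≤ C * (p : ℝ) ^ (-(β / (1 - θ))) ∧
        1 - b k ≤ C * (p : ℝ) ^ (-(β / (1 - θ))) := by
  have h2θ : 0 < 2 * θ - 1 := by linarith
  have hθ0 : 0 < θ := by linarith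
  set ε : ℝ := (θ / 2) ^ (1 / (2 * θ - 1)) with hε
  have hεpos : 0 < ε := Real.rpow_pos_of_pos (by linarith) _
  have hε1 : ε ≤ 1 := Real.rpow_le_one (by linarith) (by linarith) (by positivity)
  have hεp : ε ^ (2 * θ - 1) = θ / 2 := by
    rw [hε, ← Real.rpow_mul (by linarith), one_div, inv_mul_cancel₀ h2θ.ne', Real.rpow_one]
  have hgap : 0 < 1 - (1 - ε / 2) ^ (2 * θ - 1) := by
    linarith [Real.rpow_lt_one (show (0:ℝ) ≤ 1 - ε / 2 by linarith)
      (show 1 - ε / 2 < 1 by linarith) h2θ]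
  obtain ⟨p0, hp0⟩ := eventually_small hβ
    (show 0 < min (1 / 3) ((1 - (1 - ε / 2) ^ (2 * θ - 1)) / 3) from lt_min (by norm_num) (by linarith))
  refine ⟨(18 / θ) ^ (1 / (1 - θ)), p0, ?_⟩
  intro p hp n a b ha hb hsa hsb hS
  set u : ℝ := (p : ℝ) ^ (-β) with hu
  have hu0 : 0 ≤ u := Real.rpow_nonneg (Nat.cast_nonneg p) _
  have hu3 : u ≤ 1 / 3 := (hp0 p hp).trans (min_le_left _ _)
  have hugap : 3 * u ≤ 1 - (1 - ε / 2) ^ (2 * θ - 1) := by
    linarith [(hp0 p hp).trans (min_le_right _ _)]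
  have hW : 2 * u / (1 - u) ≤ 3 * u := by
    rw [div_le_iff₀ (by linarith)]
    nlinarith
  set s := Finset.range n with hs
  -- the off-diagonal part
  set off : ℕ → ℕ → ℝ := fun i j => if i = j then 0 else u ^ Nat.dist i j with hoff
  have hoff0 : ∀ i j, 0 ≤ off i j := by
    intro i j
    simp only [hoff]
    split <;> positivity
  have hoffs : ∀ i j, off i j = off j i := by
    intro i j
    simp only [hoff, Nat.dist_comm i j, eq_comm (a := i)]
  have hoffr : ∀ i, ∑ j ∈ s, off i j ≤ 3 * u := fun i =>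
    (sum_dist_off_le hu0 (by linarith) n i).trans hW
  have hsplit : ∑ i ∈ s, ∑ j ∈ s, (a i * b j) ^ θ / (p : ℝ) ^ (β * (Nat.dist i j : ℝ))
      = ∑ i ∈ s, (a i * b i) ^ θ + ∑ i ∈ s, ∑ j ∈ s, (a i * b j) ^ θ * off i j := by
    rw [← Finset.sum_add_distrib]
    apply Finset.sum_congr rfl
    intro i hi
    have e : (a i * b i) ^ θ = ∑ j ∈ s, if i = j then (a i * b j) ^ θ else 0 := by
      rw [Finset.sum_ite_eq, if_pos hi]
    rw [e, ← Finset.sum_add_distrib]
    apply Finset.sum_congr rfl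
    intro j _
    rw [div_eq_mul_one_div, rpow_neg_pow, ← hu]
    simp only [hoff]
    split_ifs with hij
    · subst hij; simp [Nat.dist]
    · simp
  rw [hsplit] at hS
  have hoff_le : ∑ i ∈ s, ∑ j ∈ s, (a i * b j) ^ θ * off i j ≤ 3 * u := by
    have := weighted_le (h := 1) hθ.le zero_le_one (by linarith) n off hoff0 hoffs hoffr a b ha hb
      hsa.le hsb.le
    simpa using this
  -- the centre
  have hne : s.Nonempty := by
    rw [Finset.nonempty_iff_ne_empty]
    intro h
    rw [h] at hsa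
    simp at hsa
  obtain ⟨k, hk, hmax⟩ := Finset.exists_max_image s (fun i => (a i + b i) / 2) hne
  have hak : a k ≤ 1 := hsa ▸ Finset.single_le_sum (fun i _ => ha i) hk
  have hbk : b k ≤ 1 := hsb ▸ Finset.single_le_sum (fun i _ => hb i) hk
  set c : ℝ := (a k + b k) / 2 with hc
  have hc0 : 0 ≤ c := by linarith [ha k, hb k]
  have hdiag : ∑ i ∈ s, (a i * b i) ^ θ ≤ c ^ (2 * θ - 1) := by
    calc ∑ i ∈ s, (a i * b i) ^ θ
        ≤ ∑ i ∈ s, c ^ (2 * θ - 1) * ((a i + b i) / 2) := by
          apply Finset.sum_le_sum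
          intro i hi
          have hm : (a i + b i) / 2 ≤ c := hmax i hi
          have hnn : 0 ≤ (a i + b i) / 2 := by linarith [ha i, hb i]
          calc (a i * b i) ^ θ ≤ (((a i + b i) / 2) * ((a i + b i) / 2)) ^ θ := by
                apply Real.rpow_le_rpow (mul_nonneg (ha i) (hb i)) _ hθ0.le
                nlinarith [sq_nonneg (a i - b i)]
            _ ≤ c ^ (2 * θ - 1) * (((a i + b i) / 2 + (a i + b i) / 2) / 2) :=
                mul_rpow_le_linear hθ.le hc0 hnn hnn hm hm
            _ = _ := by ring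
      _ = c ^ (2 * θ - 1) := by
          rw [← Finset.mul_sum, ← Finset.sum_div, Finset.sum_add_distrib, hsa, hsb]
          norm_num
  have hcε : 1 - ε / 2 ≤ c := by
    by_contra hcon
    push Not at hcon
    linarith [Real.rpow_le_rpow hc0 hcon.le h2θ.le]
  set H : ℝ := max (1 - a k) (1 - b k) with hH
  have hHε : H ≤ ε := max_le (by linarith) (by linarith)
  have hH0 : 0 ≤ H := le_trans (by linarith) (le_max_left _ _)
  have hHpow : H ^ (2 * θ) ≤ θ / 2 * H := by
    have e : H ^ (2 * θ) = H ^ (2 * θ - 1) * H := by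
      rw [← Real.rpow_add_one' hH0 (by linarith)]
      congr 1
      ring
    rw [e]
    gcongr
    exact hεp ▸ Real.rpow_le_rpow hH0 hHε h2θ.le
  -- the two families away from the centre
  set a' : ℕ → ℝ := fun i => if i = k then 0 else a i with ha'
  set b' : ℕ → ℝ := fun i => if i = k then 0 else b i with hb'
  have ha'0 : ∀ i, 0 ≤ a' i := by
    intro i
    simp only [ha']
    split
    · rfl
    · exact ha i
  have hb'0 : ∀ i, 0 ≤ b' i := by
    intro i
    simp only [hb']
    split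
    · rfl
    · exact hb i
  have hsum' : ∀ f : ℕ → ℝ, ∑ i ∈ s, (if i = k then 0 else f i) = ∑ i ∈ s, f i - f k := by
    intro f
    rw [← Finset.sum_erase_add s f hk, add_sub_cancel_right,
      ← Finset.sum_erase s (f := fun i => if i = k then 0 else f i) (a := k) (by simp)]
    apply Finset.sum_congr rfl
    intro i hi
    rw [if_neg (Finset.mem_erase.1 hi).1]
  have hsa' : ∑ i ∈ s, a' i ≤ H := by
    simp only [ha']; rw [hsum', hsa]; exact le_max_left _ _
  have hsb' : ∑ i ∈ s, b' i ≤ H := by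
    simp only [hb']; rw [hsum', hsb]; exact le_max_right _ _
  have hdiag' := diag_centre_le hθ n k hk a b a' b' ha'0 hb'0 ha' hb' hH0 hsa' hsb'
  have hoff' := off_centre_le hθ hu0 n k hk off hoff0 hoffs (fun i => by simp [hoff]) hoffr a b a' b'
    ha hb hak hbk ha'0 hb'0 ha' hb' hH0 (hHε.trans hε1) hsa' hsb'
  have hmain : (a k * b k) ^ θ ≤ 1 - θ * H := by
    have hab : a k * b k ≤ 1 + -H := by
      rcases max_choice (1 - a k) (1 - b k) with h | h
      · rw [hH, h]; nlinarith [mul_le_of_le_one_right (ha k) hbk]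
      · rw [hH, h]; nlinarith [mul_le_of_le_one_left (hb k) hak]
    calc (a k * b k) ^ θ ≤ (1 + -H) ^ θ :=
          Real.rpow_le_rpow (mul_nonneg (ha k) (hb k)) hab hθ0.le
      _ ≤ 1 + θ * -H := rpow_one_add_le_one_add_mul_self (by linarith [hHε.trans hε1]) hθ0.le hθ1.le
      _ = _ := by ring
  have hineq : θ / 2 * H < 9 * u * H ^ θ := by linarith
  have hHpos : 0 < H := by
    rcases eq_or_lt_of_le hH0 with h | h
    · rw [← h, Real.zero_rpow hθ0.ne'] at hineq; simp at hineq
    · exact h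
  have hlt : H ^ (1 - θ) ≤ 18 / θ * u := by
    rw [Real.rpow_sub hHpos, Real.rpow_one, div_le_iff₀ (Real.rpow_pos_of_pos hHpos θ)]
    rw [div_mul_eq_mul_div, div_mul_eq_mul_div, le_div_iff₀ hθ0]
    linarith
  have hfin : H ≤ (18 / θ) ^ (1 / (1 - θ)) * (p : ℝ) ^ (-(β / (1 - θ))) := by
    have h1 : (0:ℝ) < 1 - θ := by linarith
    have := Real.rpow_le_rpow (Real.rpow_nonneg hH0 _) hlt (show 0 ≤ 1 / (1 - θ) by positivity)
    rw [← Real.rpow_mul hH0, mul_one_div_cancel h1.ne', Real.rpow_one,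
      Real.mul_rpow (by positivity) hu0, hu, ← Real.rpow_mul (Nat.cast_nonneg p)] at this
    rw [show -(β / (1 - θ)) = -β * (1 / (1 - θ)) by ring]
    exact this
  exact ⟨k, Finset.mem_range.1 hk, (le_max_left _ _).trans hfin, (le_max_right _ _).trans hfin⟩

/-- The double sum over two families weighted by `p ^ (-β |i - j|)`. -/
private def pairSum (θ β : ℝ) (p n : ℕ) (x y : ℕ → ℝ) : ℝ :=
  ∑ i ∈ Finset.range n, ∑ j ∈ Finset.range n,
    (x i * y j) ^ θ / (p : ℝ) ^ (β * (Nat.dist i j : ℝ))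

private theorem pairSum_le {θ β h : ℝ} (hθ : 1 / 2 ≤ θ) (hh : 0 ≤ h) {p : ℕ}
    (hu : (p : ℝ) ^ (-β) < 1) (n : ℕ) (x y : ℕ → ℝ) (hx : ∀ i, 0 ≤ x i) (hy : ∀ i, 0 ≤ y i)
    (hxs : ∑ i ∈ Finset.range n, x i ≤ h) (hys : ∑ i ∈ Finset.range n, y i ≤ h) :
    pairSum θ β p n x y ≤
      (1 + 2 * (p : ℝ) ^ (-β) / (1 - (p : ℝ) ^ (-β))) * h ^ (2 * θ) := by
  have h0 : 0 ≤ (p : ℝ) ^ (-β) := Real.rpow_nonneg (Nat.cast_nonneg p) _
  have hR : 0 ≤ 1 + 2 * (p : ℝ) ^ (-β) / (1 - (p : ℝ) ^ (-β)) :=
    add_nonneg zero_le_one (div_nonneg (by linarith) (by linarith))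
  refine le_trans (le_of_eq ?_) (weighted_le hθ hh hR n (fun i j => ((p : ℝ) ^ (-β)) ^ Nat.dist i j)
    (fun i j => pow_nonneg h0 _) (fun i j => by simp only [Nat.dist_comm i j])
    (fun i => sum_dist_le h0 hu n i) x y hx hy hxs hys)
  refine Finset.sum_congr rfl (fun i _ => Finset.sum_congr rfl (fun j _ => ?_))
  rw [div_eq_mul_one_div, rpow_neg_pow]

/-- The inductive claim at a set `U` of unfixed primes, with constant `c`. -/
private def StateBound (θ β G c : ℝ) (P S : Finset ℕ) (F F' : ℕ → ℝ) (K : ℕ → ℕ → ℝ)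
    (U : Finset ℕ) : Prop :=
  ∀ (V W : Finset ℕ) (i j : ℕ → ℕ), V ⊆ S → W ⊆ S →
    (∀ v ∈ V, ∀ p, p ∉ U → v.factorization p = i p) →
    (∀ w ∈ W, ∀ p, p ∉ U → w.factorization p = j p) →
    ∀ K' : ℕ → ℕ → ℝ, (∀ v w, 0 ≤ K' v w) → (∀ v w, K' v w ≤ K v w) →
      ∑ v ∈ V, ∑ w ∈ W, K' v w * (F v * F' w) ≤
        c * G * ((∑ v ∈ V, F v) * ∑ w ∈ W, F' w) ^ θ /
          ((fixedPart (P \ U) i j * fixedPart (P \ U) j i : ℕ) : ℝ) ^ β

/-- The mass of the members with valuation `a` at `p`. -/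
private def fibreMass (F : ℕ → ℝ) (p : ℕ) (V : Finset ℕ) (a : ℕ) : ℝ :=
  ∑ v ∈ V.filter (fun v => v.factorization p = a), F v

private theorem sum_fibreMass (F : ℕ → ℝ) (p n : ℕ) (V : Finset ℕ)
    (h : ∀ v ∈ V, v.factorization p < n) :
    ∑ a ∈ Finset.range n, fibreMass F p V a = ∑ v ∈ V, F v :=
  Finset.sum_fiberwise_of_maps_to (fun v hv => Finset.mem_range.2 (h v hv)) F

private theorem fibreMass_nonneg {F : ℕ → ℝ} (hF : ∀ q, 0 ≤ F q) (p : ℕ) (V : Finset ℕ) (a : ℕ) :
    0 ≤ fibreMass F p V a :=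
  Finset.sum_nonneg (fun v _ => hF v)

private theorem fixedPart_update {T : Finset ℕ} {p : ℕ} (hp : p ∉ T) (i j : ℕ → ℕ) (a b : ℕ) :
    fixedPart (insert p T) (Function.update i p a) (Function.update j p b) =
      p ^ (a - b) * fixedPart T i j := by
  rw [fixedPart, Finset.prod_insert hp, Function.update_self, Function.update_self, fixedPart]
  congr 1
  apply Finset.prod_congr rfl
  intro q hq
  have hqp : q ≠ p := fun h => hp (h ▸ hq)
  rw [Function.update_of_ne hqp, Function.update_of_ne hqp]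

/-- Splitting at one prime `p` by valuations. -/
private theorem split_step {θ β G c : ℝ} {P S U : Finset ℕ} {F F' : ℕ → ℝ} {K : ℕ → ℕ → ℝ} {p : ℕ}
    (hpU : p ∈ U) (hUP : U ⊆ P) (hIH : StateBound θ β G c P S F F' K (U.erase p))
    (V W : Finset ℕ) (i j : ℕ → ℕ) (hV : V ⊆ S) (hW : W ⊆ S)
    (hVi : ∀ v ∈ V, ∀ q, q ∉ U → v.factorization q = i q)
    (hWj : ∀ w ∈ W, ∀ q, q ∉ U → w.factorization q = j q)
    (K' : ℕ → ℕ → ℝ) (hK0 : ∀ v w, 0 ≤ K' v w) (hKK : ∀ v w, K' v w ≤ K v w) (n : ℕ)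
    (hVn : ∀ v ∈ V, v.factorization p < n) (hWn : ∀ w ∈ W, w.factorization p < n) :
    ∑ v ∈ V, ∑ w ∈ W, K' v w * (F v * F' w) ≤
      c * G / ((fixedPart (P \ U) i j * fixedPart (P \ U) j i : ℕ) : ℝ) ^ β *
        pairSum θ β p n (fibreMass F p V) (fibreMass F' p W) := by
  have e : ∑ v ∈ V, ∑ w ∈ W, K' v w * (F v * F' w) =
      ∑ a ∈ Finset.range n, ∑ b ∈ Finset.range n,
        ∑ v ∈ V.filter (fun v => v.factorization p = a),
          ∑ w ∈ W.filter (fun w => w.factorization p = b), K' v w * (F v * F' w) := by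
    rw [← Finset.sum_fiberwise_of_maps_to (g := fun v => v.factorization p)
      (t := Finset.range n) (fun v hv => Finset.mem_range.2 (hVn v hv))]
    refine Finset.sum_congr rfl (fun a _ => ?_)
    rw [Finset.sum_comm (s := Finset.range n)]
    refine Finset.sum_congr rfl (fun v _ => ?_)
    rw [Finset.sum_fiberwise_of_maps_to (g := fun w => w.factorization p)
      (fun w hw => Finset.mem_range.2 (hWn w hw))]
  rw [e, pairSum, Finset.mul_sum]
  refine Finset.sum_le_sum (fun a _ => ?_)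
  rw [Finset.mul_sum]
  refine Finset.sum_le_sum (fun b _ => ?_)
  have hnotin : p ∉ P \ U := fun h => (Finset.mem_sdiff.1 h).2 hpU
  have hins : P \ U.erase p = insert p (P \ U) := Finset.sdiff_erase (hUP hpU)
  have hfix : ∀ (V : Finset ℕ) (i : ℕ → ℕ) (a : ℕ),
      (∀ v ∈ V, ∀ q, q ∉ U → v.factorization q = i q) →
      ∀ v ∈ V.filter (fun v => v.factorization p = a), ∀ q, q ∉ U.erase p →
        v.factorization q = Function.update i p a q := by
    intro V i a hV v hv q hq
    obtain ⟨hv, hva⟩ := Finset.mem_filter.1 hv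
    by_cases hqp : q = p
    · subst hqp; rw [Function.update_self, hva]
    · rw [Function.update_of_ne hqp, hV v hv q (fun h => hq (Finset.mem_erase.2 ⟨hqp, h⟩))]
  refine (hIH _ _ (Function.update i p a) (Function.update j p b)
    ((Finset.filter_subset _ _).trans hV) ((Finset.filter_subset _ _).trans hW)
    (hfix V i a hVi) (hfix W j b hWj) K' hK0 hKK).trans (le_of_eq ?_)
  rw [hins, fixedPart_update hnotin, fixedPart_update hnotin]
  set Q1 := fixedPart (P \ U) i j
  set R1 := fixedPart (P \ U) j i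
  have hnat : p ^ (a - b) * Q1 * (p ^ (b - a) * R1) = p ^ Nat.dist a b * (Q1 * R1) := by
    rw [Nat.dist, pow_add]
    ring
  rw [hnat, Nat.cast_mul, Real.mul_rpow (Nat.cast_nonneg _) (Nat.cast_nonneg _), Nat.cast_pow,
    ← Real.rpow_natCast (p : ℝ) (Nat.dist a b), ← Real.rpow_mul (Nat.cast_nonneg p), mul_comm β]
  simp only [fibreMass]
  ring

private theorem pairSum_div {θ β : ℝ} {A B : ℝ} (hA : 0 < A) (hB : 0 < B) (p n : ℕ)
    (x y : ℕ → ℝ) (hx : ∀ i, 0 ≤ x i) (hy : ∀ i, 0 ≤ y i) :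
    pairSum θ β p n x y = (A * B) ^ θ * pairSum θ β p n (fun i => x i / A) (fun i => y i / B) := by
  unfold pairSum
  rw [Finset.mul_sum]
  refine Finset.sum_congr rfl (fun i _ => ?_)
  rw [Finset.mul_sum]
  refine Finset.sum_congr rfl (fun j _ => ?_)
  rw [div_mul_div_comm, Real.div_rpow (mul_nonneg (hx i) (hy j)) (mul_pos hA hB).le]
  have : (0:ℝ) < (A * B) ^ θ := by positivity
  field_simp

/-- The splitting theorem for two weights, from any state. -/
theorem exists_split_bound2 (θ β : ℝ) (hθ : 1 / 2 < θ) (hθ1 : θ < 1) (hβ : 0 < β)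
    (hexp : 1 < 2 * θ * (β / (1 - θ))) :
    ∃ C : ℝ, ∀ (P S : Finset ℕ) (F F' : ℕ → ℝ) (K : ℕ → ℕ → ℝ) (G : ℝ),
      (∀ p ∈ P, p.Prime) → (∀ q, 0 ≤ F q) → (∀ q, 0 ≤ F' q) →
      (∀ v w, 0 ≤ K v w) → 0 ≤ G → FinalBound2 θ β G P S F F' K →
      ∀ (U V W : Finset ℕ) (i j : ℕ → ℕ), U ⊆ P → V ⊆ S → W ⊆ S →
        (∀ v ∈ V, ∀ p, p ∉ U → v.factorization p = i p) →
        (∀ w ∈ W, ∀ p, p ∉ U → w.factorization p = j p) →
        ∑ v ∈ V, ∑ w ∈ W, K v w * (F v * F' w) ≤
          C * G * ((∑ v ∈ V, F v) * ∑ w ∈ W, F' w) ^ θ /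
            ((fixedPart (P \ U) i j * fixedPart (P \ U) j i : ℕ) : ℝ) ^ β := by
  have hθ0 : 0 < θ := by linarith
  obtain ⟨Cc, pc, hconc⟩ := exists_concentration θ β hθ hθ1 hβ
  set e : ℝ := 2 * θ * (β / (1 - θ)) with he
  set D : ℝ := 2 * max Cc 0 ^ (2 * θ) with hD
  have hD0 : 0 ≤ D := by positivity
  obtain ⟨T0, hT0⟩ := summable_iff_vanishing.1 (Real.summable_nat_rpow.2 (show -e < -1 by linarith))
    (Metric.ball 0 (1 / (2 * (D + 1)))) (Metric.ball_mem_nhds 0 (by positivity))
  obtain ⟨p3, hp3⟩ := eventually_small hβ (show (0:ℝ) < 1 / 3 by norm_num)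
  set p0 : ℕ := pc + p3 + T0.sup id + 1 with hp0
  have h2β : (2:ℝ) ^ (-β) < 1 := Real.rpow_lt_one_of_one_lt_of_neg one_lt_two (by linarith)
  set Cs : ℝ := 1 + 2 * (2:ℝ) ^ (-β) / (1 - (2:ℝ) ^ (-β)) with hCs
  have hCs1 : 1 ≤ Cs :=
    le_add_of_nonneg_right (div_nonneg (by positivity) (by linarith))
  refine ⟨2 * Cs ^ p0, ?_⟩
  intro P S F F' K G hP hF hF' hK hG hfinal
  set nsmall : Finset ℕ → ℕ := fun U => (U.filter (fun p => p < p0)).card with hns
  have key : ∀ (m : ℕ) (U : Finset ℕ), U.card = m → U ⊆ P →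
      StateBound θ β G (2 * Cs ^ nsmall U) P S F F' K U := by
    intro m
    induction m with
    | zero =>
      intro U hU hUP V W i j hV hW hVi hWj K' hK0 hKK
      have hUe : U = ∅ := Finset.card_eq_zero.1 hU
      refine (hfinal U V W i j 0 hUP hV hW hVi hWj K' hK0 hKK
        (fun v w _ p hp => absurd hp (by simp [hUe]))).trans ?_
      have hge : G ≤ 2 * Cs ^ nsmall U * G := by
        nlinarith [one_le_pow₀ hCs1 (n := nsmall U), hG]
      gcongr
      exact Real.rpow_nonneg (mul_nonneg (Finset.sum_nonneg fun v _ => hF v)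
        (Finset.sum_nonneg fun w _ => hF' w)) _
    | succ m ih =>
      intro U hU hUP V W i j hV hW hVi hWj K' hK0 hKK
      set Q : ℝ := ((fixedPart (P \ U) i j * fixedPart (P \ U) j i : ℕ) : ℝ) ^ β with hQ
      have hQ0 : 0 ≤ Q := Real.rpow_nonneg (Nat.cast_nonneg _) _
      have hA0 : 0 ≤ ∑ v ∈ V, F v := Finset.sum_nonneg fun v _ => hF v
      have hB0 : 0 ≤ ∑ w ∈ W, F' w := Finset.sum_nonneg fun w _ => hF' w
      have hcpos : 0 ≤ 2 * Cs ^ nsmall U := by positivity
      have hrhs : 0 ≤ 2 * Cs ^ nsmall U * G * ((∑ v ∈ V, F v) * ∑ w ∈ W, F' w) ^ θ / Q := by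
        positivity
      rcases eq_or_lt_of_le hA0 with hA | hA
      · refine le_trans (le_of_eq (Finset.sum_eq_zero fun v hv => ?_)) hrhs
        have hz := (Finset.sum_eq_zero_iff_of_nonneg (fun v _ => hF v)).1 hA.symm v hv
        simp [hz]
      rcases eq_or_lt_of_le hB0 with hB | hB
      · refine le_trans (le_of_eq (Finset.sum_eq_zero fun v _ =>
          Finset.sum_eq_zero fun w hw => ?_)) hrhs
        have hz := (Finset.sum_eq_zero_iff_of_nonneg (fun v _ => hF' v)).1 hB.symm w hw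
        simp [hz]
      set A := ∑ v ∈ V, F v with hAdef
      set B := ∑ w ∈ W, F' w with hBdef
      set n : ℕ → ℕ := fun p => S.sup (fun q => q.factorization p) + 1 with hn
      have hlt : ∀ p, ∀ q ∈ S, q.factorization p < n p := fun p q hq =>
        Nat.lt_succ_of_le (Finset.le_sup (f := fun q : ℕ => q.factorization p) hq)
      set a : ℕ → ℕ → ℝ := fun p l => fibreMass F p V l / A with ha
      set b : ℕ → ℕ → ℝ := fun p l => fibreMass F' p W l / B with hb
      have ha0 : ∀ p l, 0 ≤ a p l := fun p l => div_nonneg (fibreMass_nonneg hF p V l) hA.le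
      have hb0 : ∀ p l, 0 ≤ b p l := fun p l => div_nonneg (fibreMass_nonneg hF' p W l) hB.le
      have hsa : ∀ p, ∑ l ∈ Finset.range (n p), a p l = 1 := by
        intro p
        simp only [ha]
        rw [← Finset.sum_div, sum_fibreMass F p _ V (fun v hv => hlt p v (hV hv)), ← hAdef,
          div_self hA.ne']
      have hsb : ∀ p, ∑ l ∈ Finset.range (n p), b p l = 1 := by
        intro p
        simp only [hb]
        rw [← Finset.sum_div, sum_fibreMass F' p _ W (fun w hw => hlt p w (hW hw)), ← hBdef,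
          div_self hB.ne']
      have hu1 : ∀ p ∈ P, (p : ℝ) ^ (-β) ≤ (2:ℝ) ^ (-β) := fun p hp =>
        Real.rpow_le_rpow_of_nonpos two_pos (by exact_mod_cast (hP p hp).two_le) (by linarith)
      by_cases hcase : ∃ p ∈ U, p < p0 ∨ pairSum θ β p (n p) (a p) (b p) ≤ 1
      · obtain ⟨p, hpU, hp⟩ := hcase
        have hIH := ih (U.erase p) (by rw [Finset.card_erase_of_mem hpU, hU]; rfl)
          ((Finset.erase_subset _ _).trans hUP)
        refine (split_step hpU hUP hIH V W i j hV hW hVi hWj K' hK0 hKK (n p)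
          (fun v hv => hlt p v (hV hv)) (fun w hw => hlt p w (hW hw))).trans ?_
        rw [pairSum_div hA hB p (n p) _ _ (fibreMass_nonneg hF p V) (fibreMass_nonneg hF' p W)]
        have hps : pairSum θ β p (n p) (a p) (b p) ≤ Cs := by
          refine (pairSum_le (h := 1) hθ.le zero_le_one ((hu1 p (hUP hpU)).trans_lt h2β) (n p)
            (a p) (b p) (ha0 p) (hb0 p) (hsa p).le (hsb p).le).trans ?_
          have h2 : 0 < 1 - (2:ℝ) ^ (-β) := by linarith
          rw [Real.one_rpow, mul_one, hCs]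
          have hle := hu1 p (hUP hpU)
          exact add_le_add le_rfl (div_le_div₀ (by positivity) (by linarith) h2 (by linarith))
        have hfac : Cs ^ nsmall (U.erase p) * pairSum θ β p (n p) (a p) (b p) ≤
            Cs ^ nsmall U := by
          have hsub : nsmall (U.erase p) = ((U.filter (fun q => q < p0)).erase p).card := by
            simp only [hns, Finset.filter_erase]
          by_cases hps0 : p < p0
          · have hmem : p ∈ U.filter (fun q => q < p0) := Finset.mem_filter.2 ⟨hpU, hps0⟩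
            have hcard : nsmall U = nsmall (U.erase p) + 1 := by
              rw [hsub, Finset.card_erase_add_one hmem]
            rw [hcard, pow_succ]
            gcongr
          · have hcard : nsmall (U.erase p) = nsmall U := by
              rw [hsub, Finset.erase_eq_of_notMem (by simp [hps0])]
            rw [hcard]
            exact mul_le_of_le_one_right (by positivity) (hp.resolve_left hps0)
        calc _ = 2 * G * (A * B) ^ θ / Q *
              (Cs ^ nsmall (U.erase p) * pairSum θ β p (n p) (a p) (b p)) := by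
              simp only [ha, hb]; ring
          _ ≤ 2 * G * (A * B) ^ θ / Q * Cs ^ nsmall U := by
              exact mul_le_mul_of_nonneg_left hfac (by positivity)
          _ = _ := by ring
      · push Not at hcase
        have hcen : ∀ p ∈ U, ∃ k, k < n p ∧
            1 - a p k ≤ max Cc 0 * (p : ℝ) ^ (-(β / (1 - θ))) ∧
            1 - b p k ≤ max Cc 0 * (p : ℝ) ^ (-(β / (1 - θ))) := by
          intro p hp
          obtain ⟨k, hk, hka, hkb⟩ := hconc p (by have := (hcase p hp).1; omega) (n p) (a p) (b p)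
            (ha0 p) (hb0 p) (hsa p) (hsb p) (hcase p hp).2
          have hmono : Cc * (p : ℝ) ^ (-(β / (1 - θ))) ≤ max Cc 0 * (p : ℝ) ^ (-(β / (1 - θ))) :=
            mul_le_mul_of_nonneg_right (le_max_left _ _) (Real.rpow_nonneg (Nat.cast_nonneg p) _)
          exact ⟨k, hk, hka.trans hmono, hkb.trans hmono⟩
        choose! k hkn hka hkb using hcen
        have hns0 : ∀ U', U' ⊆ U → nsmall U' = 0 := by
          intro U' hU'
          simp only [hns, Finset.card_eq_zero, Finset.filter_eq_empty_iff]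
          intro p hp h
          exact absurd h (not_lt.2 (hcase p (hU' hp)).1)
        rw [hns0 U subset_rfl, pow_zero, mul_one]
        set Kgood : ℕ → ℕ → ℝ := fun v w =>
          if ∀ p ∈ U, v.factorization p = k p ∨ w.factorization p = k p then K' v w else 0 with hKg
        have hgood : ∑ v ∈ V, ∑ w ∈ W, Kgood v w * (F v * F' w) ≤ G * (A * B) ^ θ / Q := by
          refine hfinal U V W i j k hUP hV hW hVi hWj Kgood (fun v w => ?_) (fun v w => ?_)
            (fun v w h => ?_)
          · simp only [hKg]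
            split
            · exact hK0 v w
            · rfl
          · simp only [hKg]
            split
            · exact hKK v w
            · exact hK v w
          · simp only [hKg] at h
            by_contra hno
            exact h (if_neg hno)
        have hbad : ∀ p ∈ U,
            ∑ v ∈ V.filter (fun v => v.factorization p ≠ k p),
              ∑ w ∈ W.filter (fun w => w.factorization p ≠ k p), K' v w * (F v * F' w) ≤
            2 * G * (A * B) ^ θ / Q * (D * (p : ℝ) ^ (-e)) := by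
          intro p hpU
          have hIH := ih (U.erase p) (by rw [Finset.card_erase_of_mem hpU, hU]; rfl)
            ((Finset.erase_subset _ _).trans hUP)
          rw [hns0 _ (Finset.erase_subset _ _), pow_zero, mul_one] at hIH
          refine (split_step hpU hUP hIH _ _ i j ((Finset.filter_subset _ _).trans hV)
            ((Finset.filter_subset _ _).trans hW) (fun v hv => hVi v (Finset.mem_filter.1 hv).1)
            (fun w hw => hWj w (Finset.mem_filter.1 hw).1) K' hK0 hKK (n p)
            (fun v hv => hlt p v (hV (Finset.mem_filter.1 hv).1))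
            (fun w hw => hlt p w (hW (Finset.mem_filter.1 hw).1))).trans ?_
          rw [pairSum_div hA hB p (n p) _ _ (fibreMass_nonneg hF p _) (fibreMass_nonneg hF' p _)]
          set h : ℝ := max Cc 0 * (p : ℝ) ^ (-(β / (1 - θ))) with hh
          have hsum : ∀ (F : ℕ → ℝ) (V : Finset ℕ) (A : ℝ), V ⊆ S → 0 < A → A = ∑ v ∈ V, F v →
              1 - fibreMass F p V (k p) / A ≤ h →
              ∑ l ∈ Finset.range (n p),
                fibreMass F p (V.filter (fun v => v.factorization p ≠ k p)) l / A ≤ h := by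
            intro F V A hV hA hAeq hle
            refine le_trans (le_of_eq ?_) hle
            rw [← Finset.sum_div, sum_fibreMass F p _ _
              (fun v hv => hlt p v (hV (Finset.mem_filter.1 hv).1))]
            have := Finset.sum_filter_add_sum_filter_not V (fun v => v.factorization p = k p) F
            rw [fibreMass, one_sub_div hA.ne']
            congr 1
            linarith
          have hh0 : 0 ≤ h := by positivity
          have hu : (p : ℝ) ^ (-β) ≤ 1 / 3 := hp3 p (by have := (hcase p hpU).1; omega)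
          have hps := pairSum_le (θ := θ) (β := β) (h := h) hθ.le hh0 (by linarith : (p : ℝ) ^ (-β) < 1)
            (n p) (fun l => fibreMass F p (V.filter (fun v => v.factorization p ≠ k p)) l / A)
            (fun l => fibreMass F' p (W.filter (fun w => w.factorization p ≠ k p)) l / B)
            (fun l => div_nonneg (fibreMass_nonneg hF p _ l) hA.le)
            (fun l => div_nonneg (fibreMass_nonneg hF' p _ l) hB.le)
            (hsum F V A hV hA rfl (hka p hpU)) (hsum F' W B hW hB rfl (hkb p hpU))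
          have hR : 1 + 2 * (p : ℝ) ^ (-β) / (1 - (p : ℝ) ^ (-β)) ≤ 2 := by
            have : 2 * (p : ℝ) ^ (-β) / (1 - (p : ℝ) ^ (-β)) ≤ 1 := by
              rw [div_le_one (by linarith)]; linarith
            linarith
          have hpow : h ^ (2 * θ) = max Cc 0 ^ (2 * θ) * (p : ℝ) ^ (-e) := by
            rw [hh, Real.mul_rpow (le_max_right _ _) (Real.rpow_nonneg (Nat.cast_nonneg p) _),
              ← Real.rpow_mul (Nat.cast_nonneg p), he]
            congr 2
            ring
          have hps2 := hps.trans (mul_le_mul_of_nonneg_right hR (Real.rpow_nonneg hh0 _))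
          rw [hpow, ← mul_assoc, ← hD] at hps2
          refine le_trans (le_of_eq ?_) (mul_le_mul_of_nonneg_left hps2
            (show 0 ≤ 2 * G * (A * B) ^ θ / Q by positivity))
          ring
        have hptw : ∀ v w, K' v w * (F v * F' w) ≤ Kgood v w * (F v * F' w) +
            ∑ p ∈ U, (if v.factorization p ≠ k p then
              (if w.factorization p ≠ k p then K' v w * (F v * F' w) else 0) else 0) := by
          intro v w
          have hnn : 0 ≤ K' v w * (F v * F' w) := mul_nonneg (hK0 v w) (mul_nonneg (hF v) (hF' w))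
          have hterm : ∀ p ∈ U, 0 ≤ (if v.factorization p ≠ k p then
              (if w.factorization p ≠ k p then K' v w * (F v * F' w) else 0) else 0) := by
            intro p _
            split_ifs <;> first | exact hnn | rfl
          simp only [hKg]
          by_cases hg : ∀ p ∈ U, v.factorization p = k p ∨ w.factorization p = k p
          · rw [if_pos hg]; linarith [Finset.sum_nonneg hterm]
          · rw [if_neg hg, zero_mul, zero_add]
            push Not at hg
            obtain ⟨p, hpU, h1, h2⟩ := hg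
            refine le_trans ?_ (Finset.single_le_sum hterm hpU)
            rw [if_pos h1, if_pos h2]
        refine (Finset.sum_le_sum fun v _ => Finset.sum_le_sum fun w _ => hptw v w).trans ?_
        simp only [Finset.sum_add_distrib]
        have hswap : ∑ v ∈ V, ∑ w ∈ W, ∑ p ∈ U, (if v.factorization p ≠ k p then
              (if w.factorization p ≠ k p then K' v w * (F v * F' w) else 0) else 0) =
            ∑ p ∈ U, ∑ v ∈ V.filter (fun v => v.factorization p ≠ k p),
              ∑ w ∈ W.filter (fun w => w.factorization p ≠ k p), K' v w * (F v * F' w) := by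
          rw [Finset.sum_congr rfl (fun v _ => Finset.sum_comm), Finset.sum_comm]
          refine Finset.sum_congr rfl (fun p _ => ?_)
          rw [Finset.sum_filter]
          refine Finset.sum_congr rfl (fun v _ => ?_)
          split_ifs
          · rw [Finset.sum_filter]
          · simp
        rw [hswap]
        have htail : ∑ p ∈ U, D * (p : ℝ) ^ (-e) ≤ 1 / 2 := by
          have hdis : Disjoint U T0 := by
            rw [Finset.disjoint_left]
            intro p hp hpT
            have h1 : p ≤ T0.sup id := Finset.le_sup (f := id) hpT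
            have h2 := (hcase p hp).1
            omega
          have hball := hT0 U hdis
          rw [Metric.mem_ball, dist_zero_right, Real.norm_eq_abs] at hball
          rw [← Finset.mul_sum]
          have hle := mul_le_mul_of_nonneg_left ((le_abs_self _).trans hball.le) hD0
          refine hle.trans ?_
          rw [mul_one_div, div_le_iff₀ (by positivity)]
          linarith
        have hsumbad := (Finset.sum_le_sum hbad).trans_eq (Finset.mul_sum _ _ _).symm
        have hx : 0 ≤ 2 * G * (A * B) ^ θ / Q := by positivity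
        have h2 := hsumbad.trans (mul_le_mul_of_nonneg_left htail hx)
        calc _ ≤ G * (A * B) ^ θ / Q + 2 * G * (A * B) ^ θ / Q * (1 / 2) := add_le_add hgood h2
          _ = _ := by ring
  intro U V W i j hUP hV hW hVi hWj
  refine (key U.card U rfl hUP V W i j hV hW hVi hWj K hK (fun _ _ => le_rfl)).trans ?_
  have hns_le : nsmall U ≤ p0 := by
    simp only [hns]
    refine (Finset.card_le_card (t := Finset.range p0) ?_).trans (Finset.card_range p0).le
    intro p hp
    exact Finset.mem_range.2 (Finset.mem_filter.1 hp).2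
  gcongr
  exact Real.rpow_nonneg (mul_nonneg (Finset.sum_nonneg fun v _ => hF v)
    (Finset.sum_nonneg fun w _ => hF' w)) _

/-- The splitting theorem. -/
theorem exists_split_bound (θ β : ℝ) (hθ : 1 / 2 < θ) (hθ1 : θ < 1) (hβ : 0 < β)
    (hexp : 1 < 2 * θ * (β / (1 - θ))) :
    ∃ C : ℝ, ∀ (P S : Finset ℕ) (F : ℕ → ℝ) (K : ℕ → ℕ → ℝ) (G : ℝ),
      (∀ p ∈ P, p.Prime) → (∀ q ∈ S, q.primeFactors ⊆ P) → (∀ q, 0 ≤ F q) →
      (∀ v w, 0 ≤ K v w) → 0 ≤ G → FinalBound θ β G P S F K →
      ∑ v ∈ S, ∑ w ∈ S, K v w * (F v * F w) ≤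
        C * G * ((∑ v ∈ S, F v) * ∑ w ∈ S, F w) ^ θ := by
  obtain ⟨C, hC⟩ := exists_split_bound2 θ β hθ hθ1 hβ hexp
  refine ⟨C, fun P S F K G hP hS hF hK hG hfinal => ?_⟩
  have hzero : ∀ q ∈ S, ∀ p, p ∉ P → q.factorization p = (fun _ => 0 : ℕ → ℕ) p := by
    intro q hq p hp
    by_contra hne
    refine hp (hS q hq ?_)
    rw [← Nat.support_factorization]
    exact Finsupp.mem_support_iff.2 hne
  have h := hC P S F F K G hP hF hF hK hG hfinal P S S (fun _ => 0) (fun _ => 0) subset_rfl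
    subset_rfl subset_rfl hzero hzero
  simpa only [fixedPart, Finset.sdiff_self, Finset.prod_empty, mul_one, Nat.cast_one,
    Real.one_rpow, div_one] using h

end Vale.Agent.P028
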