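import Vale.Agent.P028.Defs
import Vale.Agent.P028.Rec
import Vale.Agent.P028.BilinearAux

/-!
The estimate in a final state, and the moment bound which it gives.
-/

noncomputable section

namespace Vale.Agent.P028

open Finset BilinearAux

def alpha1 : ℝ := 497 / 1000

def alpha2 : ℝ := 496 / 1000

def thetaC : ℝ := 503 / 1000

def betaC : ℝ := 495 / 1000

def sExp : ℝ := 992 / 993

def tExp : ℝ := 994 / 993

/-- `∏ p ^ (v_p - k_p)` over `p ∈ U`: the upward deviation of `v`. -/
def upDev (U : Finset ℕ) (k : ℕ → ℕ) (v : ℕ) : ℕ := ∏ p ∈ U, p ^ (v.factorization p - k p)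

/-- `∏ p ^ (k_p - v_p)` over `p ∈ U`: the downward deviation of `v`. -/
def downDev (U : Finset ℕ) (k : ℕ → ℕ) (v : ℕ) : ℕ := ∏ p ∈ U, p ^ (k p - v.factorization p)

/-- `∏ p ^ k_p` over `p ∈ U`. -/
def centre (U : Finset ℕ) (k : ℕ → ℕ) : ℕ := ∏ p ∈ U, p ^ k p

/-- A final state inside `S`. -/
structure FinState (P S U V W : Finset ℕ) (i j : ℕ → ℕ) : Prop where
  prime_mem : ∀ p ∈ P, p.Prime
  pos_of_mem : ∀ q ∈ S, 0 < q
  factors_le : ∀ q ∈ S, q.primeFactors ⊆ P
  U_sub : U ⊆ P
  V_sub : V ⊆ S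
  W_sub : W ⊆ S
  V_fix : ∀ v ∈ V, ∀ p, p ∉ U → v.factorization p = i p
  W_fix : ∀ w ∈ W, ∀ p, p ∉ U → w.factorization p = j p

theorem fixedPart_pos {T : Finset ℕ} (hT : ∀ p ∈ T, p.Prime) (i j : ℕ → ℕ) :
    0 < fixedPart T i j :=
  prodPow_pos hT _

theorem downDev_pos {U : Finset ℕ} (hU : ∀ p ∈ U, p.Prime) (k : ℕ → ℕ) (v : ℕ) :
    0 < downDev U k v :=
  prodPow_pos hU _

theorem upDev_pos {U : Finset ℕ} (hU : ∀ p ∈ U, p.Prime) (k : ℕ → ℕ) (v : ℕ) :
    0 < upDev U k v :=
  prodPow_pos hU _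

namespace FinState

variable {P S U V W : Finset ℕ} {i j : ℕ → ℕ}

theorem prime_U (h : FinState P S U V W i j) : ∀ p ∈ U, p.Prime :=
  fun p hp => h.prime_mem p (h.U_sub hp)

theorem prime_sdiff (h : FinState P S U V W i j) : ∀ p ∈ P \ U, p.Prime :=
  fun p hp => h.prime_mem p (Finset.mem_sdiff.1 hp).1

theorem symm (h : FinState P S U V W i j) : FinState P S U W V j i :=
  ⟨h.prime_mem, h.pos_of_mem, h.factors_le, h.U_sub, h.W_sub, h.V_sub, h.W_fix, h.V_fix⟩

theorem factorization_eq_zero (h : FinState P S U V W i j) {q : ℕ} (hq : q ∈ S) {p : ℕ}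
    (hp : p ∉ P) : q.factorization p = 0 := by
  by_contra h0
  exact hp (h.factors_le q hq (by
    rw [← Nat.support_factorization]; exact Finsupp.mem_support_iff.2 h0))

end FinState

/-- `q'` in a final state. -/
theorem qd_eq_of_finState {P S U V W : Finset ℕ} {i j k : ℕ → ℕ} (h : FinState P S U V W i j)
    {v w : ℕ} (hv : v ∈ V) (hw : w ∈ W) (hk : NoCoDev U k v w) :
    qd v w = fixedPart (P \ U) i j * (upDev U k v * downDev U k w) ∧
      qd w v = fixedPart (P \ U) j i * (upDev U k w * downDev U k v) := by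
  have key : ∀ {V W : Finset ℕ} {i j : ℕ → ℕ}, FinState P S U V W i j → ∀ {v w : ℕ}, v ∈ V → w ∈ W →
      NoCoDev U k v w →
      qd v w = fixedPart (P \ U) i j * (upDev U k v * downDev U k w) := by
    intro V W i j h v w hv hw hk
    have hv0 := h.pos_of_mem v (h.V_sub hv)
    have hw0 := h.pos_of_mem w (h.W_sub hw)
    have hU := h.prime_U
    have h1 := fixedPart_pos h.prime_sdiff i j
    have h2 := upDev_pos hU k v
    have h3 := downDev_pos hU k w
    refine Nat.eq_of_factorization_eq (qd_pos hv0).ne'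
      (mul_ne_zero h1.ne' (mul_ne_zero h2.ne' h3.ne')) fun p => ?_
    rw [factorization_qd hv0 hw0, Nat.factorization_mul h1.ne' (mul_ne_zero h2.ne' h3.ne'),
      Nat.factorization_mul h2.ne' h3.ne', Finsupp.add_apply, Finsupp.add_apply, fixedPart,
      upDev, downDev, factorization_prodPow h.prime_sdiff, factorization_prodPow hU,
      factorization_prodPow hU]
    by_cases hpU : p ∈ U
    · rw [if_neg (fun hh => (Finset.mem_sdiff.1 hh).2 hpU), if_pos hpU, if_pos hpU]
      rcases hk p hpU with e | e <;> omega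
    · rw [if_neg hpU, if_neg hpU]
      by_cases hpP : p ∈ P
      · rw [if_pos (Finset.mem_sdiff.2 ⟨hpP, hpU⟩), h.V_fix v hv p hpU, h.W_fix w hw p hpU]
        omega
      · rw [if_neg (fun hh => hpP (Finset.mem_sdiff.1 hh).1),
          h.factorization_eq_zero (h.V_sub hv) hpP, h.factorization_eq_zero (h.W_sub hw) hpP]
        omega
  exact ⟨key h hv hw hk, key h.symm hw hv fun p hp => (hk p hp).symm⟩

/-- Distinct members of a final state have distinct deviations. -/
theorem dev_injOn {P S U V W : Finset ℕ} {i j k : ℕ → ℕ} (h : FinState P S U V W i j) :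
    Set.InjOn (fun v => (upDev U k v, downDev U k v)) V ∧
      Set.InjOn (fun w => (upDev U k w, downDev U k w)) W := by
  have key : ∀ {V W : Finset ℕ} {i j : ℕ → ℕ}, FinState P S U V W i j →
      Set.InjOn (fun v => (upDev U k v, downDev U k v)) V := by
    intro V W i j h v hv v' hv' e
    simp only [Prod.mk.injEq] at e
    refine Nat.eq_of_factorization_eq (h.pos_of_mem v (h.V_sub hv)).ne'
      (h.pos_of_mem v' (h.V_sub hv')).ne' fun p => ?_
    by_cases hpU : p ∈ U
    · have e1 := congrArg (fun n => Nat.factorization n p) e.1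
      have e2 := congrArg (fun n => Nat.factorization n p) e.2
      simp only [upDev, downDev, factorization_prodPow h.prime_U, if_pos hpU] at e1 e2
      omega
    · rw [h.V_fix v hv p hpU, h.V_fix v' hv' p hpU]
  exact ⟨key h, key h.symm⟩

/-- The centre divides the least common multiple of a pair without common deviation. -/
theorem centre_dvd_lcm {P S U V W : Finset ℕ} {i j k : ℕ → ℕ} (h : FinState P S U V W i j)
    {v w : ℕ} (hv : v ∈ V) (hw : w ∈ W) (hk : NoCoDev U k v w) :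
    centre U k ∣ Nat.lcm v w ∧ downDev U k v ∣ centre U k ∧ downDev U k w ∣ centre U k := by
  have hU := h.prime_U
  have hv0 := (h.pos_of_mem v (h.V_sub hv)).ne'
  have hw0 := (h.pos_of_mem w (h.W_sub hw)).ne'
  have hc : centre U k ≠ 0 := (prodPow_pos hU k).ne'
  have hdown : ∀ v, downDev U k v ∣ centre U k := fun v => by
    refine (Nat.factorization_le_iff_dvd (downDev_pos hU k v).ne' hc).1 fun p => ?_
    rw [downDev, centre, factorization_prodPow hU, factorization_prodPow hU]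
    split_ifs <;> omega
  refine ⟨?_, hdown v, hdown w⟩
  refine (Nat.factorization_le_iff_dvd hc (Nat.lcm_ne_zero hv0 hw0)).1 fun p => ?_
  rw [centre, factorization_prodPow hU, Nat.factorization_lcm hv0 hw0, Finsupp.sup_apply]
  split_ifs with hp
  · rcases hk p hp with e | e <;> omega
  · exact Nat.zero_le _

/-- The estimate in a final state, for the pairs whose upward deviations satisfy `c ≤ a`. -/
theorem final_le {P S U V W : Finset ℕ} {i j k : ℕ → ℕ} (h : FinState P S U V W i j)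
    (ψ : ℕ → ℝ) (hψ : ∀ q, 0 ≤ ψ q) (x : ℝ) (hx : 0 < x)
    (K K1 K2 : ℕ → ℕ → ℝ) (hK : ∀ v w, 0 ≤ K v w) (hK1 : ∀ v w, 0 ≤ K1 v w)
    (hK2 : ∀ v w, 0 ≤ K2 v w) (hle : ∀ v w, K v w ≤ K1 v w ^ alpha1 * K2 v w ^ alpha2)
    (hsupp : ∀ v ∈ V, ∀ w ∈ W, K v w ≠ 0 →
      NoCoDev U k v w ∧ dist2 ψ v w ≤ x ∧ upDev U k w ≤ upDev U k v)
    (G1 G2 : ℝ) (hG1n : 0 ≤ G1) (hG2n : 0 ≤ G2)
    (hG1 : ∀ v ∈ V, ∑ w ∈ W.filter (fun w => K v w ≠ 0),
      (Nat.totient (centre U k) : ℝ) / centre U k / Nat.totient (downDev U k w) *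
        (((upDev U k v : ℝ) / upDev U k w) ^ sExp / upDev U k v) * K1 v w ≤ G1)
    (hG2 : ∀ w ∈ W, ∑ v ∈ V.filter (fun v => K v w ≠ 0),
      (Nat.totient (centre U k) : ℝ) / centre U k / Nat.totient (downDev U k v) *
        (((upDev U k w : ℝ) / upDev U k v) ^ tExp / upDev U k w) * K2 v w ≤ G2) :
    ∑ v ∈ V, ∑ w ∈ W, K v w * (wt ψ v * wt ψ w) ≤
      mass ψ S ^ (alpha1 - alpha2) * (mass ψ V * mass ψ W) ^ thetaC * x ^ (alpha1 + alpha2) *
        (G1 ^ alpha1 * G2 ^ alpha2) /
        ((fixedPart (P \ U) i j : ℝ) ^ alpha1 * (fixedPart (P \ U) j i : ℝ) ^ alpha2) := by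
  set Q1 : ℝ := (fixedPart (P \ U) i j : ℝ) with hQ1d
  set Q2 : ℝ := (fixedPart (P \ U) j i : ℝ) with hQ2d
  have hQ1 : 0 < Q1 := by rw [hQ1d]; exact_mod_cast fixedPart_pos h.prime_sdiff i j
  have hQ2 : 0 < Q2 := by rw [hQ2d]; exact_mod_cast fixedPart_pos h.prime_sdiff j i
  set F := fun q => wt ψ q with hF
  have hF0 : ∀ q, 0 ≤ F q := fun q => wt_nonneg hψ q
  set T := V ×ˢ W with hT
  set g1 : ℕ × ℕ → ℝ := fun q => if K q.1 q.2 = 0 then 0 else
    F q.1 * F q.2 * ((upDev U k q.1 : ℝ) / upDev U k q.2) ^ sExp * K1 q.1 q.2 with hg1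
  set g2 : ℕ × ℕ → ℝ := fun q => if K q.1 q.2 = 0 then 0 else
    F q.1 * F q.2 * ((upDev U k q.2 : ℝ) / upDev U k q.1) ^ tExp * K2 q.1 q.2 with hg2
  have hg10 : ∀ q ∈ T, 0 ≤ g1 q := fun q _ => by
    simp only [hg1]; split_ifs
    · exact le_rfl
    · exact mul_nonneg (mul_nonneg (mul_nonneg (hF0 _) (hF0 _))
        (Real.rpow_nonneg (by positivity) _)) (hK1 _ _)
  have hg20 : ∀ q ∈ T, 0 ≤ g2 q := fun q _ => by
    simp only [hg2]; split_ifs
    · exact le_rfl
    · exact mul_nonneg (mul_nonneg (mul_nonneg (hF0 _) (hF0 _))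
        (Real.rpow_nonneg (by positivity) _)) (hK2 _ _)
  have hpoint : ∀ q ∈ T, K q.1 q.2 * (F q.1 * F q.2) ≤
      (F q.1 * F q.2) ^ (1 - alpha1 - alpha2) * g1 q ^ alpha1 * g2 q ^ alpha2 := by
    intro q hq
    have hFF : 0 ≤ F q.1 * F q.2 := mul_nonneg (hF0 _) (hF0 _)
    by_cases h0 : K q.1 q.2 = 0
    · rw [h0, zero_mul]
      exact mul_nonneg (mul_nonneg (Real.rpow_nonneg hFF _) (Real.rpow_nonneg (hg10 q hq) _))
        (Real.rpow_nonneg (hg20 q hq) _)
    simp only [hg1, hg2, if_neg h0]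
    set a : ℝ := (upDev U k q.1 : ℝ) with hau
    set c : ℝ := (upDev U k q.2 : ℝ) with hcu
    have ha : 0 < a := by rw [hau]; exact_mod_cast upDev_pos h.prime_U k q.1
    have hc : 0 < c := by rw [hcu]; exact_mod_cast upDev_pos h.prime_U k q.2
    refine le_trans (mul_le_mul_of_nonneg_right (hle _ _) hFF) (le_of_eq ?_)
    rw [Real.mul_rpow (mul_nonneg hFF (Real.rpow_nonneg (by positivity) _)) (hK1 _ _),
      Real.mul_rpow (mul_nonneg hFF (Real.rpow_nonneg (by positivity) _)) (hK2 _ _),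
      Real.mul_rpow hFF (Real.rpow_nonneg (by positivity) _),
      Real.mul_rpow hFF (Real.rpow_nonneg (by positivity) _), ← Real.rpow_mul (by positivity),
      ← Real.rpow_mul (by positivity)]
    have e1 : sExp * alpha1 = tExp * alpha2 := by norm_num [sExp, tExp, alpha1, alpha2]
    have e2 : (a / c) ^ (sExp * alpha1) * (c / a) ^ (tExp * alpha2) = 1 := by
      rw [← e1, ← Real.mul_rpow (by positivity) (by positivity), div_mul_div_cancel₀ hc.ne',
        div_self ha.ne', Real.one_rpow]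
    have e3 : (F q.1 * F q.2) ^ (1 - alpha1 - alpha2) * (F q.1 * F q.2) ^ alpha1 *
        (F q.1 * F q.2) ^ alpha2 = F q.1 * F q.2 := by
      rcases hFF.eq_or_lt with e | e
      · rw [← e, Real.zero_rpow (by norm_num [alpha1, alpha2])]; simp
      · rw [← Real.rpow_add e, ← Real.rpow_add e,
          show 1 - alpha1 - alpha2 + alpha1 + alpha2 = 1 by ring, Real.rpow_one]
    calc K1 q.1 q.2 ^ alpha1 * K2 q.1 q.2 ^ alpha2 * (F q.1 * F q.2)
        = ((F q.1 * F q.2) ^ (1 - alpha1 - alpha2) * (F q.1 * F q.2) ^ alpha1 *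
            (F q.1 * F q.2) ^ alpha2) * ((a / c) ^ (sExp * alpha1) * (c / a) ^ (tExp * alpha2)) *
            (K1 q.1 q.2 ^ alpha1 * K2 q.1 q.2 ^ alpha2) := by rw [e2, e3]; ring
      _ = _ := by ring
  have hbound : ∀ {V W : Finset ℕ} {i j : ℕ → ℕ}, FinState P S U V W i j → ∀ {v w : ℕ},
      v ∈ V → w ∈ W → NoCoDev U k v w → dist2 ψ v w ≤ x →
      F w ≤ x / (fixedPart (P \ U) i j : ℝ) *
        ((Nat.totient (centre U k) : ℝ) / centre U k / Nat.totient (downDev U k w) /
          upDev U k v) := by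
    intro V W i j h v w hv hw hk hd
    have hU := h.prime_U
    have hw0 := h.pos_of_mem w (h.W_sub hw)
    have hcp : 0 < centre U k := prodPow_pos hU k
    have hdp := downDev_pos hU k w
    have hsub : (centre U k).primeFactors ⊆ w.primeFactors ∪ (downDev U k w).primeFactors := by
      intro p hp
      rw [← Nat.support_factorization, Finsupp.mem_support_iff, centre,
        factorization_prodPow hU] at hp
      obtain ⟨hpU, hkp⟩ := ite_ne_right_iff.1 hp
      rw [Finset.mem_union, ← Nat.support_factorization, ← Nat.support_factorization,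
        Finsupp.mem_support_iff, Finsupp.mem_support_iff, downDev, factorization_prodPow hU,
        if_pos hpU]
      omega
    have h1 := totient_div_le hcp hw0 hdp hsub
    have h2 : ψ w * ((fixedPart (P \ U) i j : ℝ) * ((upDev U k v : ℝ) * downDev U k w)) ≤ x := by
      refine le_trans (le_of_eq ?_) (le_trans (le_max_right _ _) hd)
      rw [(qd_eq_of_finState h hv hw hk).1]
      push_cast
      ring
    have hQ : (0 : ℝ) < fixedPart (P \ U) i j := by
      exact_mod_cast fixedPart_pos h.prime_sdiff i j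
    have hau : (0 : ℝ) < upDev U k v := by exact_mod_cast upDev_pos hU k v
    have hdd : (0 : ℝ) < downDev U k w := by exact_mod_cast hdp
    have hφd : (0 : ℝ) < Nat.totient (downDev U k w) := by exact_mod_cast Nat.totient_pos.2 hdp
    rw [← le_div_iff₀ (by positivity)] at h2
    refine le_trans (mul_le_mul h1 h2 (hψ w) (by positivity)) (le_of_eq ?_)
    field_simp
  have h1sum : ∑ q ∈ T, g1 q ≤ mass ψ V * (x / Q1 * G1) := by
    rw [hT, Finset.sum_product, mass, Finset.sum_mul]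
    refine Finset.sum_le_sum fun v hv => ?_
    refine le_trans ?_ (mul_le_mul_of_nonneg_left
      (mul_le_mul_of_nonneg_left (hG1 v hv) (by positivity)) (hF0 v))
    rw [Finset.mul_sum, Finset.mul_sum, Finset.sum_filter]
    refine Finset.sum_le_sum fun w hw => ?_
    simp only [hg1]
    by_cases h0 : K v w = 0
    · simp [h0]
    rw [if_neg h0, if_pos h0]
    obtain ⟨hk, hd, _⟩ := hsupp v hv w hw h0
    refine le_trans (mul_le_mul_of_nonneg_right (mul_le_mul_of_nonneg_right
      (mul_le_mul_of_nonneg_left (hbound h hv hw hk hd) (hF0 v))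
      (Real.rpow_nonneg (by positivity) _)) (hK1 v w)) (le_of_eq ?_)
    simp only [hF]
    ring
  have h2sum : ∑ q ∈ T, g2 q ≤ mass ψ W * (x / Q2 * G2) := by
    rw [hT, Finset.sum_product_right, mass, Finset.sum_mul]
    refine Finset.sum_le_sum fun w hw => ?_
    refine le_trans ?_ (mul_le_mul_of_nonneg_left
      (mul_le_mul_of_nonneg_left (hG2 w hw) (by positivity)) (hF0 w))
    rw [Finset.mul_sum, Finset.mul_sum, Finset.sum_filter]
    refine Finset.sum_le_sum fun v hv => ?_
    simp only [hg2]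
    by_cases h0 : K v w = 0
    · simp [h0]
    rw [if_neg h0, if_pos h0]
    obtain ⟨hk, hd, _⟩ := hsupp v hv w hw h0
    have hb := hbound h.symm hw hv (fun p hp => (hk p hp).symm) (by rwa [BilinearAux.dist2_comm])
    refine le_trans (mul_le_mul_of_nonneg_right (mul_le_mul_of_nonneg_right
      (mul_le_mul_of_nonneg_right hb (hF0 w))
      (Real.rpow_nonneg (by positivity) _)) (hK2 v w)) (le_of_eq ?_)
    simp only [hF]
    ring
  have hsum0 : ∑ q ∈ T, F q.1 * F q.2 = mass ψ V * mass ψ W := by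
    rw [hT, Finset.sum_product, mass, mass, Finset.sum_mul_sum]
  have hmV := mass_nonneg hψ V
  have hmW := mass_nonneg hψ W
  have ha0 : 0 < 1 - alpha1 - alpha2 := by norm_num [alpha1, alpha2]
  have ha1 : 0 < alpha1 := by norm_num [alpha1]
  have ha2 : 0 < alpha2 := by norm_num [alpha2]
  calc ∑ v ∈ V, ∑ w ∈ W, K v w * (wt ψ v * wt ψ w)
      = ∑ q ∈ T, K q.1 q.2 * (F q.1 * F q.2) := by rw [hT, Finset.sum_product]
    _ ≤ _ := Finset.sum_le_sum hpoint
    _ ≤ _ := sum_rpow3_le T _ _ _ ha0 ha1 ha2 (by ring)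
        (fun q _ => mul_nonneg (hF0 _) (hF0 _)) hg10 hg20
    _ ≤ (mass ψ V * mass ψ W) ^ (1 - alpha1 - alpha2) * (mass ψ V * (x / Q1 * G1)) ^ alpha1 *
          (mass ψ W * (x / Q2 * G2)) ^ alpha2 := by
        rw [hsum0]
        have n1 := Finset.sum_nonneg hg10
        have n2 := Finset.sum_nonneg hg20
        gcongr
    _ = mass ψ V ^ (alpha1 - alpha2) * (mass ψ V * mass ψ W) ^ thetaC * x ^ (alpha1 + alpha2) *
          (G1 ^ alpha1 * G2 ^ alpha2) / (Q1 ^ alpha1 * Q2 ^ alpha2) := by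
        rw [Real.mul_rpow (x := mass ψ V) (y := x / Q1 * G1) hmV (by positivity),
          Real.mul_rpow (x := mass ψ W) (y := x / Q2 * G2) hmW (by positivity),
          Real.mul_rpow (x := x / Q1) (y := G1) (by positivity) hG1n,
          Real.mul_rpow (x := x / Q2) (y := G2) (by positivity) hG2n,
          Real.div_rpow hx.le hQ1.le, Real.div_rpow hx.le hQ2.le, Real.rpow_add hx]
        have e : (mass ψ V * mass ψ W) ^ (1 - alpha1 - alpha2) * mass ψ V ^ alpha1 *
            mass ψ W ^ alpha2 = mass ψ V ^ (alpha1 - alpha2) * (mass ψ V * mass ψ W) ^ thetaC := by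
          rw [Real.mul_rpow hmV hmW, Real.mul_rpow hmV hmW]
          have eV : mass ψ V ^ (1 - alpha1 - alpha2) * mass ψ V ^ alpha1 =
              mass ψ V ^ (alpha1 - alpha2) * mass ψ V ^ thetaC := by
            rw [← Real.rpow_add' hmV (by norm_num [alpha1, alpha2]),
              ← Real.rpow_add' hmV (by norm_num [alpha1, alpha2, thetaC])]
            norm_num [alpha1, alpha2, thetaC]
          have eW : mass ψ W ^ (1 - alpha1 - alpha2) * mass ψ W ^ alpha2 =
              mass ψ W ^ thetaC := by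
            rw [← Real.rpow_add' hmW (by norm_num [alpha1, alpha2])]
            norm_num [alpha1, alpha2, thetaC]
          linear_combination (mass ψ W ^ (1 - alpha1 - alpha2) * mass ψ W ^ alpha2) * eV +
            (mass ψ V ^ (alpha1 - alpha2) * mass ψ V ^ thetaC) * eW
        rw [← e]
        ring
    _ ≤ _ := by
        refine div_le_div_of_nonneg_right ?_ (by positivity)
        gcongr
        · norm_num [alpha1, alpha2]
        · exact BilinearAux.mass_mono hψ h.V_sub

/-- `(φ(N)/N) ∑_{d ∣ N} 1 / φ(d)` is bounded. -/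
theorem exists_centre_sum_le :
    ∃ C : ℝ, ∀ N : ℕ, 0 < N →
      (Nat.totient N : ℝ) / N * ∑ d ∈ N.divisors, 1 / (Nat.totient d : ℝ) ≤ C := by
  refine ⟨Real.exp (1 + 2 * 0), fun N hN => ?_⟩
  have h := divisor_sum_bound (B := 0) (fun _ => 1) (fun _ _ => le_rfl) N hN (by simp)
  simpa using h

/-- Small-deviation sums: `∑_{c ≤ a} (a/c)^s ≤ C a` and `∑_{a ≥ c} (c/a)^t ≤ C c`. -/
theorem exists_ratio_sums_le :
    ∃ C : ℝ, ∀ a M : ℕ, 0 < a →
      (∑ c ∈ Finset.Icc 1 a, ((a : ℝ) / c) ^ sExp ≤ C * a) ∧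
      (∑ c ∈ Finset.Icc a M, ((a : ℝ) / c) ^ tExp ≤ C * a) := by
  refine ⟨max (1 / (1 - sExp)) (1 + 1 / (tExp - 1)), fun a M ha => ?_⟩
  have ha' : (0 : ℝ) < a := by exact_mod_cast ha
  constructor
  · refine le_trans (sum_small_le (v := sExp) (by norm_num [sExp]) (by norm_num [sExp]) ha' _
      fun c hc => ⟨(Finset.mem_Icc.1 hc).1, by exact_mod_cast (Finset.mem_Icc.1 hc).2⟩) ?_
    rw [← one_div_mul_eq_div]
    exact mul_le_mul_of_nonneg_right (le_max_left _ _) ha'.le
  · refine le_trans (sum_tail_le (t := tExp) (by norm_num [tExp]) ha' _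
      fun c hc => ⟨le_trans ha (Finset.mem_Icc.1 hc).1,
        by exact_mod_cast (Finset.mem_Icc.1 hc).1⟩) ?_
    exact mul_le_mul_of_nonneg_right (le_max_right _ _) ha'.le

/-- The estimate in a final state for the kernel of the moment bound. -/
theorem exists_moment_final (Kc : ℝ) (hKc : 0 ≤ Kc) :
    ∃ C : ℝ, 0 ≤ C ∧ ∀ (ψ : ℕ → ℝ) (P S U V W : Finset ℕ) (i j k : ℕ → ℕ) (x : ℝ) (y s : ℕ)
      (K' : ℕ → ℕ → ℝ), FinState P S U V W i j → (∀ q, 0 ≤ ψ q) → 0 < x →
      (s : ℝ) ≤ Kc * (y + 1) → (∀ v w, 0 ≤ K' v w) →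
      (∀ v w, K' v w ≤ hFac y (qd v w * qd w v) ^ s) →
      (∀ v w, K' v w ≠ 0 →
        NoCoDev U k v w ∧ dist2 ψ v w ≤ x ∧ upDev U k w ≤ upDev U k v) →
      ∑ v ∈ V, ∑ w ∈ W, K' v w * (wt ψ v * wt ψ w) ≤
        C * (mass ψ S ^ (alpha1 - alpha2) * x ^ (993 / 1000 : ℝ)) *
          (mass ψ V * mass ψ W) ^ thetaC /
          ((fixedPart (P \ U) i j * fixedPart (P \ U) j i : ℕ) : ℝ) ^ betaC := by
  have ha1 : 0 < alpha1 := by norm_num [alpha1]
  have ha2 : 0 < alpha2 := by norm_num [alpha2]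
  set K := Kc / alpha2 with hKd
  have hK : 0 ≤ K := div_nonneg hKc ha2.le
  have hKc' : Kc ≤ K := by
    rw [hKd, le_div_iff₀ ha2]
    exact mul_le_of_le_one_right hKc (by norm_num [alpha2])
  set E := Real.exp (4 * K * Real.exp (2 * K)) with hE
  set D := Real.exp (1 + 2 * (4 * K * Real.exp (2 * K))) with hD
  set Cs : ℝ := max (1 / (1 - sExp)) (1 + 1 / (tExp - 1)) with hCs
  have hCs0 : 0 ≤ Cs := le_trans (div_nonneg zero_le_one (by norm_num [sExp])) (le_max_left _ _)
  set G := D * (Cs * E) with hG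
  have hG0 : 0 ≤ G := by positivity
  set δ : ℝ := 1 / 1000 with hδd
  set C0 := Real.exp (2 * Kc) ^ ⌈Real.exp (2 * Kc / δ)⌉₊ with hC0
  refine ⟨C0 * G ^ alpha1 * G ^ alpha2, by positivity, ?_⟩
  intro ψ P S U V W i j k x y s K' h hψ hx hs hK'0 hK'le hK'supp
  classical
  have hU := h.prime_U
  set Q1 := fixedPart (P \ U) i j with hQ1d
  set Q2 := fixedPart (P \ U) j i with hQ2d
  have hQ1 : 0 < Q1 := fixedPart_pos h.prime_sdiff i j
  have hQ2 : 0 < Q2 := fixedPart_pos h.prime_sdiff j i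
  set u1 : ℝ := (s : ℝ) / alpha1 with hu1
  set u2 : ℝ := (s : ℝ) / alpha2 with hu2
  have hu10 : 0 ≤ u1 := by positivity
  have hu20 : 0 ≤ u2 := by positivity
  have hu2y : u2 ≤ K * ((y : ℝ) + 1) := by
    rw [hu2, hKd, div_mul_eq_mul_div]; exact div_le_div_of_nonneg_right hs ha2.le
  have hu1y : u1 ≤ K * ((y : ℝ) + 1) :=
    le_trans (div_le_div_of_nonneg_left (Nat.cast_nonneg _) ha2
      (by norm_num [alpha1, alpha2])) hu2y
  set kp : ℕ → ℕ → ℝ := fun v w =>
    if NoCoDev U k v w ∧ dist2 ψ v w ≤ x ∧ upDev U k w ≤ upDev U k v then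
      (hFac y (upDev U k w) * hFac y (downDev U k w)) ^ (s : ℝ) *
        (hFac y (upDev U k v) * hFac y (downDev U k v)) ^ (s : ℝ) else 0 with hkp
  set K1 : ℕ → ℕ → ℝ := fun _ w => (hFac y (upDev U k w) * hFac y (downDev U k w)) ^ u1 with hK1
  set K2 : ℕ → ℕ → ℝ := fun v _ => (hFac y (upDev U k v) * hFac y (downDev U k v)) ^ u2 with hK2
  have hh0 : ∀ n, 0 ≤ hFac y n := fun n => le_trans zero_le_one (one_le_hFac y n)
  have hK1n : ∀ v w, 0 ≤ K1 v w := fun v w =>
    Real.rpow_nonneg (mul_nonneg (hh0 _) (hh0 _)) _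
  have hK2n : ∀ v w, 0 ≤ K2 v w := fun v w =>
    Real.rpow_nonneg (mul_nonneg (hh0 _) (hh0 _)) _
  have hle : ∀ v w, kp v w ≤ K1 v w ^ alpha1 * K2 v w ^ alpha2 := by
    intro v w
    simp only [hkp, hK1, hK2]
    rw [← Real.rpow_mul (mul_nonneg (hh0 _) (hh0 _)), ← Real.rpow_mul (mul_nonneg (hh0 _) (hh0 _)),
      hu1, hu2, div_mul_cancel₀ _ ha1.ne', div_mul_cancel₀ _ ha2.ne']
    split_ifs
    · exact le_rfl
    · exact mul_nonneg (Real.rpow_nonneg (mul_nonneg (hh0 _) (hh0 _)) _)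
        (Real.rpow_nonneg (mul_nonneg (hh0 _) (hh0 _)) _)
  have hsupp : ∀ v w, kp v w ≠ 0 →
      NoCoDev U k v w ∧ dist2 ψ v w ≤ x ∧ upDev U k w ≤ upDev U k v := fun v w hne => by
    by_contra hc; exact hne (if_neg hc)
  -- the deviations of the two sides
  have hcp : 0 < centre U k := prodPow_pos hU k
  set Ω : ℝ := (Nat.totient (centre U k) : ℝ) / centre U k with hΩ
  have hdiv : ∀ u : ℝ, 0 ≤ u → u ≤ K * ((y : ℝ) + 1) →
      Ω * ∑ d ∈ (centre U k).divisors, hFac y d ^ u / (Nat.totient d : ℝ) ≤ D := by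
    intro u hu huy
    simp only [hFac_rpow]
    exact divisor_sum_bound (wgt y u) (fun p hp => one_le_wgt hu hp) _ hcp
      (sum_wgt_sub_one_div_le hK hu huy _ fun p hp => Nat.prime_of_mem_primeFactors hp)
  have hdd : ∀ {V' W' : Finset ℕ} {i' j' : ℕ → ℕ}, FinState P S U V' W' i' j' →
      ∀ w ∈ W', downDev U k w ∈ (centre U k).divisors := by
    intro V' W' i' j' h' w hw
    refine Nat.mem_divisors.2 ⟨?_, hcp.ne'⟩
    refine (Nat.factorization_le_iff_dvd (downDev_pos hU k w).ne' hcp.ne').1 fun p => ?_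
    rw [downDev, centre, factorization_prodPow hU, factorization_prodPow hU]
    split_ifs <;> omega
  have hside : ∀ {V' W' : Finset ℕ} {i' j' : ℕ → ℕ}, FinState P S U V' W' i' j' →
      ∀ (W'' : Finset ℕ), W'' ⊆ W' → ∀ (u : ℝ), 0 ≤ u → u ≤ K * ((y : ℝ) + 1) →
      ∀ (T : Finset ℕ) (M : ℕ), (∀ c ∈ T, 1 ≤ c ∧ c ≤ M) → (∀ w ∈ W'', upDev U k w ∈ T) →
      ∀ (Fc : ℕ → ℝ) (B : ℝ), (∀ c, 0 ≤ Fc c) → 0 ≤ B →
      (∀ e : ℕ, 0 < e → ∑ c ∈ T.filter (fun c => e ∣ c), Fc c ≤ B / e) →
      ∑ w ∈ W'', Ω / Nat.totient (downDev U k w) * Fc (upDev U k w) *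
        (hFac y (upDev U k w) * hFac y (downDev U k w)) ^ u ≤ D * (B * E) := by
    intro V' W' i' j' h' W'' hsub u hu huy T M hT hTw Fc B hFc hB hd
    calc ∑ w ∈ W'', Ω / Nat.totient (downDev U k w) * Fc (upDev U k w) *
          (hFac y (upDev U k w) * hFac y (downDev U k w)) ^ u
        = ∑ q ∈ W''.image (fun w => (upDev U k w, downDev U k w)),
            Ω / Nat.totient q.2 * Fc q.1 * (hFac y q.1 * hFac y q.2) ^ u := by
          rw [Finset.sum_image ((dev_injOn h').2.mono (by exact_mod_cast hsub))]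
      _ ≤ ∑ q ∈ T ×ˢ (centre U k).divisors,
            Ω / Nat.totient q.2 * Fc q.1 * (hFac y q.1 * hFac y q.2) ^ u := by
          refine Finset.sum_le_sum_of_subset_of_nonneg ?_ fun q _ _ => mul_nonneg
            (mul_nonneg (div_nonneg (by positivity) (Nat.cast_nonneg _)) (hFc _))
            (Real.rpow_nonneg (mul_nonneg (hh0 _) (hh0 _)) _)
          intro q hq
          obtain ⟨w, hw, rfl⟩ := Finset.mem_image.1 hq
          exact Finset.mem_product.2 ⟨hTw w hw, hdd h' w (hsub hw)⟩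
      _ = (Ω * ∑ d ∈ (centre U k).divisors, hFac y d ^ u / (Nat.totient d : ℝ)) *
            ∑ c ∈ T, Fc c * hFac y c ^ u := by
          rw [Finset.sum_product, Finset.mul_sum]
          refine Finset.sum_congr rfl fun c _ => ?_
          rw [Finset.mul_sum, Finset.sum_mul]
          refine Finset.sum_congr rfl fun d _ => ?_
          rw [Real.mul_rpow (hh0 _) (hh0 _)]
          ring
      _ ≤ _ := mul_le_mul (hdiv u hu huy) (sum_mul_hFac_le hK hu huy T hT Fc hB hd)
          (Finset.sum_nonneg fun c _ => mul_nonneg (hFc c) (Real.rpow_nonneg (hh0 _) _))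
          (Real.exp_pos _).le
  have hG1 : ∀ v ∈ V, ∑ w ∈ W.filter (fun w => kp v w ≠ 0),
      (Nat.totient (centre U k) : ℝ) / centre U k / Nat.totient (downDev U k w) *
        (((upDev U k v : ℝ) / upDev U k w) ^ sExp / upDev U k v) * K1 v w ≤ G := by
    intro v _
    set a : ℕ := upDev U k v with ha
    have hap : 0 < a := upDev_pos hU k v
    refine hside h _ (Finset.filter_subset _ _) u1 hu10 hu1y (Finset.Icc 1 a) a
      (fun c hc => Finset.mem_Icc.1 hc) (fun w hw => Finset.mem_Icc.2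
        ⟨upDev_pos hU k w, (hsupp v w (Finset.mem_filter.1 hw).2).2.2⟩)
      (fun c => ((a : ℝ) / c) ^ sExp / a) Cs
      (fun c => div_nonneg (Real.rpow_nonneg (by positivity) _) (Nat.cast_nonneg _)) hCs0
      fun e he => ?_
    have he' : (0 : ℝ) < e := by exact_mod_cast he
    have hap' : (0 : ℝ) < a := by exact_mod_cast hap
    rw [← Finset.sum_div, div_le_iff₀ hap']
    have hinj : Set.InjOn (fun c => c / e) ((Finset.Icc 1 a).filter (fun c => e ∣ c)) :=
      fun c hc d hd' hcd => by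
        simp only [Finset.coe_filter, Set.mem_ofPred_eq] at hc hd'
        rw [← Nat.div_mul_cancel hc.2, ← Nat.div_mul_cancel hd'.2]
        exact congrArg (· * e) hcd
    calc ∑ c ∈ (Finset.Icc 1 a).filter (fun c => e ∣ c), ((a : ℝ) / c) ^ sExp
        = ∑ c' ∈ ((Finset.Icc 1 a).filter (fun c => e ∣ c)).image (fun c => c / e),
            ((a : ℝ) / e / c') ^ sExp := by
          rw [Finset.sum_image hinj]
          refine Finset.sum_congr rfl fun c hc => ?_
          obtain ⟨_, hce⟩ := Finset.mem_filter.1 hc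
          rw [Nat.cast_div hce he'.ne', div_div, mul_div_cancel₀ _ he'.ne']
      _ ≤ ((a : ℝ) / e) / (1 - sExp) := by
          refine sum_small_le (by norm_num [sExp]) (by norm_num [sExp]) (by positivity) _
            fun c' hc' => ?_
          obtain ⟨c, hc, rfl⟩ := Finset.mem_image.1 hc'
          obtain ⟨hc1, hce⟩ := Finset.mem_filter.1 hc
          obtain ⟨h1, h2⟩ := Finset.mem_Icc.1 hc1
          refine ⟨(Nat.one_le_div_iff he).2 (Nat.le_of_dvd h1 hce), ?_⟩
          rw [Nat.cast_div hce he'.ne']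
          exact div_le_div_of_nonneg_right (by exact_mod_cast h2) he'.le
      _ ≤ Cs * ((a : ℝ) / e) := by
          rw [← one_div_mul_eq_div]
          exact mul_le_mul_of_nonneg_right (le_max_left _ _) (by positivity)
      _ = _ := by ring
  have hG2 : ∀ w ∈ W, ∑ v ∈ V.filter (fun v => kp v w ≠ 0),
      (Nat.totient (centre U k) : ℝ) / centre U k / Nat.totient (downDev U k v) *
        (((upDev U k w : ℝ) / upDev U k v) ^ tExp / upDev U k w) * K2 v w ≤ G := by
    intro w _
    set a : ℕ := upDev U k w with ha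
    have hap : 0 < a := upDev_pos hU k w
    obtain ⟨M, hM⟩ : ∃ M, ∀ v ∈ V, upDev U k v ≤ M :=
      ⟨V.sup (upDev U k), fun v hv => Finset.le_sup (f := upDev U k) hv⟩
    refine hside h.symm _ (Finset.filter_subset _ _) u2 hu20 hu2y (Finset.Icc a M) M
      (fun c hc => ⟨le_trans hap (Finset.mem_Icc.1 hc).1, (Finset.mem_Icc.1 hc).2⟩)
      (fun v hv => Finset.mem_Icc.2
        ⟨(hsupp v w (Finset.mem_filter.1 hv).2).2.2, hM v (Finset.mem_filter.1 hv).1⟩)
      (fun c => ((a : ℝ) / c) ^ tExp / a) Cs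
      (fun c => div_nonneg (Real.rpow_nonneg (by positivity) _) (Nat.cast_nonneg _)) hCs0
      fun e he => ?_
    have he' : (0 : ℝ) < e := by exact_mod_cast he
    have hap' : (0 : ℝ) < a := by exact_mod_cast hap
    rw [← Finset.sum_div, div_le_iff₀ hap']
    have hinj : Set.InjOn (fun c => c / e) ((Finset.Icc a M).filter (fun c => e ∣ c)) :=
      fun c hc d hd' hcd => by
        simp only [Finset.coe_filter, Set.mem_ofPred_eq] at hc hd'
        rw [← Nat.div_mul_cancel hc.2, ← Nat.div_mul_cancel hd'.2]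
        exact congrArg (· * e) hcd
    calc ∑ c ∈ (Finset.Icc a M).filter (fun c => e ∣ c), ((a : ℝ) / c) ^ tExp
        = ∑ c' ∈ ((Finset.Icc a M).filter (fun c => e ∣ c)).image (fun c => c / e),
            ((a : ℝ) / e / c') ^ tExp := by
          rw [Finset.sum_image hinj]
          refine Finset.sum_congr rfl fun c hc => ?_
          obtain ⟨_, hce⟩ := Finset.mem_filter.1 hc
          rw [Nat.cast_div hce he'.ne', div_div, mul_div_cancel₀ _ he'.ne']
      _ ≤ (1 + 1 / (tExp - 1)) * ((a : ℝ) / e) := by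
          refine sum_tail_le (by norm_num [tExp]) (by positivity) _ fun c' hc' => ?_
          obtain ⟨c, hc, rfl⟩ := Finset.mem_image.1 hc'
          obtain ⟨hc1, hce⟩ := Finset.mem_filter.1 hc
          obtain ⟨h1, h2⟩ := Finset.mem_Icc.1 hc1
          refine ⟨(Nat.one_le_div_iff he).2 (Nat.le_of_dvd (lt_of_lt_of_le hap h1) hce), ?_⟩
          rw [Nat.cast_div hce he'.ne']
          exact div_le_div_of_nonneg_right (by exact_mod_cast h1) he'.le
      _ ≤ Cs * ((a : ℝ) / e) := mul_le_mul_of_nonneg_right (le_max_right _ _) (by positivity)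
      _ = _ := by ring
  have hkpn : ∀ v w, 0 ≤ kp v w := fun v w => by
    simp only [hkp]; split_ifs
    · exact mul_nonneg (Real.rpow_nonneg (mul_nonneg (hh0 _) (hh0 _)) _)
        (Real.rpow_nonneg (mul_nonneg (hh0 _) (hh0 _)) _)
    · exact le_rfl
  have hfin := final_le h ψ hψ x hx kp K1 K2 hkpn hK1n hK2n hle
    (fun v _ w _ => hsupp v w) G G hG0 hG0 hG1 hG2
  have hQfac : hFac y (Q1 * Q2) ^ s ≤ C0 * ((Q1 * Q2 : ℕ) : ℝ) ^ δ := by
    have := hFac_rpow_le (K := Kc) (u := (s : ℝ)) (δ := δ) (y := y) hKc (Nat.cast_nonneg _) hs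
      (by rw [hδd]; norm_num) (Nat.mul_pos hQ1 hQ2)
    rwa [Real.rpow_natCast] at this
  have hcomp : ∀ v ∈ V, ∀ w ∈ W, K' v w ≤ C0 * ((Q1 * Q2 : ℕ) : ℝ) ^ δ * kp v w := by
    intro v hv w hw
    by_cases h0 : K' v w = 0
    · rw [h0]; exact mul_nonneg (by positivity) (hkpn v w)
    obtain ⟨hk, hd, hca⟩ := hK'supp v w h0
    simp only [hkp, if_pos (And.intro hk (And.intro hd hca))]
    refine le_trans (hK'le v w) ?_
    obtain ⟨e1, e2⟩ := qd_eq_of_finState h hv hw hk
    have p1 := upDev_pos hU k v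
    have p2 := downDev_pos hU k v
    have p3 := upDev_pos hU k w
    have p4 := downDev_pos hU k w
    have e3 : qd v w * qd w v = (Q1 * Q2) *
        ((upDev U k w * downDev U k w) * (upDev U k v * downDev U k v)) := by
      rw [e1, e2]; ring
    rw [e3, Real.rpow_natCast, Real.rpow_natCast, ← mul_pow]
    refine le_trans (pow_le_pow_left₀ (hh0 _) (le_trans (hFac_mul_le y (by positivity)
      (by positivity)) (mul_le_mul_of_nonneg_left (le_trans (hFac_mul_le y (by positivity)
        (by positivity)) (mul_le_mul (hFac_mul_le y p3.ne' p4.ne') (hFac_mul_le y p1.ne' p2.ne')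
          (hh0 _) (mul_nonneg (hh0 _) (hh0 _)))) (hh0 _))) s) ?_
    rw [mul_pow (hFac y (Q1 * Q2))]
    exact mul_le_mul_of_nonneg_right hQfac
      (pow_nonneg (mul_nonneg (mul_nonneg (hh0 _) (hh0 _)) (mul_nonneg (hh0 _) (hh0 _))) _)
  calc ∑ v ∈ V, ∑ w ∈ W, K' v w * (wt ψ v * wt ψ w)
      ≤ ∑ v ∈ V, ∑ w ∈ W, C0 * ((Q1 * Q2 : ℕ) : ℝ) ^ δ * (kp v w * (wt ψ v * wt ψ w)) := by
        refine Finset.sum_le_sum fun v hv => Finset.sum_le_sum fun w hw => ?_
        rw [← mul_assoc (C0 * ((Q1 * Q2 : ℕ) : ℝ) ^ δ)]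
        exact mul_le_mul_of_nonneg_right (hcomp v hv w hw)
          (mul_nonneg (BilinearAux.wt_nonneg hψ v) (BilinearAux.wt_nonneg hψ w))
    _ ≤ C0 * ((Q1 * Q2 : ℕ) : ℝ) ^ δ * (mass ψ S ^ (alpha1 - alpha2) *
          (mass ψ V * mass ψ W) ^ thetaC * x ^ (alpha1 + alpha2) * (G ^ alpha1 * G ^ alpha2) /
          ((Q1 : ℝ) ^ alpha1 * (Q2 : ℝ) ^ alpha2)) := by
        simp only [← Finset.mul_sum]
        exact mul_le_mul_of_nonneg_left hfin (by positivity)
    _ = C0 * G ^ alpha1 * G ^ alpha2 * (mass ψ S ^ (alpha1 - alpha2) * x ^ (993 / 1000 : ℝ)) *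
          (mass ψ V * mass ψ W) ^ thetaC *
          (((Q1 * Q2 : ℕ) : ℝ) ^ δ / ((Q1 : ℝ) ^ alpha1 * (Q2 : ℝ) ^ alpha2)) := by
        rw [show alpha1 + alpha2 = (993 / 1000 : ℝ) by norm_num [alpha1, alpha2]]
        ring
    _ ≤ C0 * G ^ alpha1 * G ^ alpha2 * (mass ψ S ^ (alpha1 - alpha2) * x ^ (993 / 1000 : ℝ)) *
          (mass ψ V * mass ψ W) ^ thetaC * (1 / ((Q1 * Q2 : ℕ) : ℝ) ^ betaC) := by
        have := BilinearAux.mass_nonneg hψ V
        have := BilinearAux.mass_nonneg hψ W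
        have := BilinearAux.mass_nonneg hψ S
        refine mul_le_mul_of_nonneg_left ?_ (by positivity)
        have q1 : (1 : ℝ) ≤ Q1 := by exact_mod_cast hQ1
        have q2 : (1 : ℝ) ≤ Q2 := by exact_mod_cast hQ2
        rw [div_le_div_iff₀ (by positivity) (by positivity), one_mul,
          ← Real.rpow_add (by exact_mod_cast Nat.mul_pos hQ1 hQ2), Nat.cast_mul,
          Real.mul_rpow (by positivity) (by positivity)]
        refine mul_le_mul (Real.rpow_le_rpow_of_exponent_le q1 ?_)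
          (Real.rpow_le_rpow_of_exponent_le q2 ?_) (by positivity) (by positivity)
        · norm_num [hδd, betaC, alpha1]
        · norm_num [hδd, betaC, alpha2]
    _ = _ := by ring

/-- The moment bound for pairs with `D ≤ x`. -/
theorem exists_moment_le (Kc : ℝ) (hKc : 0 ≤ Kc) :
    ∃ C : ℝ, ∀ (ψ : ℕ → ℝ) (S : Finset ℕ) (x : ℝ) (y s : ℕ),
      (∀ q ∈ S, 0 < q) → (∀ q, 0 ≤ ψ q) → 0 < x → (s : ℝ) ≤ Kc * (y + 1) →
      ∑ q ∈ S, ∑ r ∈ S.filter (fun r => q ≠ r ∧ dist2 ψ q r ≤ x),
          wt ψ q * wt ψ r * hFac y (qd q r * qd r q) ^ s ≤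
        C * (mass ψ S + mass ψ S ^ 2) * x ^ (993 / 1000 : ℝ) := by
  have hexp : 1 < 2 * thetaC * (betaC / (1 - thetaC)) := by norm_num [thetaC, betaC]
  obtain ⟨Cr, hCr⟩ := exists_split_bound thetaC betaC (by norm_num [thetaC]) (by norm_num [thetaC])
    (by norm_num [betaC]) hexp
  obtain ⟨Cm, hCm0, hCm⟩ := exists_moment_final Kc hKc
  refine ⟨max Cr 0 * (2 * Cm), ?_⟩
  intro ψ S x y s hS hψ hx hs
  classical
  set P := S.biUnion Nat.primeFactors with hP
  set F := fun q => wt ψ q with hF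
  have hF0 : ∀ q, 0 ≤ F q := fun q => BilinearAux.wt_nonneg hψ q
  set K : ℕ → ℕ → ℝ := fun v w =>
    if v ≠ w ∧ dist2 ψ v w ≤ x then hFac y (qd v w * qd w v) ^ s else 0 with hK
  have hh0 : ∀ n, 0 ≤ hFac y n := fun n => le_trans zero_le_one (one_le_hFac y n)
  have hK0 : ∀ v w, 0 ≤ K v w := fun v w => by
    simp only [hK]; split_ifs
    · exact pow_nonneg (hh0 _) _
    · exact le_rfl
  have hm := BilinearAux.mass_nonneg hψ S
  set G := 2 * Cm * (mass ψ S ^ (alpha1 - alpha2) * x ^ (993 / 1000 : ℝ)) with hG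
  have hG0 : 0 ≤ G := by positivity
  have hfinal : FinalBound thetaC betaC G P S F K := by
    intro U V W i j k hU hV hW hi hj K' hK'0 hK'le hK'supp
    have h : FinState P S U V W i j :=
      ⟨fun p hp => by
          obtain ⟨q, _, hq⟩ := Finset.mem_biUnion.1 hp
          exact Nat.prime_of_mem_primeFactors hq,
        hS, fun q hq => Finset.subset_biUnion_of_mem Nat.primeFactors hq, hU, hV, hW, hi, hj⟩
    have hle' : ∀ v w, K' v w ≤ hFac y (qd v w * qd w v) ^ s := fun v w => by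
      refine le_trans (hK'le v w) ?_
      simp only [hK]; split_ifs
      · exact le_rfl
      · exact pow_nonneg (hh0 _) _
    have hd : ∀ v w, K' v w ≠ 0 → dist2 ψ v w ≤ x := fun v w hne => by
      by_contra hc
      have := hK'le v w
      simp only [hK, if_neg (fun hh : v ≠ w ∧ dist2 ψ v w ≤ x => hc hh.2)] at this
      exact hne (le_antisymm this (hK'0 v w))
    have h1 := hCm ψ P S U V W i j k x y s
      (fun v w => if upDev U k w ≤ upDev U k v then K' v w else 0) h hψ hx hs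
      (fun v w => by split_ifs; exacts [hK'0 v w, le_rfl])
      (fun v w => by split_ifs; exacts [hle' v w, pow_nonneg (hh0 _) _])
      (fun v w hne => by
        obtain ⟨hle, hne'⟩ := ite_ne_right_iff.1 hne
        exact ⟨hK'supp v w hne', hd v w hne', hle⟩)
    have h2 := hCm ψ P S U W V j i k x y s
      (fun w v => if upDev U k v ≤ upDev U k w then K' v w else 0) h.symm hψ hx hs
      (fun w v => by split_ifs; exacts [hK'0 v w, le_rfl])
      (fun w v => by
        split_ifs
        · rw [mul_comm (qd w v)]; exact hle' v w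
        · exact pow_nonneg (hh0 _) _)
      (fun w v hne => by
        obtain ⟨hle, hne'⟩ := ite_ne_right_iff.1 hne
        exact ⟨fun p hp => (hK'supp v w hne' p hp).symm,
          by rw [BilinearAux.dist2_comm]; exact hd v w hne', hle⟩)
    rw [Finset.sum_comm, mul_comm (mass ψ W) (mass ψ V),
      mul_comm (fixedPart (P \ U) j i)] at h2
    calc ∑ v ∈ V, ∑ w ∈ W, K' v w * (F v * F w)
        ≤ ∑ v ∈ V, ∑ w ∈ W, ((if upDev U k w ≤ upDev U k v then K' v w else 0) *
              (wt ψ v * wt ψ w) + (if upDev U k v ≤ upDev U k w then K' v w else 0) *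
              (wt ψ w * wt ψ v)) := by
          refine Finset.sum_le_sum fun v _ => Finset.sum_le_sum fun w _ => ?_
          have hp := mul_nonneg (hK'0 v w) (mul_nonneg (hF0 v) (hF0 w))
          simp only [hF] at hp ⊢
          rw [mul_comm (wt ψ w) (wt ψ v)]
          rcases le_total (upDev U k w) (upDev U k v) with hh | hh
          · rw [if_pos hh]
            refine le_add_of_nonneg_right ?_
            split_ifs
            · exact hp
            · simp
          · rw [if_pos hh]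
            refine le_add_of_nonneg_left ?_
            split_ifs
            · exact hp
            · simp
      _ ≤ _ := by
          simp only [Finset.sum_add_distrib]
          refine le_trans (add_le_add h1 h2) (le_of_eq ?_)
          simp only [hG, hF, mass]
          ring
  have hb := hCr P S F K G (fun p hp => by
      obtain ⟨q, _, hq⟩ := Finset.mem_biUnion.1 hp
      exact Nat.prime_of_mem_primeFactors hq)
    (fun q hq => Finset.subset_biUnion_of_mem Nat.primeFactors hq) hF0 hK0 hG0 hfinal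
  calc ∑ q ∈ S, ∑ r ∈ S.filter (fun r => q ≠ r ∧ dist2 ψ q r ≤ x),
        wt ψ q * wt ψ r * hFac y (qd q r * qd r q) ^ s
      = ∑ v ∈ S, ∑ w ∈ S, K v w * (F v * F w) := by
        refine Finset.sum_congr rfl fun q _ => ?_
        rw [Finset.sum_filter]
        refine Finset.sum_congr rfl fun r _ => ?_
        simp only [hK, hF]
        split_ifs <;> ring
    _ ≤ Cr * G * ((∑ v ∈ S, F v) * ∑ w ∈ S, F w) ^ thetaC := hb
    _ ≤ max Cr 0 * G * ((∑ v ∈ S, F v) * ∑ w ∈ S, F w) ^ thetaC := by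
        refine mul_le_mul_of_nonneg_right (mul_le_mul_of_nonneg_right (le_max_left _ _) hG0) ?_
        exact Real.rpow_nonneg (mul_nonneg (Finset.sum_nonneg fun v _ => hF0 v)
          (Finset.sum_nonneg fun v _ => hF0 v)) _
    _ = max Cr 0 * (2 * Cm) * (mass ψ S ^ (1007 / 1000 : ℝ)) * x ^ (993 / 1000 : ℝ) := by
        have e : mass ψ S ^ (alpha1 - alpha2) * (mass ψ S * mass ψ S) ^ thetaC =
            mass ψ S ^ (1007 / 1000 : ℝ) := by
          rw [Real.mul_rpow hm hm, ← Real.rpow_add' hm (by norm_num [thetaC]),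
            ← Real.rpow_add' hm (by norm_num [thetaC, alpha1, alpha2])]
          norm_num [thetaC, alpha1, alpha2]
        simp only [hF, hG, mass] at e ⊢
        rw [← e]
        ring
    _ ≤ _ := by
        refine mul_le_mul_of_nonneg_right (mul_le_mul_of_nonneg_left ?_ (by positivity))
          (by positivity)
        rcases le_total (mass ψ S) 1 with hh | hh
        · refine le_trans (Real.rpow_le_rpow_of_exponent_ge' hm hh zero_le_one (by norm_num)) ?_
          rw [Real.rpow_one]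
          exact le_add_of_nonneg_right (by positivity)
        · refine le_trans (Real.rpow_le_rpow_of_exponent_le hh
            (show (1007 / 1000 : ℝ) ≤ 2 by norm_num)) ?_
          rw [Real.rpow_two]
          exact le_add_of_nonneg_left hm

end Vale.Agent.P028
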