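import Vale.Agent.P028.GainDefs

/-!
The two counting lemmas for coincidences: off the line `n B + A m = 0`, and shifted Bohr sets.
-/

noncomputable section

namespace Vale.Agent.P028

open Finset

/-- A finite set of integers in one class mod `d` with diameter at most `len`. -/
private theorem card_le_of_spaced (T : Finset ℤ) (d : ℕ) (hd : 0 < d) (len : ℝ) (hlen : 0 ≤ len)
    (hdvd : ∀ x ∈ T, ∀ y ∈ T, (d : ℤ) ∣ x - y)
    (hdiam : ∀ x ∈ T, ∀ y ∈ T, |(x : ℝ) - y| ≤ len) :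
    (T.card : ℝ) ≤ len / d + 1 := by
  rcases T.eq_empty_or_nonempty with rfl | hne
  · simp
    positivity
  set t0 := T.min' hne with ht0
  have hd' : (0 : ℝ) < d := by exact_mod_cast hd
  have hdz : (d : ℤ) ≠ 0 := by omega
  set N : ℕ := ⌊len / d⌋₊ with hN
  have hle : T.card ≤ (Finset.Icc (0 : ℤ) N).card := by
    refine Finset.card_le_card_of_injOn (fun x => (x - t0) / (d : ℤ)) ?_ ?_
    · intro x hx
      have hx' : x ∈ T := hx
      have h0 : t0 ≤ x := T.min'_le x hx'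
      obtain ⟨q, hq⟩ := hdvd x hx' t0 (T.min'_mem hne)
      simp only [hq, Int.mul_ediv_cancel_left _ hdz, Finset.mem_coe, Finset.mem_Icc]
      have hq0 : 0 ≤ q := by
        by_contra hc
        push Not at hc
        have : (d : ℤ) * q < 0 := mul_neg_of_pos_of_neg (by exact_mod_cast hd) hc
        omega
      refine ⟨hq0, ?_⟩
      have h1 := hdiam x hx' t0 (T.min'_mem hne)
      have h2 : (x : ℝ) - t0 = (d : ℝ) * (q : ℝ) := by exact_mod_cast hq
      have h3 : ((q.toNat : ℕ) : ℝ) = (q : ℝ) := by exact_mod_cast Int.toNat_of_nonneg hq0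
      have h4 : q.toNat ≤ N := by
        apply Nat.le_floor
        rw [h3, le_div_iff₀ hd', mul_comm, ← h2]
        exact (le_abs_self _).trans h1
      omega
    · intro x hx y hy hxy
      obtain ⟨q, hq⟩ := hdvd x hx t0 (T.min'_mem hne)
      obtain ⟨r, hr⟩ := hdvd y hy t0 (T.min'_mem hne)
      simp only [hq, hr, Int.mul_ediv_cancel_left _ hdz] at hxy
      subst hxy
      omega
  have hcard : (Finset.Icc (0 : ℤ) N).card = N + 1 := by simp
  have h5 : (T.card : ℝ) ≤ (N : ℝ) + 1 := by exact_mod_cast hcard ▸ hle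
  linarith [Nat.floor_le (div_nonneg hlen hd'.le)]

/-- The integers `m` with a coincidence off the line `n B + A m = 0`. -/
theorem exists_card_offLine_le :
    ∃ C : ℝ, ∀ (γ ρ : ℝ) (A : ℤ) (B M : ℕ) (T : Finset ℤ), 0 ≤ ρ → 0 < B → 1 ≤ M →
      IsCoprime A (B : ℤ) →
      (∀ m ∈ T, |m| ≤ (M : ℤ) ∧ ∃ n : ℤ, |(n : ℝ) + γ * m| ≤ ρ ∧ n * (B : ℤ) + A * m ≠ 0) →
      (T.card : ℝ) ≤ C * (ρ * M + |(B : ℝ) * γ - A| * M + ρ * B) := by
  refine ⟨8, ?_⟩
  intro γ ρ A B M T hρ hB hM hco hT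
  have hch : ∀ m ∈ T, ∃ n : ℤ, |(n : ℝ) + γ * m| ≤ ρ ∧ n * (B : ℤ) + A * m ≠ 0 :=
    fun m hm => (hT m hm).2
  choose! nf hnf hne using hch
  set δ : ℝ := (B : ℝ) * γ - A with hδ
  have hB' : (0 : ℝ) < B := by exact_mod_cast hB
  set R : ℝ := ρ * B + |δ| * M with hR
  have hR0 : 0 ≤ R := by positivity
  set N : ℕ := ⌊R⌋₊ with hN
  set f : ℤ → ℤ := fun m => nf m * (B : ℤ) + A * m with hf
  have hkey : ∀ m ∈ T, |(f m : ℝ) + δ * m| ≤ ρ * B := by
    intro m hm
    have e : (f m : ℝ) + δ * m = (B : ℝ) * ((nf m : ℝ) + γ * m) := by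
      simp only [hf, hδ]
      push_cast
      ring
    rw [e, abs_mul, abs_of_pos hB', mul_comm]
    exact mul_le_mul_of_nonneg_right (hnf m hm) hB'.le
  have hm_le : ∀ m ∈ T, |(m : ℝ)| ≤ M := fun m hm => by exact_mod_cast (hT m hm).1
  have hmaps : ∀ m ∈ T, f m ∈ (Finset.Icc (-(N : ℤ)) N).erase 0 := by
    intro m hm
    refine Finset.mem_erase.2 ⟨hne m hm, ?_⟩
    have h1 : |(f m : ℝ)| ≤ R := by
      have h2 : |δ * (m : ℝ)| ≤ |δ| * M := by
        rw [abs_mul]
        exact mul_le_mul_of_nonneg_left (hm_le m hm) (abs_nonneg δ)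
      calc |(f m : ℝ)| = |((f m : ℝ) + δ * m) - δ * m| := by ring_nf
        _ ≤ |(f m : ℝ) + δ * m| + |δ * m| := abs_sub _ _
        _ ≤ R := by rw [hR]; linarith [hkey m hm]
    have h3 : (f m).natAbs ≤ N := by
      apply Nat.le_floor
      rw [Nat.cast_natAbs, Int.cast_abs]
      exact h1
    rw [Finset.mem_Icc]
    omega
  -- the bound for a single fibre
  set len : ℝ := if δ = 0 then 2 * (M : ℝ) else min (2 * (M : ℝ)) (2 * ρ * B / |δ|) with hlen
  have hlen0 : 0 ≤ len := by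
    rw [hlen]
    split <;> positivity
  have hfib : ∀ i ∈ (Finset.Icc (-(N : ℤ)) N).erase 0,
      ((T.filter (fun m => f m = i)).card : ℝ) ≤ len / B + 1 := by
    intro i _
    refine card_le_of_spaced _ B hB len hlen0 ?_ ?_
    · intro x hx y hy
      obtain ⟨hxT, hxi⟩ := Finset.mem_filter.1 hx
      obtain ⟨hyT, hyi⟩ := Finset.mem_filter.1 hy
      have h : (B : ℤ) ∣ A * (x - y) := ⟨nf y - nf x, by simp only [hf] at hxi hyi; linarith⟩
      exact (hco.symm).dvd_of_dvd_mul_left h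
    · intro x hx y hy
      obtain ⟨hxT, hxi⟩ := Finset.mem_filter.1 hx
      obtain ⟨hyT, hyi⟩ := Finset.mem_filter.1 hy
      have h2M : |(x : ℝ) - y| ≤ 2 * M := by
        refine (abs_sub _ _).trans ?_
        linarith [hm_le x hxT, hm_le y hyT]
      rw [hlen]
      split
      · exact h2M
      · next hδ0 =>
        refine le_min h2M ?_
        rw [le_div_iff₀ (abs_pos.2 hδ0), ← abs_mul]
        have e : ((x : ℝ) - y) * δ = ((f x : ℝ) + δ * x) - ((f y : ℝ) + δ * y) := by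
          rw [hxi, hyi]; ring
        rw [e]
        refine (abs_sub _ _).trans ?_
        linarith [hkey x hxT, hkey y hyT]
  have hcardI : ((Finset.Icc (-(N : ℤ)) N).erase 0).card = 2 * N := by
    rw [Finset.card_erase_of_mem (by simp), Int.card_Icc]
    omega
  have h1 : (T.card : ℝ) ≤ (2 * N : ℕ) * (len / B + 1) := by
    rw [Finset.card_eq_sum_card_fiberwise hmaps, Nat.cast_sum]
    refine (Finset.sum_le_sum hfib).trans ?_
    rw [Finset.sum_const, hcardI, nsmul_eq_mul]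
  have hNR : (N : ℝ) ≤ R := Nat.floor_le hR0
  have h2 : (T.card : ℝ) ≤ 2 * R * (len / B + 1) := by
    refine h1.trans ?_
    push_cast
    gcongr
  refine h2.trans ?_
  have hlenR : R * (len / B) ≤ 4 * ρ * M := by
    have hnn : 0 ≤ ρ * (M : ℝ) := by positivity
    rw [hlen]
    split
    · next hδ0 =>
      have e : R * (2 * (M : ℝ) / B) = 2 * ρ * M := by
        rw [hR, hδ0]; field_simp; simp
      rw [e]; linarith
    · next hδ0 =>
      have hd : 0 < |δ| := abs_pos.2 hδ0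
      set l := min (2 * (M : ℝ)) (2 * ρ * B / |δ|)
      have hl1 : ρ * B * (l / B) ≤ 2 * ρ * M := by
        calc ρ * B * (l / B) ≤ ρ * B * (2 * M / B) := by gcongr; exact min_le_left _ _
          _ = 2 * ρ * M := by field_simp
      have hl2 : |δ| * M * (l / B) ≤ 2 * ρ * M := by
        calc |δ| * M * (l / B) ≤ |δ| * M * ((2 * ρ * B / |δ|) / B) := by
              gcongr; exact min_le_right _ _
          _ = 2 * ρ * M := by field_simp
      rw [hR, add_mul]; linarith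
  have : 0 ≤ |δ| * (M : ℝ) := by positivity
  have : 0 ≤ ρ * (B : ℝ) := by positivity
  have : 2 * R * (len / B + 1) = 2 * (R * (len / B)) + 2 * R := by ring
  rw [this, hR]
  rw [hR] at hlenR
  linarith

/-- A shifted Bohr set in a long interval is small unless `α` has a short resonance. -/
theorem exists_card_bohr_le :
    ∃ C : ℝ, ∀ (α β ρ : ℝ) (H C0 : ℕ) (lam : ℝ) (T : Finset ℕ),
      0 < ρ → 1 ≤ H → 1 ≤ C0 → 0 < lam → ρ * H ≤ 1 / 16 →
      (∀ h : ℕ, 1 ≤ h → h ≤ H → ∀ l : ℤ, lam < |α * h - l| * C0) →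
      (∀ c ∈ T, C0 ≤ c ∧ c < 2 * C0 ∧ ∃ n : ℤ, |(n : ℝ) + α * c - β| ≤ ρ) →
      (T.card : ℝ) ≤ C * (ρ * C0 + ρ * C0 / lam + C0 / H + 1) := by
  classical
  refine ⟨4, ?_⟩
  intro α β ρ H C0 lam T hρ hH hC0 hlam hρH hres hT
  have hH' : (0 : ℝ) < H := by exact_mod_cast hH
  have hC0' : (0 : ℝ) ≤ (C0 : ℝ) := Nat.cast_nonneg _
  have hnn1 : 0 ≤ ρ * (C0 : ℝ) := by positivity
  have hnn2 : 0 ≤ ρ * (C0 : ℝ) / lam := by positivity
  have hnn3 : 0 ≤ (C0 : ℝ) / H := by positivity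
  by_cases hsmall : T.card ≤ C0 / H + 1
  · have h : (T.card : ℝ) ≤ (C0 : ℝ) / H + 1 := by
      refine (Nat.cast_le.2 hsmall).trans ?_
      push_cast
      linarith [Nat.cast_div_le (α := ℝ) (m := C0) (n := H)]
    linarith
  push Not at hsmall
  have hch : ∀ c ∈ T, ∃ n : ℤ, |(n : ℝ) + α * c - β| ≤ ρ := fun c hc => (hT c hc).2.2
  choose! nf hnf using hch
  -- two points at distance below `H`
  have hex : ∃ h : ℕ, 1 ≤ h ∧ h ≤ H ∧ ∃ l : ℤ, |α * h - l| ≤ 2 * ρ := by
    obtain ⟨c, hc, c', hc', hne, heq⟩ := Finset.exists_ne_map_eq_of_card_lt_of_maps_to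
      (s := T) (t := Finset.range (C0 / H + 1)) (f := fun c => (c - C0) / H)
      (by rwa [Finset.card_range]) (fun c hc => by
        have := (hT c hc).2.1
        simp only [Finset.coe_range, Set.mem_Iio]
        exact Nat.lt_succ_of_le (Nat.div_le_div_right (by omega)))
    wlog hlt : c < c' generalizing c c'
    · exact this c' hc' c hc (Ne.symm hne) heq.symm (by omega)
    have h1 := (hT c hc).1
    have h2 := (hT c' hc').1
    have hd : c' - c < H + 1 := by
      have e1 := Nat.div_add_mod (c - C0) H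
      have e2 := Nat.div_add_mod (c' - C0) H
      have m1 := Nat.mod_lt (c - C0) (show H > 0 by omega)
      have m2 := Nat.mod_lt (c' - C0) (show H > 0 by omega)
      rw [heq] at e1
      omega
    refine ⟨c' - c, by omega, by omega, -(nf c' - nf c), ?_⟩
    rw [Nat.cast_sub hlt.le]
    push_cast
    have e : α * ((c' : ℝ) - c) - -((nf c' : ℝ) - nf c)
        = ((nf c' : ℝ) + α * c' - β) - ((nf c : ℝ) + α * c - β) := by ring
    rw [e]
    refine (abs_sub _ _).trans ?_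
    linarith [hnf c hc, hnf c' hc']
  set h := Nat.find hex with hh
  obtain ⟨hh1, hhH, l, hl⟩ := Nat.find_spec hex
  rw [← hh] at hh1 hhH hl
  have hh' : (0 : ℝ) < h := by exact_mod_cast hh1
  set τ : ℝ := α * h - l with hτ
  have hτC : lam < |τ| * C0 := hres h hh1 hhH l
  have hτ0 : 0 < |τ| := by
    rcases (abs_nonneg τ).eq_or_lt with he | he
    · rw [← he] at hτC; linarith
    · exact he
  -- the resonance is primitive
  have hgcd : IsCoprime (h : ℤ) l := by
    rw [Int.isCoprime_iff_gcd_eq_one]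
    by_contra hg
    set g := Int.gcd (h : ℤ) l with hgdef
    have hgh : g ∣ h := by
      have := Int.gcd_dvd_left (h : ℤ) l
      exact_mod_cast this
    obtain ⟨h', hh'eq⟩ := hgh
    obtain ⟨l', hl'eq⟩ := Int.gcd_dvd_right (h : ℤ) l
    rw [← hgdef] at hl'eq
    have hg0 : g ≠ 0 := by
      intro h0; rw [h0, zero_mul] at hh'eq; omega
    have hg2 : 2 ≤ g := by omega
    have hh'1 : 1 ≤ h' := by
      rcases Nat.eq_zero_or_pos h' with h0 | h0
      · rw [h0, mul_zero] at hh'eq; omega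
      · exact h0
    have hlt : h' < h := by
      rw [hh'eq]; nlinarith
    refine Nat.find_min hex (hh ▸ hlt) ⟨hh'1, by omega, l', ?_⟩
    have e : τ = (g : ℝ) * (α * h' - l') := by
      rw [hτ, hh'eq, hl'eq]; push_cast; ring
    rw [e, abs_mul, Nat.abs_cast] at hl
    refine le_trans ?_ hl
    exact le_mul_of_one_le_left (abs_nonneg _) (by exact_mod_cast (by omega : 1 ≤ g))
  set f : ℕ → ℤ := fun c => (h : ℤ) * nf c + l * c with hf
  have hkey : ∀ c ∈ T, |(f c : ℝ) + τ * c - h * β| ≤ h * ρ := by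
    intro c hc
    have e : (f c : ℝ) + τ * c - h * β = (h : ℝ) * ((nf c : ℝ) + α * c - β) := by
      simp only [hf, hτ]; push_cast; ring
    rw [e, abs_mul, Nat.abs_cast]
    exact mul_le_mul_of_nonneg_left (hnf c hc) hh'.le
  set J := T.image f with hJ
  have hJcard : (J.card : ℝ) ≤ (|τ| * C0 + 2 * h * ρ) / (1 : ℕ) + 1 := by
    refine card_le_of_spaced J 1 one_pos _ (by positivity) (fun x _ y _ => by simp) ?_
    intro x hx y hy
    obtain ⟨c, hc, rfl⟩ := Finset.mem_image.1 hx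
    obtain ⟨c', hc', rfl⟩ := Finset.mem_image.1 hy
    have hcc : |(c : ℝ) - c'| ≤ C0 := by
      have a1 : (C0 : ℝ) ≤ c := by exact_mod_cast (hT c hc).1
      have a2 : (C0 : ℝ) ≤ c' := by exact_mod_cast (hT c' hc').1
      have a3 : (c : ℝ) ≤ 2 * C0 := by exact_mod_cast (hT c hc).2.1.le
      have a4 : (c' : ℝ) ≤ 2 * C0 := by exact_mod_cast (hT c' hc').2.1.le
      rw [abs_le]; constructor <;> linarith
    have e : (f c : ℝ) - f c' = ((f c : ℝ) + τ * c - h * β) - ((f c' : ℝ) + τ * c' - h * β)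
        - τ * ((c : ℝ) - c') := by ring
    rw [e]
    refine (abs_sub _ _).trans ?_
    have h1 := (abs_sub ((f c : ℝ) + τ * c - h * β) ((f c' : ℝ) + τ * c' - h * β))
    have h2 : |τ * ((c : ℝ) - c')| ≤ |τ| * C0 := by
      rw [abs_mul]; exact mul_le_mul_of_nonneg_left hcc (abs_nonneg τ)
    linarith [hkey c hc, hkey c' hc']
  have hfib : ∀ j ∈ J, ((T.filter (fun c => f c = j)).card : ℝ) ≤ 2 * h * ρ / |τ| / h + 1 := by
    intro j _
    have := card_le_of_spaced ((T.filter (fun c => f c = j)).image (fun c : ℕ => (c : ℤ))) h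
      (by omega) (2 * h * ρ / |τ|) (by positivity) ?_ ?_
    · rwa [Finset.card_image_of_injective _ Nat.cast_injective] at this
    · intro x hx y hy
      obtain ⟨c, hc, rfl⟩ := Finset.mem_image.1 hx
      obtain ⟨c', hc', rfl⟩ := Finset.mem_image.1 hy
      obtain ⟨hcT, hcj⟩ := Finset.mem_filter.1 hc
      obtain ⟨hcT', hcj'⟩ := Finset.mem_filter.1 hc'
      have hdvd : (h : ℤ) ∣ l * ((c : ℤ) - c') :=
        ⟨nf c' - nf c, by simp only [hf] at hcj hcj'; linarith⟩
      exact hgcd.dvd_of_dvd_mul_left hdvd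
    · intro x hx y hy
      obtain ⟨c, hc, rfl⟩ := Finset.mem_image.1 hx
      obtain ⟨c', hc', rfl⟩ := Finset.mem_image.1 hy
      obtain ⟨hcT, hcj⟩ := Finset.mem_filter.1 hc
      obtain ⟨hcT', hcj'⟩ := Finset.mem_filter.1 hc'
      rw [le_div_iff₀ hτ0, ← abs_mul]
      have e : (((c : ℤ) : ℝ) - ((c' : ℤ) : ℝ)) * τ
          = ((f c : ℝ) + τ * c - h * β) - ((f c' : ℝ) + τ * c' - h * β) := by
        rw [hcj, hcj']; push_cast; ring
      rw [e]
      refine (abs_sub _ _).trans ?_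
      linarith [hkey c hcT, hkey c' hcT']
  have h1 : (T.card : ℝ) ≤ (|τ| * C0 + 2 * h * ρ + 1) * (2 * ρ / |τ| + 1) := by
    rw [Finset.card_eq_sum_card_image f T, Nat.cast_sum]
    refine (Finset.sum_le_sum hfib).trans ?_
    rw [Finset.sum_const, nsmul_eq_mul]
    have e : 2 * (h : ℝ) * ρ / |τ| / h = 2 * ρ / |τ| := by field_simp
    rw [e]
    have hJ1 : (J.card : ℝ) ≤ |τ| * C0 + 2 * h * ρ + 1 := by simpa using hJcard
    gcongr
  refine h1.trans ?_
  have hhρ : 2 * (h : ℝ) * ρ ≤ 1 := by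
    have : (h : ℝ) ≤ H := by exact_mod_cast hhH
    nlinarith
  have hq : 2 * ρ / |τ| ≤ 2 * ρ * C0 / lam := by
    rw [div_le_div_iff₀ hτ0 hlam]
    nlinarith
  have hq0 : 0 ≤ 2 * ρ / |τ| := by positivity
  have hτρ : |τ| * C0 * (2 * ρ / |τ| + 1) ≤ 4 * ρ * C0 := by
    have e : |τ| * C0 * (2 * ρ / |τ| + 1) = 2 * ρ * C0 + |τ| * C0 := by field_simp
    rw [e]
    have := mul_le_mul_of_nonneg_right hl hC0'
    linarith
  have hrest : (2 * (h : ℝ) * ρ + 1) * (2 * ρ / |τ| + 1) ≤ 2 * (2 * ρ / |τ| + 1) := by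
    gcongr
    linarith
  have e : 2 * ρ * (C0:ℝ) / lam = 2 * (ρ * C0 / lam) := by ring
  rw [e] at hq
  have e2 : (|τ| * C0 + 2 * h * ρ + 1) * (2 * ρ / |τ| + 1)
      = |τ| * C0 * (2 * ρ / |τ| + 1) + (2 * (h : ℝ) * ρ + 1) * (2 * ρ / |τ| + 1) := by ring
  linarith

end Vale.Agent.P028
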