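import Vale.Agent.P028.GainDefs

/-!
`Z ≠ 0` for admissible coincidences, and the two negligible families of pairs, given a bound
for the integers `m` with a coincidence off the line.
-/

noncomputable section

namespace Vale.Agent.P028.CountingNeg

open Finset
open scoped Classical

theorem qd_pos {q r : ℕ} (hq : 0 < q) : 0 < qd q r :=
  Nat.div_pos (Nat.gcd_le_left r hq) (Nat.gcd_pos_of_pos_left r hq)

theorem qd_mul_gcd (q r : ℕ) : qd q r * Nat.gcd q r = q :=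
  Nat.div_mul_cancel (Nat.gcd_dvd_left q r)

theorem coprime_qd {q r : ℕ} (hq : 0 < q) : Nat.Coprime (qd q r) (qd r q) := by
  have := Nat.coprime_div_gcd_div_gcd (Nat.gcd_pos_of_pos_left r hq)
  simpa [qd, Nat.gcd_comm] using this

theorem zform_ne_zero {γ : ℝ} {ψ : ℕ → ℝ} {A : ℤ} {B q r : ℕ} (hq : 0 < q)
    (hr : 0 < r) (hqr : q ≠ r) (hAB : IsCoprime A (B : ℤ)) {n : ℤ}
    (hn : n ∈ admSet γ ψ A B q r) : zform A B q r n ≠ 0 := by
  intro hz
  have hn' := (mem_filter.1 hn).2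
  have hne : qd q r * qd r q ≠ 1 := by
    intro h
    have h1 : qd q r = 1 := Nat.eq_one_of_mul_eq_one_right h
    have h2 : qd r q = 1 := Nat.eq_one_of_mul_eq_one_left h
    have e1 := qd_mul_gcd q r
    have e2 := qd_mul_gcd r q
    rw [h1, one_mul] at e1
    rw [h2, one_mul, Nat.gcd_comm] at e2
    exact hqr (e1.symm.trans e2)
  obtain ⟨p, hp, hpd⟩ := Nat.exists_prime_and_dvd hne
  have hmem : p ∈ (qd q r * qd r q).primeFactors :=
    Nat.mem_primeFactors.2 ⟨hp, hpd, (Nat.mul_pos (qd_pos hq) (qd_pos hr)).ne'⟩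
  have hpB : p ∣ B := by
    by_contra h
    exact hn' p hmem h (hz ▸ dvd_zero _)
  have hBm : (B : ℤ) ∣ mdiff q r := by
    refine hAB.symm.dvd_of_dvd_mul_left ⟨-n, ?_⟩
    simp only [zform] at hz
    linear_combination hz
  have hpm : (p : ℤ) ∣ (qd r q : ℤ) - (qd q r : ℤ) := (Int.natCast_dvd_natCast.2 hpB).trans hBm
  have hboth : p ∣ qd q r ∧ p ∣ qd r q := by
    rcases (Nat.Prime.dvd_mul hp).1 hpd with h | h
    · refine ⟨h, Int.natCast_dvd_natCast.1 ?_⟩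
      simpa using dvd_add hpm (Int.natCast_dvd_natCast.2 h)
    · refine ⟨Int.natCast_dvd_natCast.1 ?_, h⟩
      simpa using dvd_sub (Int.natCast_dvd_natCast.2 h) hpm
  exact Nat.not_coprime_of_dvd_of_dvd hp.one_lt hboth.1 hboth.2 (coprime_qd hq)

theorem wt_le {ψ : ℕ → ℝ} {q : ℕ} (hq : 0 < q) (hψ : 0 ≤ ψ q) : wt ψ q ≤ ψ q :=
  mul_le_of_le_one_left hψ ((div_le_one (by exact_mod_cast hq)).2
    (by exact_mod_cast Nat.totient_le q))

/-- `FF / D ≤ F_r / r'`. -/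
theorem term_le {ψ : ℕ → ℝ} {q r : ℕ} (hq : 0 < q) (hr : 0 < r) (hψq : 0 < ψ q) (hψr : 0 < ψ r) :
    wt ψ q * wt ψ r / dist2 ψ q r ≤ wt ψ r / qd r q := by
  have hr' : (0 : ℝ) < qd r q := by exact_mod_cast qd_pos hr
  have hD : ψ q * (qd r q : ℝ) ≤ dist2 ψ q r := le_max_left _ _
  have hD0 : 0 < ψ q * (qd r q : ℝ) := mul_pos hψq hr'
  have hwr : 0 ≤ wt ψ r := mul_nonneg (by positivity) hψr.le
  calc wt ψ q * wt ψ r / dist2 ψ q r ≤ ψ q * wt ψ r / (ψ q * (qd r q : ℝ)) :=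
        div_le_div₀ (mul_nonneg hψq.le hwr) (mul_le_mul_of_nonneg_right (wt_le hq hψq.le) hwr)
          hD0 hD
    _ = wt ψ r / qd r q := by field_simp

theorem adm_card_le_one {γ : ℝ} {ψ : ℕ → ℝ} {A : ℤ} {B q r : ℕ}
    (hD : dist2 ψ q r ≤ 1 / 8) : (admSet γ ψ A B q r).card ≤ 1 := by
  refine card_le_one.2 (fun n hn n' hn' => ?_)
  simp only [admSet, nearSet, mem_filter] at hn hn'
  have h1 := abs_lt.1 hn.1.2
  have h2 := abs_lt.1 hn'.1.2
  have h3 : |((n - n' : ℤ) : ℝ)| < 1 := by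
    push_cast; rw [abs_lt]; constructor <;> linarith
  have h4 : |n - n'| < 1 := by exact_mod_cast h3
  have := Int.abs_lt_one_iff.1 h4
  omega

/-- Pairs with `r'` much larger than `q'`, for a fixed `r`. -/
theorem sum_unbalanced_le {ψ : ℕ → ℝ} {S : Finset ℕ} {r : ℕ} (hr : 0 < r)
    (hS : ∀ q ∈ S, 0 < q) {Γ : ℝ} (hΓ : 0 < Γ) (hψr : 0 ≤ ψ r) :
    ∑ q ∈ S.filter (fun q => (qd q r : ℝ) * Γ ≤ qd r q), wt ψ r / qd r q ≤
      (r.divisors.card : ℝ) * wt ψ r / Γ := by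
  have hwr : 0 ≤ wt ψ r := mul_nonneg (by positivity) hψr
  have hmap : ∀ q ∈ S.filter (fun q => (qd q r : ℝ) * Γ ≤ qd r q), Nat.gcd q r ∈ r.divisors :=
    fun q _ => Nat.mem_divisors.2 ⟨Nat.gcd_dvd_right q r, hr.ne'⟩
  rw [← sum_fiberwise_of_maps_to hmap]
  refine le_trans (sum_le_card_nsmul _ _ (wt ψ r / Γ) (fun g hg => ?_)) (le_of_eq ?_)
  swap
  · rw [nsmul_eq_mul]; ring
  set T := (S.filter (fun q => (qd q r : ℝ) * Γ ≤ qd r q)).filter
    (fun q => Nat.gcd q r = g) with hT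
  set r' := r / g with hr'def
  have hr'pos : 0 < r' := Nat.div_pos (Nat.divisor_le hg) (Nat.pos_of_mem_divisors hg)
  have hmem : ∀ q ∈ T, qd r q = r' ∧ qd q r * g = q ∧ (qd q r : ℝ) * Γ ≤ r' ∧ 0 < q := by
    intro q hq
    simp only [hT, mem_filter] at hq
    have e : qd r q = r' := by rw [qd, Nat.gcd_comm, hq.2]
    refine ⟨e, ?_, by rw [← e]; exact hq.1.2, hS q hq.1.1⟩
    rw [← hq.2]; exact qd_mul_gcd q r
  have hcard : (T.card : ℝ) ≤ (r' : ℝ) / Γ := by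
    have h1 : T.card ≤ (Finset.Icc 1 ⌊(r' : ℝ) / Γ⌋₊).card := by
      refine card_le_card_of_injOn (fun q => qd q r) (fun q hq => ?_) (fun a ha b hb hab => ?_)
      · obtain ⟨-, -, h2, h3⟩ := hmem q hq
        exact mem_Icc.2 ⟨qd_pos h3, Nat.le_floor (by rw [le_div_iff₀ hΓ]; exact h2)⟩
      · rw [← (hmem a ha).2.1, ← (hmem b hb).2.1, show qd a r = qd b r from hab]
    rw [Nat.card_Icc] at h1
    simp only [add_tsub_cancel_right] at h1
    exact le_trans (by exact_mod_cast h1) (Nat.floor_le (by positivity))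
  have hval : ∀ q ∈ T, wt ψ r / qd r q ≤ wt ψ r / r' := fun q hq => by rw [(hmem q hq).1]
  refine le_trans (sum_le_card_nsmul _ _ _ hval) ?_
  rw [nsmul_eq_mul]
  have hr'R : (0 : ℝ) < r' := by exact_mod_cast hr'pos
  refine le_trans (mul_le_mul_of_nonneg_right hcard (by positivity)) (le_of_eq ?_)
  field_simp

/-- A coincidence off the line at distance `ρ`. -/
def OffLine (γ : ℝ) (A : ℤ) (B : ℕ) (ρ : ℝ) (q r : ℕ) : Prop :=
  ∃ n : ℤ, |(n : ℝ) + γ * mdiff q r| ≤ ρ ∧ zform A B q r n ≠ 0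

theorem OffLine.symm {γ : ℝ} {A : ℤ} {B : ℕ} {ρ : ℝ} {q r : ℕ} (h : OffLine γ A B ρ q r) :
    OffLine γ A B ρ r q := by
  obtain ⟨n, hn, hz⟩ := h
  refine ⟨-n, le_of_eq_of_le ?_ hn, ?_⟩
  · rw [← abs_neg]; congr 1; simp only [mdiff]; push_cast; ring
  · contrapose! hz
    simp only [zform, mdiff] at hz ⊢
    linarith

/-- A fine balanced pair. -/
def FinePair (γ : ℝ) (A : ℤ) (B : ℕ) (ρ Γ : ℝ) (q r : ℕ) : Prop :=
  qd q r ≤ qd r q ∧ (qd r q : ℝ) ≤ (qd q r : ℝ) * Γ ∧ OffLine γ A B ρ q r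

/-- Fine balanced pairs, for a fixed `q`. -/
theorem sum_fine_le {ψ : ℕ → ℝ} {S : Finset ℕ} {γ : ℝ} {A : ℤ} {B q : ℕ} (hq : 0 < q)
    (hψq : 0 ≤ ψ q) {C ρ Γ : ℝ} (hC : 0 ≤ C)
    (hρ : 0 ≤ ρ) (hΓ : 1 ≤ Γ)
    (hcount : ∀ (M : ℕ) (T : Finset ℤ), 1 ≤ M →
      (∀ m ∈ T, |m| ≤ (M : ℤ) ∧ ∃ n : ℤ, |(n : ℝ) + γ * m| ≤ ρ ∧ n * (B : ℤ) + A * m ≠ 0) →
      (T.card : ℝ) ≤ C * (ρ * M + |(B : ℝ) * γ - A| * M + ρ * B)) :
    ∑ r ∈ S.filter (FinePair γ A B ρ Γ q), wt ψ q / qd q r ≤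
      (q.divisors.card : ℝ) * wt ψ q * (C * (2 * ρ * Γ + 2 * |(B : ℝ) * γ - A| * Γ + ρ * B)) := by
  have hwq : 0 ≤ wt ψ q := mul_nonneg (by positivity) hψq
  have hmap : ∀ r ∈ S.filter (FinePair γ A B ρ Γ q), Nat.gcd q r ∈ q.divisors :=
    fun r _ => Nat.mem_divisors.2 ⟨Nat.gcd_dvd_left q r, hq.ne'⟩
  rw [← sum_fiberwise_of_maps_to hmap]
  refine le_trans (sum_le_card_nsmul _ _
    (wt ψ q * (C * (2 * ρ * Γ + 2 * |(B : ℝ) * γ - A| * Γ + ρ * B))) (fun g hg => ?_)) (le_of_eq ?_)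
  swap
  · rw [nsmul_eq_mul]; ring
  set T := (S.filter (FinePair γ A B ρ Γ q)).filter (fun r => Nat.gcd q r = g) with hT
  set q' := q / g with hq'def
  have hq'pos : 0 < q' := Nat.div_pos (Nat.divisor_le hg) (Nat.pos_of_mem_divisors hg)
  have hq'R : (1 : ℝ) ≤ q' := by exact_mod_cast hq'pos
  have hmem : ∀ r ∈ T, qd q r = q' ∧ qd r q * g = r ∧ FinePair γ A B ρ Γ q r := by
    intro r hr
    simp only [hT, mem_filter] at hr
    refine ⟨by rw [qd, hr.2], ?_, hr.1.2⟩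
    rw [← hr.2, Nat.gcd_comm]; exact qd_mul_gcd r q
  set M := ⌈(q' : ℝ) * Γ⌉₊ with hM
  have hqΓ : 1 ≤ (q' : ℝ) * Γ := one_le_mul_of_one_le_of_one_le hq'R hΓ
  have hM1 : 1 ≤ M := Nat.ceil_pos.2 (by linarith)
  have hMle : (M : ℝ) ≤ 2 * ((q' : ℝ) * Γ) := by
    have := Nat.ceil_lt_add_one (zero_le_one.trans hqΓ)
    rw [hM]; linarith
  have hinj : Set.InjOn (fun r => mdiff q r) (T : Set ℕ) := by
    intro a ha b hb hab
    simp only [mdiff] at hab
    rw [(hmem a ha).1, (hmem b hb).1] at hab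
    have e : qd a q = qd b q := by omega
    rw [← (hmem a ha).2.1, ← (hmem b hb).2.1, e]
  have hcard : (T.card : ℝ) ≤ C * (ρ * M + |(B : ℝ) * γ - A| * M + ρ * B) := by
    rw [← card_image_of_injOn hinj]
    refine hcount M _ hM1 (fun m hm => ?_)
    obtain ⟨r, hr, rfl⟩ := mem_image.1 hm
    obtain ⟨e, -, h1, h2, n, hn, hz⟩ := hmem r hr
    refine ⟨?_, n, hn, hz⟩
    rw [e] at h2
    have h3 : qd r q ≤ M := by
      have : (qd r q : ℝ) ≤ (M : ℝ) := h2.trans (Nat.le_ceil _)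
      exact_mod_cast this
    rw [abs_le]
    simp only [mdiff]
    constructor <;> omega
  have hval : ∀ r ∈ T, wt ψ q / qd q r ≤ wt ψ q / q' := fun r hr => by rw [(hmem r hr).1]
  refine le_trans (sum_le_card_nsmul _ _ _ hval) ?_
  rw [nsmul_eq_mul]
  refine le_trans (mul_le_mul_of_nonneg_right hcard (by positivity)) ?_
  rw [mul_div_assoc', div_le_iff₀ (by linarith)]
  have hd := abs_nonneg ((B : ℝ) * γ - A)
  have h1 : ρ * M + |(B : ℝ) * γ - A| * M + ρ * B ≤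
      (2 * ρ * Γ + 2 * |(B : ℝ) * γ - A| * Γ + ρ * B) * q' := by
    have e1 := mul_le_mul_of_nonneg_left hMle hρ
    have e2 := mul_le_mul_of_nonneg_left hMle hd
    have e3 : ρ * (B : ℝ) ≤ ρ * B * q' := le_mul_of_one_le_right (by positivity) hq'R
    linarith
  calc C * (ρ * M + |(B : ℝ) * γ - A| * M + ρ * B) * wt ψ q
      ≤ C * ((2 * ρ * Γ + 2 * |(B : ℝ) * γ - A| * Γ + ρ * B) * q') * wt ψ q :=
        mul_le_mul_of_nonneg_right (mul_le_mul_of_nonneg_left h1 hC) hwq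
    _ = _ := by ring

/-- The negligible pairs, given the count off the line. -/
theorem negligible_of_offLine (Coff : ℝ)
    (hoff : ∀ (γ ρ : ℝ) (A : ℤ) (B M : ℕ) (T : Finset ℤ), 0 ≤ ρ → 0 < B → 1 ≤ M →
      IsCoprime A (B : ℤ) →
      (∀ m ∈ T, |m| ≤ (M : ℤ) ∧ ∃ n : ℤ, |(n : ℝ) + γ * m| ≤ ρ ∧ n * (B : ℤ) + A * m ≠ 0) →
      (T.card : ℝ) ≤ Coff * (ρ * M + |(B : ℝ) * γ - A| * M + ρ * B)) :
    ∃ C ell0 : ℝ, ∀ (ψ : ℕ → ℝ) (S : Finset ℕ) (γ : ℝ) (A : ℤ) (B : ℕ) (ell L : ℝ),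
      Win ψ S γ A B ell L → ell0 ≤ ell →
      ∑ q ∈ S, ∑ r ∈ S.filter (fun r => r ≠ q ∧ dist2 ψ q r ≤ 1 / 8 ∧
          (dist2 ψ q r ≤ xFine ell ∨ (qd q r : ℝ) * Real.exp (etaC / 2 * ell) ≤ qd r q ∨
            (qd r q : ℝ) * Real.exp (etaC / 2 * ell) ≤ qd q r)),
          wt ψ q * wt ψ r / dist2 ψ q r * ((admSet γ ψ A B q r).card : ℝ) ≤
        C * mass ψ S * Real.exp (-(etaC / 4 * ell)) := by
  refine ⟨2 * (1 + max Coff 0 * 8), 1, fun ψ S γ A B ell L hwin hell => ?_⟩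
  set C1 := max Coff 0 with hC1
  have hC1n : 0 ≤ C1 := le_max_right _ _
  set Γ := Real.exp (etaC / 2 * ell) with hΓdef
  set ρ := 2 * xFine ell with hρdef
  have hx0 : 0 < xFine ell := Real.exp_pos _
  have hΓ0 : 0 < Γ := Real.exp_pos _
  have hΓ1 : 1 ≤ Γ := Real.one_le_exp (by norm_num [etaC]; linarith)
  set τ := Real.exp (nuC * ell) with hτdef
  have hτ : ∀ q ∈ S, (q.divisors.card : ℝ) ≤ τ := fun q hq =>
    hwin.divisors_le q (hwin.pos_of_mem q hq)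
      ((hwin.q_le q hq).trans (Real.exp_le_exp.2 (by linarith [hwin.one_le_L])))
  have hw : ∀ q ∈ S, 0 ≤ wt ψ q := fun q hq =>
    mul_nonneg (by positivity) (hwin.psi_pos q hq).le
  set u : ℕ → ℕ → ℝ := fun q r => if (qd q r : ℝ) * Γ ≤ qd r q then wt ψ r / qd r q else 0 with hu
  set v : ℕ → ℕ → ℝ := fun q r => if FinePair γ A B ρ Γ q r then wt ψ q / qd q r else 0 with hv
  have hterm : ∀ q ∈ S, ∀ r ∈ S.filter (fun r => r ≠ q ∧ dist2 ψ q r ≤ 1 / 8 ∧
      (dist2 ψ q r ≤ xFine ell ∨ (qd q r : ℝ) * Γ ≤ qd r q ∨ (qd r q : ℝ) * Γ ≤ qd q r)),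
      wt ψ q * wt ψ r / dist2 ψ q r * ((admSet γ ψ A B q r).card : ℝ) ≤
        u q r + u r q + (v q r + v r q) := by
    intro q hq r hr
    rw [mem_filter] at hr
    obtain ⟨hrS, hne, hD, hcase⟩ := hr
    have hu0 : ∀ a b, a ∈ S → b ∈ S → 0 ≤ u a b := fun a b _ hb => by
      simp only [hu]; split_ifs
      · exact div_nonneg (hw b hb) (Nat.cast_nonneg _)
      · exact le_rfl
    have hv0 : ∀ a b, a ∈ S → b ∈ S → 0 ≤ v a b := fun a b ha _ => by
      simp only [hv]; split_ifs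
      · exact div_nonneg (hw a ha) (Nat.cast_nonneg _)
      · exact le_rfl
    have h0u := hu0 q r hq hrS
    have h0u' := hu0 r q hrS hq
    have h0v := hv0 q r hq hrS
    have h0v' := hv0 r q hrS hq
    rcases (admSet γ ψ A B q r).eq_empty_or_nonempty with he | ⟨n, hn⟩
    · rw [he]; simp; linarith
    have hqp := hwin.pos_of_mem q hq
    have hrp := hwin.pos_of_mem r hrS
    have hD0 : 0 < dist2 ψ q r := lt_max_of_lt_left
      (mul_pos (hwin.psi_pos q hq) (Nat.cast_pos.2 (qd_pos hrp)))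
    have hsym : dist2 ψ r q = dist2 ψ q r := max_comm _ _
    have t1 := term_le hqp hrp (hwin.psi_pos q hq) (hwin.psi_pos r hrS)
    have t2 := term_le hrp hqp (hwin.psi_pos r hrS) (hwin.psi_pos q hq)
    rw [hsym, mul_comm (wt ψ r)] at t2
    have hT : wt ψ q * wt ψ r / dist2 ψ q r * ((admSet γ ψ A B q r).card : ℝ) ≤
        wt ψ q * wt ψ r / dist2 ψ q r := by
      refine mul_le_of_le_one_right (div_nonneg (mul_nonneg (hw q hq) (hw r hrS)) hD0.le) ?_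
      exact_mod_cast adm_card_le_one hD
    by_cases h1 : (qd q r : ℝ) * Γ ≤ qd r q
    · have : u q r = wt ψ r / qd r q := by simp only [hu]; rw [if_pos h1]
      linarith
    by_cases h2 : (qd r q : ℝ) * Γ ≤ qd q r
    · have : u r q = wt ψ q / qd q r := by simp only [hu]; rw [if_pos h2]
      linarith
    have h3 : dist2 ψ q r ≤ xFine ell := hcase.resolve_right (by simp [h1, h2])
    have hoffl : OffLine γ A B ρ q r := by
      refine ⟨n, ?_, zform_ne_zero hqp hrp hne.symm hwin.coprime hn⟩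
      simp only [admSet, nearSet, mem_filter] at hn
      rw [hρdef]; linarith [hn.1.2]
    rcases le_total (qd q r) (qd r q) with hle | hle
    · have : v q r = wt ψ q / qd q r := by
        simp only [hv]; rw [if_pos ⟨hle, (not_le.1 h1).le, hoffl⟩]
      linarith
    · have : v r q = wt ψ r / qd r q := by
        simp only [hv]; rw [if_pos ⟨hle, (not_le.1 h2).le, hoffl.symm⟩]
      linarith
  have hUsum : ∑ q ∈ S, ∑ r ∈ S, u q r ≤ τ / Γ * mass ψ S := by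
    rw [sum_comm, mass, mul_sum]
    refine sum_le_sum (fun r hr => ?_)
    simp only [hu]
    rw [← sum_filter]
    refine (sum_unbalanced_le (hwin.pos_of_mem r hr) hwin.pos_of_mem hΓ0
      (hwin.psi_pos r hr).le).trans ?_
    rw [div_mul_eq_mul_div]
    exact div_le_div_of_nonneg_right (mul_le_mul_of_nonneg_right (hτ r hr) (hw r hr)) hΓ0.le
  set E := C1 * (2 * ρ * Γ + 2 * |(B : ℝ) * γ - A| * Γ + ρ * B) with hE
  have hE0 : 0 ≤ E := by
    rw [hE, hρdef]; positivity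
  have hVsum : ∑ q ∈ S, ∑ r ∈ S, v q r ≤ τ * E * mass ψ S := by
    rw [mass, mul_sum]
    refine sum_le_sum (fun q hq => ?_)
    simp only [hv]
    rw [← sum_filter]
    refine (sum_fine_le (hwin.pos_of_mem q hq) (hwin.psi_pos q hq).le
      hC1n (by positivity) hΓ1 (fun M T hM hT => ?_)).trans ?_
    · refine (hoff γ ρ A B M T (by positivity) hwin.B_pos hM hwin.coprime hT).trans ?_
      refine mul_le_mul_of_nonneg_right (le_max_left _ _) ?_
      positivity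
    · rw [← hE, mul_right_comm τ E]
      exact mul_le_mul_of_nonneg_right (mul_le_mul_of_nonneg_right (hτ q hq) (hw q hq)) hE0
  set ε := Real.exp (-(etaC / 2 * ell)) with hε
  have hEle : E ≤ C1 * 8 * ε := by
    rw [hE, mul_assoc C1]
    refine mul_le_mul_of_nonneg_left ?_ hC1n
    have e1 : xFine ell * Γ ≤ ε := by
      rw [xFine, hΓdef, hε, ← Real.exp_add]
      exact Real.exp_le_exp.2 (by norm_num [etaC]; linarith)
    have e2 : |(B : ℝ) * γ - A| * Γ ≤ ε := by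
      refine (mul_le_mul_of_nonneg_right hwin.delta_le hΓ0.le).trans (le_of_eq ?_)
      rw [hΓdef, hε, ← Real.exp_add]; congr 1; ring
    have e3 : xFine ell * B ≤ ε := by
      refine (mul_le_mul_of_nonneg_left hwin.B_le hx0.le).trans ?_
      rw [xFine, hε, ← Real.exp_add]
      exact Real.exp_le_exp.2 (by norm_num [etaC]; linarith)
    rw [hρdef]
    linarith
  have hτε : τ * ε ≤ Real.exp (-(etaC / 4 * ell)) := by
    rw [hτdef, hε, ← Real.exp_add]
    exact Real.exp_le_exp.2 (by norm_num [etaC, nuC]; linarith)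
  have hτΓ : τ / Γ = τ * ε := by
    rw [hΓdef, hε, div_eq_mul_inv, ← Real.exp_neg]
  have hm : 0 ≤ mass ψ S := sum_nonneg hw
  refine le_trans (sum_le_sum (fun q hq => le_trans (sum_le_sum (hterm q hq))
    (sum_le_sum_of_subset_of_nonneg (filter_subset _ _) (fun r hr _ => ?_)))) ?_
  · simp only [hu, hv]
    have := hw q hq
    have := hw r hr
    refine add_nonneg (add_nonneg ?_ ?_) (add_nonneg ?_ ?_) <;> split_ifs <;> positivity
  simp only [sum_add_distrib]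
  rw [sum_comm (f := fun q r => u r q), sum_comm (f := fun q r => v r q)]
  have h8 : τ * E ≤ τ * ε * (C1 * 8) := by
    have := mul_le_mul_of_nonneg_left hEle (Real.exp_pos (nuC * ell)).le
    rw [← hτdef] at this
    linarith
  have k1 : τ / Γ * mass ψ S ≤ Real.exp (-(etaC / 4 * ell)) * mass ψ S := by
    rw [hτΓ]; exact mul_le_mul_of_nonneg_right hτε hm
  have k2 : τ * E * mass ψ S ≤ Real.exp (-(etaC / 4 * ell)) * (C1 * 8) * mass ψ S :=
    mul_le_mul_of_nonneg_right (h8.trans (mul_le_mul_of_nonneg_right hτε (by positivity))) hm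
  linarith

end Vale.Agent.P028.CountingNeg
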