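import Vale.Agent.P028.GainDefs
import Vale.Agent.P028.CountingAux
import Vale.Agent.P028.CountingNeg

noncomputable section

namespace Vale.Agent.P028

open Finset

/-- Admissible `n` have `Z ≠ 0` when `q ≠ r`. -/
theorem zform_ne_zero_of_mem_admSet {γ : ℝ} {ψ : ℕ → ℝ} {A : ℤ} {B q r : ℕ} (hq : 0 < q)
    (hr : 0 < r) (hqr : q ≠ r) (hAB : IsCoprime A (B : ℤ)) {n : ℤ}
    (hn : n ∈ admSet γ ψ A B q r) : zform A B q r n ≠ 0 :=
  CountingNeg.zform_ne_zero hq hr hqr hAB hn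

/-- Levels `D ≤ exp (-2 η ℓ)` and very unbalanced pairs are negligible. -/
theorem exists_negligible_le :
    ∃ C ell0 : ℝ, ∀ (ψ : ℕ → ℝ) (S : Finset ℕ) (γ : ℝ) (A : ℤ) (B : ℕ) (ell L : ℝ),
      Win ψ S γ A B ell L → ell0 ≤ ell →
      ∑ q ∈ S, ∑ r ∈ S.filter (fun r => r ≠ q ∧ dist2 ψ q r ≤ 1 / 8 ∧
          (dist2 ψ q r ≤ xFine ell ∨ (qd q r : ℝ) * Real.exp (etaC / 2 * ell) ≤ qd r q ∨
            (qd r q : ℝ) * Real.exp (etaC / 2 * ell) ≤ qd q r)),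
          wt ψ q * wt ψ r / dist2 ψ q r * ((admSet γ ψ A B q r).card : ℝ) ≤
        C * mass ψ S * Real.exp (-(etaC / 4 * ell)) := by
  obtain ⟨Coff, hoff⟩ := exists_card_offLine_le
  exact CountingNeg.negligible_of_offLine Coff hoff

end Vale.Agent.P028
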