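import Mathlib

/-!
Shared definitions for P028 (weak inhomogeneous Duffin-Schaeffer).

Notation of the paper proof: for a pair `(q, r)` we write `g = gcd q r`, `q' = q / g`, `r' = r / g`,
`m = r' - q'`, `D = max (ψ q * r') (ψ r * q')`, `Z(n) = n * B + A * m`, where `A / B` is the
rational approximation of the shift attached to a window.
-/

noncomputable section

namespace Vale.Agent.P028

open Finset

/-- `q' = q / gcd q r`. -/
def qd (q r : ℕ) : ℕ := q / Nat.gcd q r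

/-- The weight `φ(q) ψ(q) / q`. -/
def wt (ψ : ℕ → ℝ) (q : ℕ) : ℝ := (Nat.totient q : ℝ) / q * ψ q

/-- The total weight of a finite set. -/
def mass (ψ : ℕ → ℝ) (S : Finset ℕ) : ℝ := ∑ q ∈ S, wt ψ q

/-- `D = max (ψ q * r') (ψ r * q')`. -/
def dist2 (ψ : ℕ → ℝ) (q r : ℕ) : ℝ := max (ψ q * (qd r q : ℝ)) (ψ r * (qd q r : ℝ))

/-- `m = r' - q'`. -/
def mdiff (q r : ℕ) : ℤ := (qd r q : ℤ) - (qd q r : ℤ)

/-- `Z = n B + A m`. -/
def zform (A : ℤ) (B q r : ℕ) (n : ℤ) : ℤ := n * (B : ℤ) + A * mdiff q r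

/-- The integers `n` with `|n + γ m| < 2 D`. -/
def nearSet (γ : ℝ) (ψ : ℕ → ℝ) (q r : ℕ) : Finset ℤ :=
  (Finset.Icc ⌊-(γ * mdiff q r) - 2 * dist2 ψ q r⌋ ⌈-(γ * mdiff q r) + 2 * dist2 ψ q r⌉).filter
    (fun n : ℤ => |(n : ℝ) + γ * mdiff q r| < 2 * dist2 ψ q r)

/-- The admissible `n`: no deleted prime of `q' r'` divides `Z`. -/
def admSet (γ : ℝ) (ψ : ℕ → ℝ) (A : ℤ) (B q r : ℕ) : Finset ℤ :=
  (nearSet γ ψ q r).filter
    (fun n : ℤ => ∀ p ∈ (qd q r * qd r q).primeFactors, ¬ p ∣ B → ¬ (p : ℤ) ∣ zform A B q r n)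

/-- `p / (p - 1)`. -/
def ratio (p : ℕ) : ℝ := (p : ℝ) / ((p : ℝ) - 1)

/-- The factor `P`, from the primes of `q' r'` which are deleted. -/
def pFac (B q r : ℕ) : ℝ :=
  ∏ p ∈ (qd q r * qd r q).primeFactors.filter (fun p => ¬ p ∣ B), ratio p

/-- The factor `W`, from the primes of `g` at which the two deleted classes coincide. -/
def wFac (A : ℤ) (B q r : ℕ) (n : ℤ) : ℝ :=
  ∏ p ∈ (Nat.gcd q r).primeFactors.filter
      (fun p => ¬ p ∣ qd q r * qd r q ∧ ¬ p ∣ B ∧ (p : ℤ) ∣ zform A B q r n), ratio p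

/-- The product over the primes of `n` which exceed `y` of `p / (p - 1)`. -/
def hFac (y n : ℕ) : ℝ := ∏ p ∈ n.primeFactors.filter (fun p => y < p), ratio p

/-- The numerical constants of the proof. -/
def etaC : ℝ := 1 / 100000

def nuC : ℝ := 1 / 10000000

/-- A window: all moduli are at most `exp (2 L)`, all radii at most `exp (-ℓ)`, and `A / B` is a
Dirichlet approximation of `γ` at scale `exp (η ℓ)`. -/
structure Win (ψ : ℕ → ℝ) (S : Finset ℕ) (γ : ℝ) (A : ℤ) (B : ℕ) (ell L : ℝ) : Prop where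
  one_le_L : 1 ≤ L
  L_le : L ≤ ell ^ 2
  pos_of_mem : ∀ q ∈ S, 0 < q
  q_le : ∀ q ∈ S, (q : ℝ) ≤ Real.exp (2 * L)
  psi_pos : ∀ q ∈ S, 0 < ψ q
  psi_le : ∀ q ∈ S, ψ q ≤ Real.exp (-ell)
  B_pos : 0 < B
  B_le : (B : ℝ) ≤ Real.exp (etaC * ell)
  delta_le : |(B : ℝ) * γ - A| ≤ Real.exp (-(etaC * ell))
  coprime : IsCoprime A (B : ℤ)
  divisors_le : ∀ n : ℕ, 0 < n → (n : ℝ) ≤ Real.exp (8 * L) →
    (n.divisors.card : ℝ) ≤ Real.exp (nuC * ell)

/-- The primes dividing `q` but not `B`: here one residue class is deleted. -/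
def delPrimes (B q : ℕ) : Finset ℕ := q.primeFactors.filter (fun p => ¬ p ∣ B)

/-- The constant weight which replaces deletion at the primes dividing both `q` and `B`. -/
def wConst (B q : ℕ) : ℝ := ∏ p ∈ q.primeFactors.filter (fun p => p ∣ B), (1 - 1 / (p : ℝ))

/-- The residues `a < q` outside the deleted classes. -/
def admA (A : ℤ) (B q : ℕ) : Finset ℕ :=
  (Finset.range q).filter (fun a : ℕ => ∀ p ∈ delPrimes B q, ¬ (p : ℤ) ∣ (a : ℤ) * B + A)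

/-- The weighted sub-indicator of `{x : ‖q x - γ‖ < ψ q}`. -/
def bump (γ : ℝ) (ψ : ℕ → ℝ) (A : ℤ) (B q : ℕ) (x : ℝ) : ℝ :=
  wConst B q * ∑ a ∈ admA A B q,
    (Set.Ioo (((a : ℝ) + γ - ψ q) / q) (((a : ℝ) + γ + ψ q) / q)).indicator (fun _ => (1 : ℝ)) x

end Vale.Agent.P028
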