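import Vale.Agent.P028.Defs

/-!
Elementary number theory for P028: periodic sums, weak Mertens bounds, the divisor bound.
-/

noncomputable section

namespace Vale.Agent.P028

open Finset

/-- An affine change of variable permutes residues. -/
theorem sum_range_affine_mod {p q : ℕ} (hq : 0 < q) (hpq : Nat.Coprime p q) (i : ℕ) (f : ℕ → ℝ) :
    ∑ j ∈ Finset.range q, f ((i + p * j) % q) = ∑ j ∈ Finset.range q, f j := by
  have hinj : Set.InjOn (fun j => (i + p * j) % q) (Finset.range q : Set ℕ) := by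
    intro a ha b hb hab
    simp only [Finset.coe_range, Set.mem_Iio] at ha hb
    have h1 : p * a ≡ p * b [MOD q] := Nat.ModEq.add_left_cancel' i hab
    have h2 := Nat.ModEq.cancel_left_of_coprime hpq.symm h1
    exact h2.eq_of_lt_of_lt ha hb
  rw [← Finset.sum_image (f := f) hinj]
  congr 1
  refine Finset.eq_of_subset_of_card_le (fun x hx => ?_) ?_
  · obtain ⟨a, -, rfl⟩ := Finset.mem_image.mp hx
    exact Finset.mem_range.mpr (Nat.mod_lt _ hq)
  · rw [Finset.card_image_of_injOn hinj]

/-- Split a range by residues. -/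
theorem sum_range_mul_split (p : ℕ) (f : ℕ → ℝ) : ∀ N : ℕ,
    ∑ t ∈ Finset.range (N * p), f t = ∑ u ∈ Finset.range N, ∑ i ∈ Finset.range p, f (i + p * u)
  | 0 => by simp
  | N + 1 => by
    rw [Nat.succ_mul, Finset.sum_range_add, Finset.sum_range_succ, sum_range_mul_split p f N]
    congr 1
    refine Finset.sum_congr rfl fun i _ => ?_
    congr 1
    ring

/-- Periodic sums factor over distinct primes (Chinese remainder theorem). -/
theorem sum_range_prod_mod (P : Finset ℕ) (hP : ∀ p ∈ P, p.Prime) (h : ℕ → ℕ → ℝ) (k : ℕ) :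
    ∑ t ∈ Finset.range (k * ∏ p ∈ P, p), ∏ p ∈ P, h p (t % p) =
      (k : ℝ) * ∏ p ∈ P, ∑ i ∈ Finset.range p, h p i := by
  induction P using Finset.induction_on generalizing h with
  | empty => simp
  | insert p P hp ih =>
    have hpp : p.Prime := hP p (Finset.mem_insert_self p P)
    have hP' : ∀ q ∈ P, q.Prime := fun q hq => hP q (Finset.mem_insert_of_mem hq)
    rw [Finset.prod_insert hp, Finset.prod_insert hp, mul_left_comm, mul_comm p,
      sum_range_mul_split, Finset.sum_comm]
    have hinner : ∀ i ∈ Finset.range p,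
        ∑ u ∈ Finset.range (k * ∏ q ∈ P, q), ∏ q ∈ insert p P, h q ((i + p * u) % q)
          = h p i * ((k : ℝ) * ∏ q ∈ P, ∑ j ∈ Finset.range q, h q j) := by
      intro i hi
      have e : ∀ u, ∏ q ∈ insert p P, h q ((i + p * u) % q)
          = h p i * ∏ q ∈ P, (fun q j => h q ((i + p * j) % q)) q (u % q) := by
        intro u
        rw [Finset.prod_insert hp, Nat.add_mul_mod_self_left,
          Nat.mod_eq_of_lt (Finset.mem_range.mp hi)]
        congr 1
        refine Finset.prod_congr rfl fun q _ => ?_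
        dsimp only
        congr 1
        exact Nat.ModEq.add_left i (Nat.ModEq.mul_left p (Nat.mod_modEq u q).symm)
      rw [Finset.sum_congr rfl fun u _ => e u, ← Finset.mul_sum,
        ih hP' fun q j => h q ((i + p * j) % q)]
      congr 2
      refine Finset.prod_congr rfl fun q hq => ?_
      exact sum_range_affine_mod (hP' q hq).pos
        ((Nat.coprime_primes hpp (hP' q hq)).mpr fun hpq => hp (hpq ▸ hq)) i (h q)
    rw [Finset.sum_congr rfl hinner, ← Finset.sum_mul]
    ring

/-- Sums over intervals of a periodic product. -/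
theorem sum_Icc_prod_mod_le (P : Finset ℕ) (hP : ∀ p ∈ P, p.Prime) (h : ℕ → ℕ → ℝ)
    (h0 : ∀ p i, 0 ≤ h p i) (u v : ℤ) :
    ∑ n ∈ Finset.Icc u v, ∏ p ∈ P, h p (n % (p : ℤ)).toNat ≤
      (max ((v : ℝ) - u + 1) 0 + ∏ p ∈ P, (p : ℝ)) *
        ∏ p ∈ P, ((∑ i ∈ Finset.range p, h p i) / p) := by
  set M : ℕ := ∏ p ∈ P, p with hM
  have hM0 : 0 < M := Finset.prod_pos fun p hp => (hP p hp).pos
  set N : ℕ := (v - u + 1).toNat with hN
  set k : ℕ := N / M + 1 with hk
  have hkN : N ≤ k * M := by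
    have h1 := Nat.div_add_mod N M
    have h2 := Nat.mod_lt N hM0
    have h3 : k * M = M * (N / M) + M := by rw [hk]; ring
    omega
  have hkM : k * M ≤ N + M := by
    have h1 := Nat.div_mul_le_self N M
    rw [hk, Nat.succ_mul]
    omega
  set F : ℤ → ℝ := fun n => ∏ p ∈ P, h p (n % (p : ℤ)).toNat with hF
  have hF0 : ∀ n, 0 ≤ F n := fun n => Finset.prod_nonneg fun p _ => h0 p _
  have hinj : Set.InjOn (fun t : ℕ => u + (t : ℤ)) (Finset.range (k * M) : Set ℕ) :=
    fun a _ b _ hab => by simpa using hab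
  have hsub : Finset.Icc u v ⊆ (Finset.range (k * M)).image fun t : ℕ => u + (t : ℤ) := by
    intro n hn
    rw [Finset.mem_Icc] at hn
    refine Finset.mem_image.mpr ⟨(n - u).toNat, Finset.mem_range.mpr (by omega), by omega⟩
  set h' : ℕ → ℕ → ℝ := fun p j => h p ((u + (j : ℤ)) % (p : ℤ)).toNat with hh'
  calc ∑ n ∈ Finset.Icc u v, F n ≤ ∑ n ∈ (Finset.range (k * M)).image fun t : ℕ => u + (t : ℤ), F n :=
        Finset.sum_le_sum_of_subset_of_nonneg hsub fun n _ _ => hF0 n
    _ = ∑ t ∈ Finset.range (k * M), ∏ p ∈ P, h' p (t % p) := by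
        rw [Finset.sum_image hinj]
        refine Finset.sum_congr rfl fun t _ => Finset.prod_congr rfl fun p _ => ?_
        simp only [hh']
        push_cast
        rw [Int.add_emod_emod]
    _ = (k : ℝ) * ∏ p ∈ P, ∑ i ∈ Finset.range p, h' p i := sum_range_prod_mod P hP h' k
    _ = (k : ℝ) * ∏ p ∈ P, ∑ i ∈ Finset.range p, h p i := by
        congr 1
        refine Finset.prod_congr rfl fun p hp => ?_
        simp only [hh']
        have hp0 : 0 < p := (hP p hp).pos
        rw [← sum_range_affine_mod hp0 (Nat.coprime_one_left p) (u % (p : ℤ)).toNat (h p)]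
        refine Finset.sum_congr rfl fun j _ => ?_
        congr 1
        have h1 : ((u % (p : ℤ)).toNat : ℤ) = u % (p : ℤ) :=
          Int.toNat_of_nonneg (Int.emod_nonneg _ (by exact_mod_cast hp0.ne'))
        rw [one_mul]
        have h2 : (u + (j : ℤ)) % (p : ℤ) = ((((u % (p : ℤ)).toNat + j) % p : ℕ) : ℤ) := by
          push_cast
          rw [h1, Int.emod_add_emod]
        rw [h2, Int.toNat_natCast]
    _ = ((k : ℝ) * ∏ p ∈ P, (p : ℝ)) * ∏ p ∈ P, ((∑ i ∈ Finset.range p, h p i) / p) := by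
        rw [mul_assoc, ← Finset.prod_mul_distrib]
        congr 1
        refine Finset.prod_congr rfl fun p hp => ?_
        rw [mul_div_cancel₀]
        exact_mod_cast (hP p hp).ne_zero
    _ ≤ _ := by
        refine mul_le_mul_of_nonneg_right ?_
          (Finset.prod_nonneg fun p _ => div_nonneg (Finset.sum_nonneg fun i _ => h0 p i)
            (Nat.cast_nonneg p))
        have h1 : ((k * M : ℕ) : ℝ) ≤ ((N + M : ℕ) : ℝ) := by exact_mod_cast hkM
        have h2 : (N : ℝ) ≤ max ((v : ℝ) - u + 1) 0 := by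
          rcases le_or_gt (v - u + 1) 0 with hle | hlt
          · rw [hN, Int.toNat_of_nonpos hle, Nat.cast_zero]
            exact le_max_right _ _
          · have h3 : ((N : ℤ) : ℝ) = ((v - u + 1 : ℤ) : ℝ) := by
              rw [hN, Int.toNat_of_nonneg hlt.le]
            push_cast at h3
            rw [h3]
            exact le_max_left _ _
        rw [hM] at h1
        push_cast at h1
        linarith

/-- Chebyshev: the primes in a dyadic range. -/
theorem sum_inv_prime_dyadic_le (j : ℕ) (hj : 1 ≤ j) :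
    ∑ p ∈ (Finset.Ioc (2 ^ j) (2 ^ (j + 1))).filter Nat.Prime, (1 : ℝ) / p ≤ 4 / j := by
  set S := (Finset.Ioc (2 ^ j) (2 ^ (j + 1))).filter Nat.Prime with hS
  have h1 : ∏ p ∈ S, p ≤ 4 ^ (2 ^ (j + 1)) := by
    refine le_trans ?_ (primorial_le_four_pow (2 ^ (j + 1)))
    unfold primorial
    refine Finset.prod_le_prod_of_subset_of_one_le' ?_ fun p hp _ => ?_
    · intro p hp
      rw [hS, Finset.mem_filter, Finset.mem_Ioc] at hp
      rw [Finset.mem_filter, Finset.mem_range]
      exact ⟨by omega, hp.2⟩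
    · exact (Finset.mem_filter.mp hp).2.one_le
  have h2 : (2 ^ j) ^ S.card ≤ ∏ p ∈ S, p := by
    refine Finset.pow_card_le_prod S _ _ fun p hp => ?_
    rw [hS, Finset.mem_filter, Finset.mem_Ioc] at hp
    omega
  have h3 : j * S.card ≤ 4 * 2 ^ j := by
    have h4 : (4 : ℕ) ^ (2 ^ (j + 1)) = 2 ^ (4 * 2 ^ j) := by
      rw [show (4 : ℕ) = 2 ^ 2 by norm_num, ← pow_mul, pow_succ]
      ring_nf
    have h5 := h2.trans h1
    rw [← pow_mul, h4] at h5
    exact (Nat.pow_le_pow_iff_right (by norm_num)).mp h5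
  calc ∑ p ∈ S, (1 : ℝ) / p ≤ ∑ _p ∈ S, (1 : ℝ) / (2 ^ j : ℕ) := by
        refine Finset.sum_le_sum fun p hp => ?_
        rw [hS, Finset.mem_filter, Finset.mem_Ioc] at hp
        refine one_div_le_one_div_of_le (by exact_mod_cast pow_pos (by norm_num : 0 < 2) j) ?_
        exact_mod_cast hp.1.1.le
    _ = (S.card : ℝ) / (2 ^ j : ℕ) := by rw [Finset.sum_const, nsmul_eq_mul, mul_one_div]
    _ ≤ 4 / j := by
        rw [div_le_div_iff₀ (by exact_mod_cast pow_pos (by norm_num : 0 < 2) j)
          (by exact_mod_cast hj)]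
        have h6 : (S.card * j : ℕ) ≤ 4 * 2 ^ j := by rw [mul_comm]; exact h3
        exact_mod_cast h6

/-- Primes up to a power of two, by dyadic ranges. -/
theorem sum_inv_prime_Ioc_pow_le (a b : ℕ) (ha : 1 ≤ a) (hab : a ≤ b) :
    ∑ p ∈ (Finset.Ioc (2 ^ a) (2 ^ b)).filter Nat.Prime, (1 : ℝ) / p ≤
      ∑ j ∈ Finset.Ico a b, 4 / (j : ℝ) := by
  induction b, hab using Nat.le_induction with
  | base => simp
  | succ b hab ih =>
    rw [Finset.sum_Ico_succ_top hab]
    have hu : Finset.Ioc (2 ^ a) (2 ^ (b + 1))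
        = Finset.Ioc (2 ^ a) (2 ^ b) ∪ Finset.Ioc (2 ^ b) (2 ^ (b + 1)) :=
      (Finset.Ioc_union_Ioc_eq_Ioc (Nat.pow_le_pow_right (by norm_num) hab)
        (Nat.pow_le_pow_right (by norm_num) (Nat.le_succ b))).symm
    rw [hu, Finset.filter_union, Finset.sum_union]
    · exact add_le_add ih (sum_inv_prime_dyadic_le b (ha.trans hab))
    · refine Finset.disjoint_left.mpr fun p hp hp' => ?_
      rw [Finset.mem_filter, Finset.mem_Ioc] at hp hp'
      omega

/-- Weak Mertens bound, dyadic form: the primes in `(y, y ^ k]` have bounded reciprocal sum. -/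
theorem exists_sum_inv_prime_le :
    ∃ C : ℝ, ∀ y k : ℕ, 2 ≤ y → 1 ≤ k →
      ∑ p ∈ (Finset.Ioc y (y ^ k)).filter Nat.Prime, (1 : ℝ) / p ≤ C * k := by
  refine ⟨8, fun y k hy hk => ?_⟩
  set a := Nat.log 2 y with ha
  have ha1 : 1 ≤ a := Nat.log_pos (by norm_num) hy
  have hlo : 2 ^ a ≤ y := Nat.pow_log_le_self 2 (by omega)
  have hhi : y < 2 ^ (a + 1) := Nat.lt_pow_succ_log_self (by norm_num) y
  have hab : a ≤ k * (a + 1) := by nlinarith
  have hsub : (Finset.Ioc y (y ^ k)).filter Nat.Prime ⊆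
      (Finset.Ioc (2 ^ a) (2 ^ (k * (a + 1)))).filter Nat.Prime := by
    intro p hp
    rw [Finset.mem_filter, Finset.mem_Ioc] at hp ⊢
    refine ⟨⟨by omega, hp.1.2.trans ?_⟩, hp.2⟩
    rw [mul_comm, pow_mul]
    exact Nat.pow_le_pow_left hhi.le k
  refine (Finset.sum_le_sum_of_subset_of_nonneg hsub fun p _ _ => by positivity).trans ?_
  refine (sum_inv_prime_Ioc_pow_le a _ ha1 hab).trans ?_
  calc ∑ j ∈ Finset.Ico a (k * (a + 1)), 4 / (j : ℝ)
      ≤ ∑ _j ∈ Finset.Ico a (k * (a + 1)), 4 / (a : ℝ) := by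
        refine Finset.sum_le_sum fun j hj => ?_
        refine div_le_div_of_nonneg_left (by norm_num) (by exact_mod_cast ha1) ?_
        exact_mod_cast (Finset.mem_Ico.mp hj).1
    _ = ((k * (a + 1) - a : ℕ) : ℝ) * (4 / (a : ℝ)) := by
        rw [Finset.sum_const, Nat.card_Ico, nsmul_eq_mul]
    _ ≤ ((2 * a * k : ℕ) : ℝ) * (4 / (a : ℝ)) := by
        refine mul_le_mul_of_nonneg_right ?_ (by positivity)
        exact_mod_cast (by nlinarith [Nat.sub_le (k * (a + 1)) a] : k * (a + 1) - a ≤ 2 * a * k)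
    _ = 8 * (k : ℝ) := by
        push_cast
        field_simp
        ring

/-- Weak Mertens bound, global form. -/
theorem exists_prod_one_add_inv_prime_le :
    ∃ C : ℝ, 0 ≤ C ∧ ∀ N : ℕ, 3 ≤ N →
      ∑ p ∈ (Finset.range (N + 1)).filter Nat.Prime, (1 : ℝ) / p ≤
        C * (1 + Real.log (Real.log N)) := by
  refine ⟨10, by norm_num, fun N hN => ?_⟩
  set b := Nat.log 2 N + 1 with hb
  have hb1 : 1 ≤ Nat.log 2 N := Nat.log_pos (by norm_num) (by omega)
  have hlogN : 1 ≤ Real.log N := by
    rw [Real.le_log_iff_exp_le (by exact_mod_cast (by omega : 0 < N))]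
    have h3 : (3 : ℝ) ≤ N := by exact_mod_cast hN
    linarith [Real.exp_one_lt_d9]
  have hsub : (Finset.range (N + 1)).filter Nat.Prime ⊆
      insert 2 ((Finset.Ioc (2 ^ 1) (2 ^ b)).filter Nat.Prime) := by
    intro p hp
    rw [Finset.mem_filter, Finset.mem_range] at hp
    rw [Finset.mem_insert, Finset.mem_filter, Finset.mem_Ioc]
    have := hp.2.two_le
    rcases eq_or_lt_of_le this with h | h
    · exact Or.inl h.symm
    · refine Or.inr ⟨⟨by simpa using h, ?_⟩, hp.2⟩
      exact le_trans (by omega) (Nat.lt_pow_succ_log_self (by norm_num) N).le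
  refine (Finset.sum_le_sum_of_subset_of_nonneg hsub fun p _ _ => by positivity).trans ?_
  rw [Finset.sum_insert (by simp)]
  have h1 := sum_inv_prime_Ioc_pow_le 1 b le_rfl (by omega)
  have h2 : ∑ j ∈ Finset.Ico 1 b, 4 / (j : ℝ) = 4 * ((harmonic (Nat.log 2 N) : ℚ) : ℝ) := by
    rw [hb, harmonic_eq_sum_Icc]
    push_cast
    rw [Finset.mul_sum]
    exact Finset.sum_congr (by ext; simp) fun j _ => by rw [div_eq_mul_inv]
  have h3 : ((harmonic (Nat.log 2 N) : ℚ) : ℝ) ≤ 1 + Real.log (Nat.log 2 N : ℕ) :=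
    harmonic_le_one_add_log _
  have hlog2 : (Nat.log 2 N : ℝ) * Real.log 2 ≤ Real.log N := by
    rw [← Real.log_pow]
    refine Real.log_le_log (by positivity) ?_
    exact_mod_cast Nat.pow_log_le_self 2 (by omega : N ≠ 0)
  have hl2 : (1 / 2 : ℝ) ≤ Real.log 2 := by linarith [Real.log_two_gt_d9]
  have h4 : Real.log (Nat.log 2 N : ℕ) ≤ 1 + Real.log (Real.log N) := by
    have h5 : ((Nat.log 2 N : ℕ) : ℝ) ≤ 2 * Real.log N := by
      have := mul_le_mul_of_nonneg_left hl2 (Nat.cast_nonneg (α := ℝ) (Nat.log 2 N))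
      linarith
    calc Real.log (Nat.log 2 N : ℕ) ≤ Real.log (2 * Real.log N) :=
          Real.log_le_log (by exact_mod_cast hb1) h5
      _ = Real.log 2 + Real.log (Real.log N) := Real.log_mul (by norm_num) (by linarith)
      _ ≤ 1 + Real.log (Real.log N) := by linarith [Real.log_two_lt_d9]
  have hll : 0 ≤ Real.log (Real.log N) := Real.log_nonneg hlogN
  push_cast
  linarith

/-- The divisor bound `τ(n) ≤ exp (C L / log L)` for all `n ≤ exp L`. -/
theorem exists_divisors_card_le :
    ∃ C L0 : ℝ, 0 < C ∧ ∀ L : ℝ, L0 ≤ L → ∀ n : ℕ, 0 < n → (n : ℝ) ≤ Real.exp L →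
      (n.divisors.card : ℝ) ≤ Real.exp (C * L / Real.log L) := by
  refine ⟨130, 4, by norm_num, fun L hL n hn hnL => ?_⟩
  set z := Real.sqrt L with hz
  have hz2 : 2 ≤ z := by
    rw [hz, show (2 : ℝ) = Real.sqrt 4 by rw [show (4 : ℝ) = 2 ^ 2 by norm_num, Real.sqrt_sq]; norm_num]
    exact Real.sqrt_le_sqrt hL
  have hlogn : Real.log n ≤ L := by
    calc Real.log n ≤ Real.log (Real.exp L) := Real.log_le_log (by exact_mod_cast hn) hnL
      _ = L := Real.log_exp L
  have hfac : Real.log n = ∑ p ∈ n.primeFactors, (n.factorization p : ℝ) * Real.log p := by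
    rw [Real.log_nat_eq_sum_factorization, Finsupp.sum, Nat.support_factorization]
  have hlogL : 1 ≤ Real.log L := by
    rw [Real.le_log_iff_exp_le (by linarith)]
    linarith [Real.exp_one_lt_d9]
  have hlogz : 0 < Real.log z := Real.log_pos (by linarith)
  have hl2 : (1 / 2 : ℝ) ≤ Real.log 2 := by linarith [Real.log_two_gt_d9]
  have hl2' : 0 ≤ Real.log 2 / Real.log z := div_nonneg (by linarith) hlogz.le
  have hterm0 : ∀ p ∈ n.primeFactors, 0 ≤ (n.factorization p : ℝ) * Real.log p := fun p _ =>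
    mul_nonneg (Nat.cast_nonneg _) (Real.log_natCast_nonneg p)
  have hexp_le : ∀ p ∈ n.primeFactors, (n.factorization p : ℝ) ≤ 2 * L := by
    intro p hp
    have h1 : (n.factorization p : ℝ) * Real.log p ≤ Real.log n := by
      rw [hfac]
      exact Finset.single_le_sum hterm0 hp
    have h2 : Real.log 2 ≤ Real.log p :=
      Real.log_le_log (by norm_num) (by exact_mod_cast (Nat.prime_of_mem_primeFactors hp).two_le)
    have h3 := mul_le_mul_of_nonneg_left (hl2.trans h2) (Nat.cast_nonneg (α := ℝ) (n.factorization p))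
    linarith
  have hterm : ∀ p ∈ n.primeFactors, Real.log ((n.factorization p : ℝ) + 1) ≤
      (if (p : ℝ) ≤ z then Real.log (3 * L) else 0)
        + Real.log 2 / Real.log z * ((n.factorization p : ℝ) * Real.log p) := by
    intro p hp
    by_cases hpz : (p : ℝ) ≤ z
    · rw [if_pos hpz]
      refine le_add_of_le_of_nonneg (Real.log_le_log (by positivity) ?_)
        (mul_nonneg hl2' (hterm0 p hp))
      linarith [hexp_le p hp]
    · rw [if_neg hpz, zero_add]
      have h1 : ((n.factorization p : ℝ) + 1) ≤ (2 : ℝ) ^ n.factorization p := by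
        exact_mod_cast Nat.lt_two_pow_self (n := n.factorization p)
      calc Real.log ((n.factorization p : ℝ) + 1) ≤ Real.log ((2 : ℝ) ^ n.factorization p) :=
            Real.log_le_log (by positivity) h1
        _ = (n.factorization p : ℝ) * Real.log 2 := Real.log_pow _ _
        _ = Real.log 2 / Real.log z * ((n.factorization p : ℝ) * Real.log z) := by field_simp
        _ ≤ _ := by
            refine mul_le_mul_of_nonneg_left (mul_le_mul_of_nonneg_left ?_ (Nat.cast_nonneg _)) hl2'
            exact Real.log_le_log (by linarith) (not_le.mp hpz).le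
  have hsum : Real.log (n.divisors.card : ℝ) ≤ z * Real.log (3 * L) + Real.log 2 / Real.log z * L := by
    rw [Nat.card_divisors hn.ne']
    push_cast
    rw [Real.log_prod (fun p hp => by positivity)]
    refine (Finset.sum_le_sum hterm).trans ?_
    rw [Finset.sum_add_distrib, ← Finset.mul_sum, ← hfac, ← Finset.sum_filter, Finset.sum_const,
      nsmul_eq_mul]
    refine add_le_add (mul_le_mul_of_nonneg_right ?_ (Real.log_nonneg (by linarith)))
      (mul_le_mul_of_nonneg_left hlogn hl2')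
    have hsub : n.primeFactors.filter (fun p : ℕ => (p : ℝ) ≤ z) ⊆ Finset.Icc 1 ⌊z⌋₊ := by
      intro p hp
      rw [Finset.mem_filter] at hp
      rw [Finset.mem_Icc]
      exact ⟨(Nat.prime_of_mem_primeFactors hp.1).one_le, Nat.le_floor hp.2⟩
    have h := Finset.card_le_card hsub
    rw [Nat.card_Icc, Nat.add_sub_cancel] at h
    calc ((n.primeFactors.filter fun p : ℕ => (p : ℝ) ≤ z).card : ℝ) ≤ (⌊z⌋₊ : ℝ) := by exact_mod_cast h
      _ ≤ z := Nat.floor_le (by linarith)
  have hzz : z * z = L := Real.mul_self_sqrt (by linarith)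
  have hlz : Real.log z = Real.log L / 2 := by rw [hz, Real.log_sqrt (by linarith)]
  have hfirst : z * Real.log (3 * L) * Real.log L ≤ 128 * L := by
    have h1 : Real.log (3 * L) ≤ 2 * Real.log L := by
      rw [← Real.log_rpow (by linarith), show (2 : ℝ) = ((2 : ℕ) : ℝ) by norm_num, Real.rpow_natCast]
      exact Real.log_le_log (by linarith) (by nlinarith)
    have h2 : Real.log L ≤ L ^ (1 / 4 : ℝ) / (1 / 4 : ℝ) :=
      Real.log_le_rpow_div (by linarith) (by norm_num)
    have h3 : (L ^ (1 / 4 : ℝ)) ^ 2 = z := by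
      rw [hz, Real.sqrt_eq_rpow, ← Real.rpow_natCast, ← Real.rpow_mul (by linarith)]
      norm_num
    have h4 : Real.log L ^ 2 ≤ 16 * z := by
      calc Real.log L ^ 2 ≤ (L ^ (1 / 4 : ℝ) / (1 / 4 : ℝ)) ^ 2 :=
            pow_le_pow_left₀ (by linarith) h2 2
        _ = 16 * z := by rw [div_pow, h3]; ring
    calc z * Real.log (3 * L) * Real.log L ≤ z * (2 * Real.log L) * Real.log L :=
          mul_le_mul_of_nonneg_right (mul_le_mul_of_nonneg_left h1 (by linarith)) (by linarith)
      _ = 2 * (z * Real.log L ^ 2) := by ring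
      _ ≤ 2 * (z * (16 * z)) := by
          refine mul_le_mul_of_nonneg_left (mul_le_mul_of_nonneg_left h4 (by linarith)) (by norm_num)
      _ ≤ 128 * L := by nlinarith
  have hfinal : Real.log (n.divisors.card : ℝ) ≤ 130 * L / Real.log L := by
    refine hsum.trans ?_
    rw [le_div_iff₀ (by linarith), add_mul]
    have h5 : Real.log 2 / Real.log z * L * Real.log L ≤ 2 * L := by
      rw [hlz, show Real.log 2 / (Real.log L / 2) * L * Real.log L = 2 * Real.log 2 * L by
        field_simp]
      nlinarith [Real.log_two_lt_d9]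
    linarith
  have hc0 : (0 : ℝ) < (n.divisors.card : ℝ) := by
    have : 0 < n.divisors.card := Finset.card_pos.mpr ⟨1, Nat.one_mem_divisors.mpr hn.ne'⟩
    exact_mod_cast this
  exact (Real.log_le_iff_le_exp hc0).mp hfinal

/-- `q / φ(q) ≤ τ(q)`. -/
theorem div_totient_le_card_divisors (q : ℕ) (hq : 0 < q) :
    (q : ℝ) / Nat.totient q ≤ (q.divisors.card : ℝ) := by
  rw [div_le_iff₀ (by exact_mod_cast Nat.totient_pos.mpr hq)]
  have hmain : q * ∏ p ∈ q.primeFactors, (p - 1) ≤
      q.divisors.card * Nat.totient q * ∏ p ∈ q.primeFactors, (p - 1) := by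
    calc q * ∏ p ∈ q.primeFactors, (p - 1) = Nat.totient q * ∏ p ∈ q.primeFactors, p :=
          (Nat.totient_mul_prod_primeFactors q).symm
      _ ≤ Nat.totient q * ∏ p ∈ q.primeFactors, ((q.factorization p + 1) * (p - 1)) := by
          refine Nat.mul_le_mul_left _ (Finset.prod_le_prod' fun p hp => ?_)
          have h2 := (Nat.prime_of_mem_primeFactors hp).two_le
          have h1 : 1 ≤ q.factorization p :=
            (Nat.prime_of_mem_primeFactors hp).factorization_pos_of_dvd hq.ne'
              (Nat.dvd_of_mem_primeFactors hp)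
          calc p ≤ 2 * (p - 1) := by omega
            _ ≤ (q.factorization p + 1) * (p - 1) := Nat.mul_le_mul_right _ (by omega)
      _ = q.divisors.card * Nat.totient q * ∏ p ∈ q.primeFactors, (p - 1) := by
          rw [Finset.prod_mul_distrib, ← Nat.card_divisors hq.ne']
          ring
  have hpos : 0 < ∏ p ∈ q.primeFactors, (p - 1) := Finset.prod_pos fun p hp =>
    Nat.sub_pos_of_lt (Nat.prime_of_mem_primeFactors hp).one_lt
  exact_mod_cast Nat.le_of_mul_le_mul_right hmain hpos

/-- `2 ^ ω(q) = o(φ(q))`. -/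
theorem exists_two_pow_omega_le (δ : ℝ) (hδ : 0 < δ) :
    ∃ q0 : ℕ, ∀ q : ℕ, q0 ≤ q → (2 : ℝ) ^ q.primeFactors.card ≤ δ * Nat.totient q := by
  obtain ⟨C, L0, hC, hdiv⟩ := exists_divisors_card_le
  set Ls : ℝ := max (max L0 (Real.exp (4 * C))) (max 1 (2 * -Real.log δ)) with hLs
  refine ⟨⌈Real.exp Ls⌉₊, fun q hq => ?_⟩
  have hqe : Real.exp Ls ≤ (q : ℝ) := le_trans (Nat.le_ceil _) (by exact_mod_cast hq)
  have hqR : (0 : ℝ) < q := (Real.exp_pos _).trans_le hqe
  have hq0 : 0 < q := by exact_mod_cast hqR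
  set L := Real.log q with hLdef
  have hL : Ls ≤ L := by rw [hLdef, Real.le_log_iff_exp_le hqR]; exact hqe
  have hL0 : L0 ≤ L := le_trans (le_trans (le_max_left _ _) (le_max_left _ _)) hL
  have hL4 : Real.exp (4 * C) ≤ L := le_trans (le_trans (le_max_right _ _) (le_max_left _ _)) hL
  have hL1 : 1 ≤ L := le_trans (le_trans (le_max_left _ _) (le_max_right _ _)) hL
  have hLδ : 2 * -Real.log δ ≤ L := le_trans (le_trans (le_max_right _ _) (le_max_right _ _)) hL
  have hlogL : 4 * C ≤ Real.log L := by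
    rw [Real.le_log_iff_exp_le (by linarith)]
    exact hL4
  have hτ := hdiv L hL0 q hq0 (by rw [hLdef, Real.exp_log hqR])
  have hω : (2 : ℝ) ^ q.primeFactors.card ≤ (q.divisors.card : ℝ) := by
    rw [Nat.card_divisors hq0.ne']
    exact_mod_cast Finset.pow_card_le_prod q.primeFactors _ 2 fun p hp => by
      have := (Nat.prime_of_mem_primeFactors hp).factorization_pos_of_dvd hq0.ne'
        (Nat.dvd_of_mem_primeFactors hp)
      omega
  set T := C * L / Real.log L with hT
  have hT4 : 4 * T ≤ L := by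
    rw [hT, show 4 * (C * L / Real.log L) = (4 * C) * L / Real.log L by ring,
      div_le_iff₀ (by linarith), mul_comm L]
    exact mul_le_mul_of_nonneg_right hlogL (by linarith)
  have hphi : (q : ℝ) ≤ Real.exp T * Nat.totient q := by
    have h := div_totient_le_card_divisors q hq0
    rw [div_le_iff₀ (by exact_mod_cast Nat.totient_pos.mpr hq0)] at h
    exact h.trans (mul_le_mul_of_nonneg_right hτ (Nat.cast_nonneg _))
  calc (2 : ℝ) ^ q.primeFactors.card ≤ Real.exp T := hω.trans hτ
    _ ≤ δ * ((q : ℝ) / Real.exp T) := by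
        rw [← Real.exp_log hqR, ← hLdef, ← Real.exp_sub, ← Real.exp_log hδ, ← Real.exp_add]
        exact Real.exp_le_exp.mpr (by linarith)
    _ ≤ δ * Nat.totient q := by
        refine mul_le_mul_of_nonneg_left ?_ hδ.le
        rw [div_le_iff₀ (Real.exp_pos _)]
        linarith

end Vale.Agent.P028
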