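import Vale.Agent.P028.GainClasses

/-!
The gain off the line `n B + A m = 0`.
-/

noncomputable section

namespace Vale.Agent.P028

open Finset
open scoped Classical

def cNeg : ℝ := max 1 exists_negligible_le.choose

theorem exists_negligible_cNeg :
    ∃ ell0 : ℝ, ∀ (ψ : ℕ → ℝ) (S : Finset ℕ) (γ : ℝ) (A : ℤ) (B : ℕ) (ell L : ℝ),
      Win ψ S γ A B ell L → ell0 ≤ ell →
      (∀ q, 0 ≤ ψ q) →
      ∑ q ∈ S, ∑ r ∈ S.filter (fun r => r ≠ q ∧ dist2 ψ q r ≤ 1 / 8 ∧
          (dist2 ψ q r ≤ xFine ell ∨ (qd q r : ℝ) * Real.exp (etaC / 2 * ell) ≤ qd r q ∨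
            (qd r q : ℝ) * Real.exp (etaC / 2 * ell) ≤ qd q r)),
          wt ψ q * wt ψ r / dist2 ψ q r * ((admSet γ ψ A B q r).card : ℝ) ≤
        cNeg * mass ψ S * Real.exp (-(etaC / 4 * ell)) := by
  obtain ⟨l0, h⟩ := exists_negligible_le.choose_spec
  refine ⟨l0, fun ψ S γ A B ell L hw hl hψ => ?_⟩
  refine le_trans (le_of_eq ?_) ((h ψ S γ A B ell L hw hl).trans
    (mul_le_mul_of_nonneg_right (mul_le_mul_of_nonneg_right (le_max_right _ _) (mass_nonneg hψ S))
      (Real.exp_pos _).le))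
  refine sum_congr rfl (fun q _ => sum_congr ?_ fun _ _ => rfl)
  ext r; simp only [mem_filter]

theorem card_nearSet_le (γ : ℝ) (ψ : ℕ → ℝ) (q r : ℕ) (hD : 0 ≤ dist2 ψ q r) :
    ((nearSet γ ψ q r).card : ℝ) ≤ 4 * dist2 ψ q r + 3 := by
  set a : ℝ := -(γ * mdiff q r)
  set D : ℝ := dist2 ψ q r with hDdef
  have h1 : (nearSet γ ψ q r).card ≤ (⌈a + 2 * D⌉ + 1 - ⌊a - 2 * D⌋).toNat := by
    refine le_trans (card_filter_le _ _) ?_
    rw [Int.card_Icc]
  have h2 : ((⌈a + 2 * D⌉ + 1 - ⌊a - 2 * D⌋).toNat : ℝ) ≤ 4 * D + 3 := by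
    have hnn : 0 ≤ ⌈a + 2 * D⌉ + 1 - ⌊a - 2 * D⌋ := by
      have : ⌊a - 2 * D⌋ ≤ ⌈a + 2 * D⌉ := by
        exact_mod_cast le_trans (Int.floor_le _) (le_trans (by linarith : a - 2 * D ≤ a + 2 * D)
          (Int.le_ceil _))
      omega
    have h3 : (((⌈a + 2 * D⌉ + 1 - ⌊a - 2 * D⌋).toNat : ℤ) : ℝ) =
        (⌈a + 2 * D⌉ : ℝ) + 1 - ⌊a - 2 * D⌋ := by
      rw [Int.toNat_of_nonneg hnn]; push_cast; ring
    have h4 := Int.ceil_lt_add_one (a + 2 * D)
    have h5 := Int.sub_one_lt_floor (a - 2 * D)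
    push_cast at h3
    rw [h3]; linarith
  exact le_trans (by exact_mod_cast h1) h2

theorem card_admSet_le_one (γ : ℝ) (ψ : ℕ → ℝ) (A : ℤ) (B q r : ℕ)
    (hD : dist2 ψ q r ≤ 1 / 8) : (admSet γ ψ A B q r).card ≤ 1 := by
  refine card_le_one.2 (fun n hn n' hn' => ?_)
  simp only [admSet, nearSet, mem_filter] at hn hn'
  have h1 := abs_lt.1 hn.1.2
  have h2 := abs_lt.1 hn'.1.2
  have h3 : |((n - n' : ℤ) : ℝ)| < 1 := by
    push_cast; rw [abs_lt]; constructor <;> linarith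
  have h4 : |n - n'| < 1 := by exact_mod_cast h3
  have := Int.abs_lt_one_iff.1 h4
  omega

theorem mass_rpow_le {μ : ℝ} (hμ : 0 ≤ μ) :
    μ ^ (1007 / 1000 : ℝ) ≤ μ + μ ^ 2 := by
  rcases le_total μ 1 with h1 | h1
  · have : μ ^ (1007 / 1000 : ℝ) ≤ μ :=
      Real.rpow_le_self_of_le_one hμ h1 (by norm_num)
    nlinarith
  · have h2 : μ ^ (1007 / 1000 : ℝ) ≤ μ ^ (2 : ℝ) :=
      Real.rpow_le_rpow_of_exponent_le h1 (by norm_num)
    rw [Real.rpow_two] at h2
    linarith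

/-- The constant of the splitting argument. -/
theorem split_hexp : (1 : ℝ) < 2 * thetaC * (betaC / (1 - thetaC)) := by
  norm_num [thetaC, betaC]

def cSplit : ℝ :=
  max 1 (exists_split_bound thetaC betaC (by norm_num [thetaC]) (by norm_num [thetaC])
    (by norm_num [betaC]) split_hexp).choose

theorem bad_sum_le {γ : ℝ} {ψ : ℕ → ℝ} {A : ℤ} {B : ℕ} {x ell L : ℝ} {S : Finset ℕ}
    (hwin : Win ψ S γ A B ell L) (hψ : ∀ q, 0 ≤ ψ q) (hs : Scale ell x) :
    pairSum ψ S S (Bad γ ψ A B x ell) ≤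
      cSplit * (16 * cState) * ((mass ψ S + mass ψ S ^ 2) * x ^ (101 / 100 : ℝ)) := by
  have hm := mass_nonneg hψ S
  have hC : 0 ≤ cState := le_trans zero_le_one one_le_cState
  set G : ℝ := 16 * cState * (mass ψ S ^ (alpha1 - alpha2) * x ^ (101 / 100 : ℝ)) with hG
  have hGn : 0 ≤ G := by
    have := hs.x_pos
    rw [hG]; positivity
  have key := (exists_split_bound thetaC betaC (by norm_num [thetaC]) (by norm_num [thetaC])
    (by norm_num [betaC]) split_hexp).choose_spec (S.biUnion Nat.primeFactors) S (wt ψ)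
    (fun v w => if Bad γ ψ A B x ell v w then 1 else 0) G
    (fun p hp => by
      obtain ⟨q, _, hq⟩ := mem_biUnion.1 hp
      exact Nat.prime_of_mem_primeFactors hq)
    (fun q hq => subset_biUnion_of_mem Nat.primeFactors hq)
    (wt_nonneg hψ) (fun v w => by split_ifs <;> norm_num) hGn
    (finalBound_bad hwin hψ hs
      (fun p hp => by
        obtain ⟨q, _, hq⟩ := mem_biUnion.1 hp
        exact Nat.prime_of_mem_primeFactors hq)
      (fun q hq => subset_biUnion_of_mem Nat.primeFactors hq))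
  have hlhs : pairSum ψ S S (Bad γ ψ A B x ell) =
      ∑ v ∈ S, ∑ w ∈ S, (if Bad γ ψ A B x ell v w then (1 : ℝ) else 0) * (wt ψ v * wt ψ w) := by
    simp [pairSum, ite_mul]
  rw [hlhs]
  refine key.trans ?_
  show _ * G * (mass ψ S * mass ψ S) ^ thetaC ≤ _
  refine le_trans (mul_le_mul_of_nonneg_right (mul_le_mul_of_nonneg_right
    (le_max_right (1 : ℝ) _) hGn) (Real.rpow_nonneg (mul_nonneg hm hm) _)) ?_
  show cSplit * G * (mass ψ S * mass ψ S) ^ thetaC ≤ _
  have e : mass ψ S ^ (alpha1 - alpha2) * (mass ψ S * mass ψ S) ^ thetaC =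
      mass ψ S ^ (1007 / 1000 : ℝ) := by
    rw [← sq, ← Real.rpow_two, ← Real.rpow_mul hm, ← Real.rpow_add_of_nonneg hm
      (by norm_num [alpha1, alpha2]) (by norm_num [thetaC])]
    norm_num [alpha1, alpha2, thetaC]
  have hcs : 0 ≤ cSplit := le_trans zero_le_one (le_max_left _ _)
  calc cSplit * G * (mass ψ S * mass ψ S) ^ thetaC
      = cSplit * (16 * cState) * (mass ψ S ^ (1007 / 1000 : ℝ) * x ^ (101 / 100 : ℝ)) := by
        rw [← e, hG]; ring
    _ ≤ _ := by
        refine mul_le_mul_of_nonneg_left ?_ (by positivity)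
        exact mul_le_mul_of_nonneg_right (mass_rpow_le hm) (Real.rpow_nonneg hs.x_pos.le _)

/-- The pairs outside the negligible ones are bad. -/
theorem bad_of_main {γ : ℝ} {ψ : ℕ → ℝ} {A : ℤ} {B : ℕ} {x ell L : ℝ} {S : Finset ℕ}
    (hwin : Win ψ S γ A B ell L) (hell : 10 ^ 6 ≤ ell) {q r : ℕ} (hq : q ∈ S) (hr : r ∈ S)
    (hne : r ≠ q) (hD : dist2 ψ q r ≤ 2 * x)
    (hx0 : xFine ell < dist2 ψ q r)
    (hb1 : (qd r q : ℝ) < (qd q r : ℝ) * Real.exp (etaC / 2 * ell))
    (hb2 : (qd q r : ℝ) < (qd r q : ℝ) * Real.exp (etaC / 2 * ell))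
    (hn : (admSet γ ψ A B q r).Nonempty) : Bad γ ψ A B x ell q r := by
  obtain ⟨n, hn⟩ := hn
  have hz := zform_ne_zero_of_mem_admSet (hwin.pos_of_mem q hq) (hwin.pos_of_mem r hr) hne.symm
    hwin.coprime hn
  simp only [admSet, nearSet, mem_filter] at hn
  set E : ℝ := Real.exp (etaC / 2 * ell) with hE
  have hE1 : 1 ≤ E := Real.one_le_exp (by norm_num [etaC]; linarith)
  have hq1 : (1 : ℝ) ≤ E := hE1
  have key : ∀ u v : ℕ, ∀ p : ℝ, p ≤ Real.exp (-ell) → xFine ell < p * (u : ℝ) →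
      (u : ℝ) < (v : ℝ) * E →
      Real.exp (3 * ell / 4) ≤ (u : ℝ) ∧ Real.exp (3 * ell / 4) ≤ (v : ℝ) := by
    intro u v p hp h1 h2
    have h3 : Real.exp (ell - 2 * etaC * ell) ≤ (u : ℝ) := by
      have h4 : xFine ell ≤ Real.exp (-ell) * u :=
        h1.le.trans (mul_le_mul_of_nonneg_right hp (Nat.cast_nonneg u))
      rw [xFine] at h4
      refine le_of_mul_le_mul_left (le_trans (le_of_eq ?_) h4) (Real.exp_pos (-ell))
      rw [← Real.exp_add]; congr 1; ring
    have h5 : Real.exp (3 * ell / 4) * E ≤ Real.exp (ell - 2 * etaC * ell) := by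
      rw [hE, ← Real.exp_add]
      exact Real.exp_le_exp.2 (by norm_num [etaC]; linarith)
    have hu : Real.exp (3 * ell / 4) ≤ (u : ℝ) :=
      le_trans (le_mul_of_one_le_right (Real.exp_pos _).le hE1) (h5.trans h3)
    refine ⟨hu, ?_⟩
    refine le_of_mul_le_mul_right ?_ (lt_of_lt_of_le one_pos hE1)
    linarith [h5.trans h3]
  have hQ : Real.exp (3 * ell / 4) ≤ (qd q r : ℝ) ∧ Real.exp (3 * ell / 4) ≤ (qd r q : ℝ) := by
    rcases lt_max_iff.1 hx0 with h1 | h1
    · exact (key _ _ _ (hwin.psi_le q hq) h1 hb1).symm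
    · exact key _ _ _ (hwin.psi_le r hr) h1 hb2
  refine ⟨hne.symm, hD, hQ.1, hQ.2, n, ?_, hz⟩
  linarith [hn.1.2]

/-- The gain for nonnegative `ψ`. -/
theorem exists_gain_nonneg :
    ∃ C ell0 : ℝ, ∀ (ψ : ℕ → ℝ) (S : Finset ℕ) (γ : ℝ) (A : ℤ) (B : ℕ) (ell L : ℝ),
      Win ψ S γ A B ell L → ell0 ≤ ell → (∀ q, 0 ≤ ψ q) → ∀ x : ℝ, 0 < x →
      enSum γ ψ A B S x (2 * x) ≤
        C * (mass ψ S + mass ψ S ^ 2) *
          (min 1 (x ^ (1 / 100 : ℝ)) + Real.exp (-(etaC / 4 * ell))) := by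
  obtain ⟨l0, hneg⟩ := exists_negligible_cNeg
  refine ⟨max (2 * (4 + 3 * 2 ^ 40)) (cNeg + cSplit * (16 * cState)), max (10 ^ 6) l0,
    fun ψ S γ A B ell L hwin hell hψ x hx => ?_⟩
  set K : ℝ := max (2 * (4 + 3 * 2 ^ 40)) (cNeg + cSplit * (16 * cState)) with hK
  have hell6 : (10 : ℝ) ^ 6 ≤ ell := le_trans (le_max_left _ _) hell
  have hm := mass_nonneg hψ S
  have hm2 : 0 ≤ mass ψ S + mass ψ S ^ 2 := by positivity
  have hwt := wt_nonneg hψ
  have hexp0 : 0 ≤ Real.exp (-(etaC / 4 * ell)) := (Real.exp_pos _).le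
  have hK0 : 0 ≤ K := le_trans (by norm_num) (le_max_left _ _)
  rcases lt_or_ge ((2 : ℝ) ^ (-(40 : ℝ))) x with hbig | hsmall
  · have hterm : ∀ q ∈ S, ∀ r ∈ S.filter
        (fun r => r ≠ q ∧ x < dist2 ψ q r ∧ dist2 ψ q r ≤ 2 * x),
        wt ψ q * wt ψ r / dist2 ψ q r * ((admSet γ ψ A B q r).card : ℝ) ≤
          wt ψ q * wt ψ r * (4 + 3 * 2 ^ 40) := by
      intro q _ r hr
      rw [mem_filter] at hr
      have hD : 0 < dist2 ψ q r := hx.trans hr.2.2.1
      have hc : ((admSet γ ψ A B q r).card : ℝ) ≤ 4 * dist2 ψ q r + 3 :=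
        le_trans (by exact_mod_cast card_filter_le _ _) (card_nearSet_le γ ψ q r hD.le)
      rw [div_mul_eq_mul_div, mul_div_assoc]
      refine mul_le_mul_of_nonneg_left ?_ (mul_nonneg (hwt q) (hwt r))
      rw [div_le_iff₀ hD]
      have h40 : (1 : ℝ) ≤ 2 ^ 40 * dist2 ψ q r := by
        have h2 : (2 : ℝ) ^ (-(40 : ℝ)) = (1 : ℝ) / 2 ^ 40 := by
          rw [Real.rpow_neg (by norm_num), one_div]; norm_num
        rw [h2] at hbig
        have := hbig.trans hr.2.2.1
        rw [div_lt_iff₀ (by positivity)] at this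
        linarith
      linarith
    have h1 : enSum γ ψ A B S x (2 * x) ≤ (4 + 3 * 2 ^ 40) * mass ψ S ^ 2 := by
      refine le_trans (sum_le_sum (fun q hq => le_trans (sum_le_sum (hterm q hq))
        (sum_le_sum_of_subset_of_nonneg (filter_subset _ _)
          (fun r _ _ => mul_nonneg (mul_nonneg (hwt q) (hwt r)) (by norm_num))))) (le_of_eq ?_)
      simp only [mass, sq, mul_sum, sum_mul]
      exact sum_congr rfl (fun q _ => sum_congr rfl (fun r _ => by ring))
    have hmin : 1 / 2 ≤ min 1 (x ^ (1 / 100 : ℝ)) := by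
      refine le_min (by norm_num) (le_trans ?_ (Real.rpow_le_rpow (by positivity) hbig.le
        (by norm_num)))
      rw [← Real.rpow_mul (by norm_num)]
      refine le_trans (le_of_eq ?_) (Real.rpow_le_rpow_of_exponent_le (by norm_num)
        (by norm_num : (-1 : ℝ) ≤ -40 * (1 / 100)))
      norm_num [Real.rpow_neg_one]
    calc enSum γ ψ A B S x (2 * x) ≤ (4 + 3 * 2 ^ 40) * mass ψ S ^ 2 := h1
      _ ≤ 2 * (4 + 3 * 2 ^ 40) * (mass ψ S + mass ψ S ^ 2) *
          (1 / 2 + Real.exp (-(etaC / 4 * ell))) := by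
          nlinarith [mul_nonneg hm2 hexp0]
      _ ≤ _ := by
          gcongr
          exact le_max_left _ _
  -- small `x`
  have hx1 : x ≤ 1 := hsmall.trans (Real.rpow_le_one_of_one_le_of_nonpos (by norm_num) (by norm_num))
  have hx8 : 2 * x ≤ 1 / 8 := by
    have : (2 : ℝ) ^ (-(40 : ℝ)) ≤ (2 : ℝ) ^ (-(4 : ℝ)) :=
      Real.rpow_le_rpow_of_exponent_le (by norm_num) (by norm_num)
    have h4 : (2 : ℝ) ^ (-(4 : ℝ)) = 1 / 16 := by
      rw [Real.rpow_neg (by norm_num)]; norm_num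
    have h5 : x ≤ 1 / 16 := hsmall.trans (this.trans h4.le)
    linarith
  set neg : ℕ → ℕ → Prop := fun q r => dist2 ψ q r ≤ xFine ell ∨
    (qd q r : ℝ) * Real.exp (etaC / 2 * ell) ≤ qd r q ∨
      (qd r q : ℝ) * Real.exp (etaC / 2 * ell) ≤ qd q r with hnegdef
  set tm : ℕ → ℕ → ℝ := fun q r => wt ψ q * wt ψ r / dist2 ψ q r *
    ((admSet γ ψ A B q r).card : ℝ) with htm
  have hD0 : ∀ q r, 0 ≤ dist2 ψ q r := fun q r =>
    le_max_of_le_left (mul_nonneg (hψ q) (Nat.cast_nonneg _))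
  have htm0 : ∀ q r, 0 ≤ tm q r := fun q r =>
    mul_nonneg (div_nonneg (mul_nonneg (hwt q) (hwt r)) (hD0 q r)) (Nat.cast_nonneg _)
  have hsplit : enSum γ ψ A B S x (2 * x) ≤
      (∑ q ∈ S, ∑ r ∈ S.filter (fun r => r ≠ q ∧ dist2 ψ q r ≤ 1 / 8 ∧ neg q r), tm q r) +
      ∑ q ∈ S, ∑ r ∈ S.filter
        (fun r => r ≠ q ∧ x < dist2 ψ q r ∧ dist2 ψ q r ≤ 2 * x ∧ ¬ neg q r), tm q r := by
    rw [enSum, ← sum_add_distrib]
    refine sum_le_sum (fun q _ => ?_)
    rw [sum_filter, sum_filter, sum_filter, ← sum_add_distrib]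
    refine sum_le_sum (fun r _ => ?_)
    have := htm0 q r
    by_cases h1 : r ≠ q ∧ x < dist2 ψ q r ∧ dist2 ψ q r ≤ 2 * x
    · rw [if_pos h1]
      by_cases h2 : neg q r
      · rw [if_pos (⟨h1.1, h1.2.2.trans hx8, h2⟩ : r ≠ q ∧ dist2 ψ q r ≤ 1 / 8 ∧ neg q r)]
        refine le_add_of_nonneg_right ?_
        split_ifs <;> first | exact this | exact le_rfl
      · rw [if_pos (⟨h1.1, h1.2.1, h1.2.2, h2⟩ :
          r ≠ q ∧ x < dist2 ψ q r ∧ dist2 ψ q r ≤ 2 * x ∧ ¬ neg q r)]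
        refine le_add_of_nonneg_left ?_
        split_ifs <;> first | exact this | exact le_rfl
    · rw [if_neg h1]
      refine add_nonneg ?_ ?_ <;> split_ifs <;> first | exact this | exact le_rfl
  have hfirst : ∑ q ∈ S, ∑ r ∈ S.filter (fun r => r ≠ q ∧ dist2 ψ q r ≤ 1 / 8 ∧ neg q r), tm q r
      ≤ cNeg * (mass ψ S + mass ψ S ^ 2) * Real.exp (-(etaC / 4 * ell)) := by
    refine le_trans (le_trans (le_of_eq ?_) (hneg ψ S γ A B ell L hwin
      (le_trans (le_max_right _ _) hell) hψ)) ?_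
    · refine sum_congr rfl (fun q _ => sum_congr ?_ fun _ _ => rfl)
      ext r; simp only [mem_filter, hnegdef]
    · refine mul_le_mul_of_nonneg_right (mul_le_mul_of_nonneg_left ?_ ?_) hexp0
      · nlinarith
      · exact le_trans zero_le_one (le_max_left _ _)
  have hsecond : ∑ q ∈ S, ∑ r ∈ S.filter
      (fun r => r ≠ q ∧ x < dist2 ψ q r ∧ dist2 ψ q r ≤ 2 * x ∧ ¬ neg q r), tm q r ≤
      cSplit * (16 * cState) * (mass ψ S + mass ψ S ^ 2) * x ^ (1 / 100 : ℝ) := by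
    rcases le_or_gt (2 * x) (xFine ell) with hxx | hxx
    · refine le_of_eq_of_le (sum_eq_zero (fun q _ => sum_eq_zero (fun r hr => ?_))) ?_
      · rw [mem_filter] at hr
        exact absurd (Or.inl (hr.2.2.2.1.trans hxx)) hr.2.2.2.2
      · exact mul_nonneg (mul_nonneg (mul_nonneg (le_trans zero_le_one (le_max_left _ _))
          (by linarith [one_le_cState])) hm2) (Real.rpow_nonneg hx.le _)
    · have hs : Scale ell x := by
        refine ⟨hell6, hx, hsmall, ?_⟩
        have h2 : 2 * Real.exp (-(3 * etaC * ell)) ≤ xFine ell := by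
          have h3 : (2 : ℝ) ≤ Real.exp (etaC * ell) := by
            have := Real.add_one_le_exp (etaC * ell)
            have : (10 : ℝ) ≤ etaC * ell := by norm_num [etaC]; linarith
            linarith
          rw [xFine, show -(2 * etaC * ell) = etaC * ell + -(3 * etaC * ell) by ring, Real.exp_add]
          exact mul_le_mul_of_nonneg_right h3 (Real.exp_pos _).le
        linarith
      have h1 : ∑ q ∈ S, ∑ r ∈ S.filter
          (fun r => r ≠ q ∧ x < dist2 ψ q r ∧ dist2 ψ q r ≤ 2 * x ∧ ¬ neg q r), tm q r ≤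
          pairSum ψ S S (Bad γ ψ A B x ell) / x := by
        rw [pairSum, sum_div]
        refine sum_le_sum (fun q hq => ?_)
        rw [sum_div, sum_filter]
        refine sum_le_sum (fun r hr => ?_)
        have hp := mul_nonneg (hwt q) (hwt r)
        by_cases h1 : r ≠ q ∧ x < dist2 ψ q r ∧ dist2 ψ q r ≤ 2 * x ∧ ¬ neg q r
        · rw [if_pos h1]
          obtain ⟨hne, hxD, hD2, hnn⟩ := h1
          simp only [hnegdef, not_or, not_le] at hnn
          by_cases hbad : Bad γ ψ A B x ell q r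
          · rw [if_pos hbad]
            calc tm q r ≤ wt ψ q * wt ψ r / dist2 ψ q r * 1 := by
                  refine mul_le_mul_of_nonneg_left ?_ (div_nonneg hp (hD0 q r))
                  exact_mod_cast card_admSet_le_one γ ψ A B q r (hD2.trans hx8)
              _ ≤ wt ψ q * wt ψ r / x := by
                  rw [mul_one]; exact div_le_div_of_nonneg_left hp hx hxD.le
          · have hc : admSet γ ψ A B q r = ∅ := by
              by_contra hc
              exact hbad (bad_of_main hwin hell6 hq hr hne hD2 hnn.1 hnn.2.1 hnn.2.2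
                (Finset.nonempty_iff_ne_empty.2 hc))
            simp [htm, hc, hbad]
        · rw [if_neg h1]
          refine div_nonneg ?_ hx.le
          split_ifs <;> first | exact hp | exact le_rfl
      refine h1.trans ?_
      rw [div_le_iff₀ hx]
      refine (bad_sum_le hwin hψ hs).trans (le_of_eq ?_)
      rw [show (101 / 100 : ℝ) = 1 / 100 + 1 by norm_num, Real.rpow_add hx, Real.rpow_one]
      ring
  have hx1' : x ^ (1 / 100 : ℝ) ≤ 1 := Real.rpow_le_one hx.le hx1 (by norm_num)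
  rw [min_eq_right hx1']
  refine hsplit.trans ((add_le_add hfirst hsecond).trans ?_)
  have hxp : 0 ≤ x ^ (1 / 100 : ℝ) := Real.rpow_nonneg hx.le _
  have hcN : 0 ≤ cNeg := le_trans zero_le_one (le_max_left _ _)
  have hcS : 0 ≤ cSplit * (16 * cState) :=
    mul_nonneg (le_trans zero_le_one (le_max_left _ _)) (by linarith [one_le_cState])
  calc cNeg * (mass ψ S + mass ψ S ^ 2) * Real.exp (-(etaC / 4 * ell)) +
        cSplit * (16 * cState) * (mass ψ S + mass ψ S ^ 2) * x ^ (1 / 100 : ℝ)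
      ≤ (cNeg + cSplit * (16 * cState)) * (mass ψ S + mass ψ S ^ 2) *
          (x ^ (1 / 100 : ℝ) + Real.exp (-(etaC / 4 * ell))) := by
        nlinarith [mul_nonneg (mul_nonneg hcN hm2) hxp, mul_nonneg (mul_nonneg hcS hm2) hexp0]
    _ ≤ _ := by
        gcongr
        exact le_max_right _ _

/-- The gain at level `x`: off the line `n B + A m = 0`, near coincidences lose a power of `x`. -/
theorem exists_gain_le :
    ∃ C ell0 : ℝ, ∀ (ψ : ℕ → ℝ) (S : Finset ℕ) (γ : ℝ) (A : ℤ) (B : ℕ) (ell L : ℝ),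
      Win ψ S γ A B ell L → ell0 ≤ ell → ∀ x : ℝ, 0 < x →
      enSum γ ψ A B S x (2 * x) ≤
        C * (mass ψ S + mass ψ S ^ 2) *
          (min 1 (x ^ (1 / 100 : ℝ)) + Real.exp (-(etaC / 4 * ell))) := by
  obtain ⟨C, l0, h⟩ := exists_gain_nonneg
  refine ⟨C, l0, fun ψ S γ A B ell L hwin hell x hx => ?_⟩
  set ψ' : ℕ → ℝ := fun q => max (ψ q) 0 with hψ'
  have heq : ∀ q ∈ S, ψ' q = ψ q := fun q hq => max_eq_left (hwin.psi_pos q hq).le
  have hwin' : Win ψ' S γ A B ell L :=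
    { one_le_L := hwin.one_le_L, L_le := hwin.L_le, pos_of_mem := hwin.pos_of_mem,
      q_le := hwin.q_le, psi_pos := fun q hq => by rw [heq q hq]; exact hwin.psi_pos q hq,
      psi_le := fun q hq => by rw [heq q hq]; exact hwin.psi_le q hq,
      B_pos := hwin.B_pos, B_le := hwin.B_le, delta_le := hwin.delta_le,
      coprime := hwin.coprime, divisors_le := hwin.divisors_le }
  have hmass : mass ψ' S = mass ψ S := sum_congr rfl (fun q hq => by rw [wt, wt, heq q hq])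
  have hen : enSum γ ψ' A B S x (2 * x) = enSum γ ψ A B S x (2 * x) := by
    refine sum_congr rfl (fun q hq => ?_)
    have hd : ∀ r ∈ S, dist2 ψ' q r = dist2 ψ q r := fun r hr => by
      rw [dist2, dist2, heq q hq, heq r hr]
    refine sum_congr (filter_congr (fun r hr => by rw [hd r hr])) (fun r hr => ?_)
    have hr' := (mem_filter.1 hr).1
    have hadm : admSet γ ψ' A B q r = admSet γ ψ A B q r := by
      simp only [admSet, nearSet, hd r hr']
    rw [hadm, hd r hr', wt, wt, wt, wt, heq q hq, heq r hr']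
  have := h ψ' S γ A B ell L hwin' hell (fun q => le_max_right _ _) x hx
  rwa [hmass, hen] at this

end Vale.Agent.P028
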