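import Vale.Agent.P028.Defs
import Vale.Agent.P028.NumberLemmas
import Vale.Agent.P028.Overlap.Factors

noncomputable section

namespace Vale.Agent.P028

open Finset MeasureTheory

/-- The total mass of a bump. -/
theorem integral_bump (γ : ℝ) (ψ : ℕ → ℝ) (A : ℤ) (B q : ℕ) (hq : 0 < q) (hψ : 0 ≤ ψ q)
    (hψ2 : ψ q ≤ 1 / 2) (hAB : IsCoprime A (B : ℤ)) :
    ∫ x, bump γ ψ A B q x = 2 * wt ψ q := by
  rw [integral_bump_eq γ A B q hψ, ← mul_assoc, wConst_mul_card_admA, wt]
  field_simp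

/-- Bumps are equidistributed on intervals. -/
theorem integral_bump_Ioc (γ : ℝ) (ψ : ℕ → ℝ) (A : ℤ) (B q : ℕ) (hq : 0 < q) (hψ : 0 ≤ ψ q)
    (hψ2 : ψ q ≤ 1 / 2) (hAB : IsCoprime A (B : ℤ)) (hγ : 0 ≤ γ) (hγ1 : γ < 1) (u v : ℝ)
    (hu : 0 ≤ u) (huv : u ≤ v) (hv : v ≤ 1) :
    |(∫ x in Set.Ioc u v, bump γ ψ A B q x) - 2 * wt ψ q * (v - u)| ≤
      8 * wt ψ q * ((2 : ℝ) ^ q.primeFactors.card / Nat.totient q) := by
  classical
  have hqR : (0 : ℝ) < q := by exact_mod_cast hq
  have htot : (0 : ℝ) < Nat.totient q := by exact_mod_cast Nat.totient_pos.2 hq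
  set L0 := 2 * ψ q / q with hL0
  have hL0n : 0 ≤ L0 := by positivity
  set c : ℕ → ℝ := fun a => ((a : ℝ) + γ) / q with hc
  have harc : ∀ a, arc γ ψ q a = Set.Ioo (c a - ψ q / q) (c a + ψ q / q) := fun a => by
    simp only [arc, hc, sub_div, add_div]
  set Ain := (admA A B q).filter (fun a => c a ∈ Set.Ioc u v) with hAin
  -- the integral as a sum of lengths
  have hint : (∫ x in Set.Ioc u v, bump γ ψ A B q x) =
      wConst B q * ∑ a ∈ admA A B q, volume.real (Set.Ioc u v ∩ arc γ ψ q a) := by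
    simp only [bump_eq]
    rw [integral_const_mul,
      integral_finsetSum _ fun a _ => (integrable_indicator_arc γ ψ q a).integrableOn]
    congr 1
    refine sum_congr rfl fun a _ => ?_
    rw [setIntegral_indicator (measurableSet_arc γ ψ q a), setIntegral_const, smul_eq_mul, mul_one]
  -- the boundary
  set S := ∑ a ∈ admA A B q, volume.real (Set.Ioc u v ∩ arc γ ψ q a) with hS
  have hloc : ∀ a, |volume.real (Set.Ioc u v ∩ arc γ ψ q a) -
      (if c a ∈ Set.Ioc u v then L0 else 0)| ≤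
      (if u ∈ arc γ ψ q a then L0 else 0) + (if v ∈ arc γ ψ q a then L0 else 0) := by
    intro a
    have hvol0 : (0 : ℝ) ≤ volume.real (Set.Ioc u v ∩ arc γ ψ q a) := measureReal_nonneg
    have hvolL : volume.real (Set.Ioc u v ∩ arc γ ψ q a) ≤ L0 :=
      (measureReal_mono Set.inter_subset_right measure_Ioo_lt_top.ne).trans
        (measureReal_arc γ q a hψ).le
    by_cases hb : u ∈ arc γ ψ q a ∨ v ∈ arc γ ψ q a
    · have h1 : |volume.real (Set.Ioc u v ∩ arc γ ψ q a) -
          (if c a ∈ Set.Ioc u v then L0 else 0)| ≤ L0 := by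
        split_ifs <;> rw [abs_le] <;> constructor <;> linarith
      refine h1.trans ?_
      rcases hb with hb | hb <;> simp only [hb, if_true] <;> split_ifs <;> linarith
    · simp only [not_or] at hb
      simp only [hb.1, hb.2, if_false, add_zero]
      have hb' := hb
      simp only [harc, Set.mem_Ioo, not_and_or, not_lt] at hb'
      by_cases hca : c a ∈ Set.Ioc u v
      · have hsub : arc γ ψ q a ⊆ Set.Ioc u v := by
          rw [harc]
          intro x hx
          rcases hb'.1 with h | h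
          · rcases hb'.2 with h' | h'
            · exact ⟨by linarith [hx.1], by linarith [hx.2, hca.2, hx.1]⟩
            · exact ⟨by linarith [hx.1], by linarith [hx.2]⟩
          · linarith [hx.1, hx.2, hca.1]
        rw [if_pos hca, Set.inter_eq_right.2 hsub, measureReal_arc γ q a hψ, sub_self, abs_zero]
      · have hdis : Set.Ioc u v ∩ arc γ ψ q a = ∅ := by
          refine Set.eq_empty_of_forall_notMem fun x ⟨hx, hxa⟩ => hca ?_
          rw [harc] at hxa
          rcases hb'.1 with h | h <;> rcases hb'.2 with h' | h' <;>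
            exact ⟨by linarith [hx.1, hx.2, hxa.1, hxa.2], by linarith [hx.1, hx.2, hxa.1, hxa.2]⟩
        rw [if_neg hca, hdis]
        simp
  have honce : ∀ x, ∑ a ∈ admA A B q, (if x ∈ arc γ ψ q a then L0 else 0) ≤ L0 := by
    intro x
    rw [← sum_filter, sum_const, nsmul_eq_mul]
    have h1 : ((admA A B q).filter (fun a => x ∈ arc γ ψ q a)).card ≤ 1 := by
      refine card_le_one.2 fun a ha b hb => ?_
      obtain ⟨a1, a2⟩ := (mem_filter.1 ha).2
      obtain ⟨b1, b2⟩ := (mem_filter.1 hb).2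
      rw [div_lt_iff₀ hqR] at a1 b1
      rw [lt_div_iff₀ hqR] at a2 b2
      have e1 : (a : ℝ) < b + 1 := by linarith
      have e2 : (b : ℝ) < a + 1 := by linarith
      norm_cast at e1 e2
      omega
    exact (mul_le_mul_of_nonneg_right (by exact_mod_cast h1) hL0n).trans (le_of_eq (one_mul _))
  have hSin : |S - L0 * Ain.card| ≤ 2 * L0 := by
    have e : L0 * (Ain.card : ℝ) = ∑ a ∈ admA A B q, (if c a ∈ Set.Ioc u v then L0 else 0) := by
      rw [← sum_filter, sum_const, nsmul_eq_mul, mul_comm]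
    rw [e, hS, ← sum_sub_distrib]
    refine (abs_sum_le_sum_abs _ _).trans ((sum_le_sum fun a _ => hloc a).trans ?_)
    rw [sum_add_distrib]
    linarith [honce u, honce v]
  -- the count of the centres
  set P := delPrimes B q with hP
  have hPp : ∀ p ∈ P, p.Prime := fun p hp => Nat.prime_of_mem_primeFactors (mem_filter.1 hp).1
  have hcount := abs_le.1 (sifted_count P hPp (fun _ => A) (fun _ => (B : ℤ))
    (fun p hp h => (mem_filter.1 hp).2 (Int.natCast_dvd_natCast.1 h))
    ((q : ℝ) * u - γ) ((q : ℝ) * v - γ) (by nlinarith))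
  set N := (Finset.Ioc ⌊(q : ℝ) * u - γ⌋ ⌊(q : ℝ) * v - γ⌋).filter
    (fun a : ℤ => ∀ p ∈ P, ¬ (p : ℤ) ∣ a * (B : ℤ) + A) with hN
  have hmem : ∀ a : ℕ, c a ∈ Set.Ioc u v ↔
      (a : ℤ) ∈ Finset.Ioc ⌊(q : ℝ) * u - γ⌋ ⌊(q : ℝ) * v - γ⌋ := by
    intro a
    simp only [hc, Set.mem_Ioc, mem_Ioc, lt_div_iff₀ hqR, div_le_iff₀ hqR, Int.floor_lt,
      Int.le_floor]
    push_cast
    constructor <;> rintro ⟨h1, h2⟩ <;> constructor <;> linarith
  have hsub : Ain.image (fun a : ℕ => (a : ℤ)) ⊆ N := by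
    intro z hz
    obtain ⟨a, ha, rfl⟩ := mem_image.1 hz
    obtain ⟨ha1, ha2⟩ := mem_filter.1 ha
    exact mem_filter.2 ⟨(hmem a).1 ha2, (mem_filter.1 ha1).2⟩
  have hsup : N ⊆ insert (q : ℤ) (Ain.image (fun a : ℕ => (a : ℤ))) := by
    intro z hz
    obtain ⟨hz1, hz2⟩ := mem_filter.1 hz
    obtain ⟨hzl, hzr⟩ := mem_Ioc.1 hz1
    rw [Int.floor_lt] at hzl
    rw [Int.le_floor] at hzr
    have hz0 : 0 ≤ z := by
      have : (-1 : ℝ) < z := by nlinarith
      have : (-1 : ℤ) < z := by exact_mod_cast this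
      omega
    have hzq : z ≤ q := by
      have : (z : ℝ) ≤ q := by nlinarith
      exact_mod_cast this
    lift z to ℕ using hz0
    rcases (Int.ofNat_le.1 hzq).lt_or_eq with h | h
    · refine mem_insert_of_mem (mem_image.2 ⟨z, mem_filter.2 ⟨mem_filter.2 ⟨mem_range.2 h, hz2⟩,
        (hmem z).2 hz1⟩, rfl⟩)
    · simp [h]
  have hc1 : (Ain.card : ℝ) ≤ N.card := by
    have := card_le_card hsub
    rw [card_image_of_injective _ Nat.cast_injective] at this
    exact_mod_cast this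
  have hc2 : (N.card : ℝ) ≤ Ain.card + 1 := by
    have := (card_le_card hsup).trans (card_insert_le _ _)
    rw [card_image_of_injective _ Nat.cast_injective] at this
    exact_mod_cast this
  -- the main term
  set pr := ∏ p ∈ P, (1 - 1 / (p : ℝ)) with hpr
  have hmain : 2 * wt ψ q = wConst B q * L0 * (q * pr) := by
    have e : wConst B q * pr = (Nat.totient q : ℝ) / q := by
      rw [hpr, hP, delPrimes, wConst, prod_filter_mul_prod_filter_not, totient_eq_prod]
      field_simp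
    rw [wt, ← e, hL0]
    field_simp
  have hω : (2 : ℝ) ^ P.card ≤ 2 ^ q.primeFactors.card :=
    pow_le_pow_right₀ one_le_two (card_le_card (filter_subset _ _))
  have hone : (1 : ℝ) ≤ 2 ^ q.primeFactors.card := one_le_pow₀ one_le_two
  have hwn := (wConst_pos B q).le
  have hwL : 0 ≤ wConst B q * L0 := mul_nonneg hwn hL0n
  rw [hint, hmain]
  have e2 : 8 * wt ψ q * ((2 : ℝ) ^ q.primeFactors.card / Nat.totient q) =
      L0 * (4 * 2 ^ q.primeFactors.card) := by
    rw [wt, hL0]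
    field_simp
    ring
  rw [e2]
  have hd : |(Ain.card : ℝ) - (v - u) * q * pr| ≤ 2 ^ P.card + 1 := by
    rw [abs_le]
    rw [show (q : ℝ) * v - γ - ((q : ℝ) * u - γ) = (v - u) * q by ring] at hcount
    constructor <;> linarith [hcount.1, hcount.2]
  calc |wConst B q * S - wConst B q * L0 * (q * pr) * (v - u)| =
      wConst B q * |(S - L0 * Ain.card) + L0 * ((Ain.card : ℝ) - (v - u) * q * pr)| := by
        rw [← abs_of_nonneg hwn, ← abs_mul, abs_of_nonneg hwn]
        congr 1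
        ring
    _ ≤ 1 * (2 * L0 + L0 * (2 ^ P.card + 1)) := by
        refine mul_le_mul (wConst_le_one B q) ((abs_add_le _ _).trans (add_le_add hSin ?_))
          (abs_nonneg _) zero_le_one
        rw [abs_mul, abs_of_nonneg hL0n]
        exact mul_le_mul_of_nonneg_left hd hL0n
    _ ≤ _ := by nlinarith

/-- Overlap of two bumps with a common approximation. -/
theorem integral_bump_mul_bump_le (γ : ℝ) (ψ : ℕ → ℝ) (A : ℤ) (B q r : ℕ) (hq : 0 < q)
    (hr : 0 < r) (hψq : 0 < ψ q) (hψr : 0 < ψ r) (hψq2 : ψ q ≤ 1 / 2) (hψr2 : ψ r ≤ 1 / 2)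
    (hAB : IsCoprime A (B : ℤ)) :
    ∫ x, bump γ ψ A B q x * bump γ ψ A B r x ≤
      2 * (wt ψ q * wt ψ r) / dist2 ψ q r *
        ∑ n ∈ admSet γ ψ A B q r, pFac B q r * wFac A B q r n := by
  have hD := dist2_pos (ψ := ψ) hr hψq (q := q)
  have hg : (0 : ℝ) < Nat.gcd q r := by exact_mod_cast Nat.gcd_pos_of_pos_left r hq
  have hne : qd q r * qd r q ≠ 0 := (mul_pos (qd_pos hq) (qd_pos hr)).ne'
  set T := pairPrimes q r with hT
  set τ := (Nat.totient q : ℝ) / q * ((Nat.totient r : ℝ) / r) with hτ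
  have hrat : ∀ s : Finset ℕ, (∀ p ∈ s, p.Prime) → 0 ≤ ∏ p ∈ s, ratio p := fun s hs =>
    prod_nonneg fun p hp => by
      have : (2 : ℝ) ≤ p := by exact_mod_cast (hs p hp).two_le
      exact div_nonneg (by linarith) (by linarith)
  have hkey : ∀ n ∈ nearSet γ ψ q r, wConst B q * wConst B r * (coinSet A B A B q r n).card ≤
      if n ∈ admSet γ ψ A B q r then
        (Nat.gcd q r : ℝ) * τ * (pFac B q r * wFac A B q r n) else 0 := by
    intro n hn
    rcases (coinSet A B A B q r n).eq_empty_or_nonempty with he | ⟨⟨a0, b0⟩, h0⟩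
    · rw [he]
      simp only [card_empty, Nat.cast_zero, mul_zero]
      split_ifs
      · refine mul_nonneg (mul_nonneg hg.le ?_) (mul_nonneg ?_ ?_)
        · positivity
        · exact hrat _ fun p hp => Nat.prime_of_mem_primeFactors (mem_filter.1 hp).1
        · exact hrat _ fun p hp => Nat.prime_of_mem_primeFactors (mem_filter.1 hp).1
      · exact le_rfl
    obtain ⟨hab, heq⟩ := mem_filter.1 h0
    simp only at heq
    obtain ⟨ha, hb⟩ := mem_product.1 hab
    have hadm : n ∈ admSet γ ψ A B q r := by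
      refine mem_filter.2 ⟨hn, fun p hp hpB hd => ?_⟩
      rw [zform_eq (a0 : ℤ) (b0 : ℤ) heq] at hd
      have hpp := Nat.prime_of_mem_primeFactors hp
      have hpi := Nat.prime_iff_prime_int.1 hpp
      rcases (hpp.dvd_mul).1 (Nat.dvd_of_mem_primeFactors hp) with h | h
      · have h1 : (p : ℤ) ∣ (qd q r : ℤ) * ((b0 : ℤ) * B + A) :=
          (Int.natCast_dvd_natCast.2 h).mul_right _
        rcases hpi.dvd_or_dvd ((Int.dvd_iff_dvd_of_dvd_sub hd).2 h1) with h2 | h2
        · exact not_dvd_both hpp hq h (Int.natCast_dvd_natCast.1 h2)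
        · refine (mem_filter.1 ha).2 p (mem_filter.2 ⟨mem_primeFactors_of hq hpp ?_, hpB⟩) h2
          exact (h.mul_left _).trans (gcd_mul_qd q r).dvd
      · have h1 : (p : ℤ) ∣ (qd r q : ℤ) * ((a0 : ℤ) * B + A) :=
          (Int.natCast_dvd_natCast.2 h).mul_right _
        rcases hpi.dvd_or_dvd ((Int.dvd_iff_dvd_of_dvd_sub hd).1 h1) with h2 | h2
        · exact not_dvd_both hpp hq (Int.natCast_dvd_natCast.1 h2) h
        · refine (mem_filter.1 hb).2 p (mem_filter.2 ⟨mem_primeFactors_of hr hpp ?_, hpB⟩) h2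
          exact (h.mul_left _).trans (gcd_mul_qd' q r).dvd
    rw [if_pos hadm]
    refine (coinSet_card_le hq hr h0 T fun p hp => prime_of_mem_pairPrimes hp).trans ?_
    rw [mul_assoc]
    refine mul_le_mul_of_nonneg_left ?_ hg.le
    refine (prod_le_prod (fun p hp => ?_) fun p hp => lineAvg_le hq heq (prime_of_mem_pairPrimes hp)
      ?_).trans (le_of_eq ?_)
    · exact div_nonneg (sum_nonneg fun _ _ => mul_nonneg
        (lw_nonneg _ _ _ (prime_of_mem_pairPrimes hp) _)
        (lw_nonneg _ _ _ (prime_of_mem_pairPrimes hp) _)) (Nat.cast_nonneg p)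
    · rcases mem_union.1 hp with h | h
      · exact Or.inl (Nat.dvd_of_mem_primeFactors h)
      · exact Or.inr (Nat.dvd_of_mem_primeFactors h)
    · rw [prod_mul_distrib, prod_lwAvg_pairPrimes hq hr, ← hτ]
      congr 1
      rw [prod_mul_distrib]
      congr 1
      · rw [← prod_filter, pFac]
        refine prod_congr ?_ fun _ _ => rfl
        ext p
        simp only [mem_filter, pairPrimes, mem_union, Nat.mem_primeFactors]
        constructor
        · rintro ⟨h1, h2, h3⟩
          exact ⟨⟨h1.elim (·.1) (·.1), h2, hne⟩, h3⟩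
        · rintro ⟨⟨h1, h2, -⟩, h3⟩
          refine ⟨?_, h2, h3⟩
          rcases h1.dvd_mul.1 h2 with h | h
          · exact Or.inl ⟨h1, (h.mul_left _).trans (gcd_mul_qd q r).dvd, hq.ne'⟩
          · exact Or.inr ⟨h1, (h.mul_left _).trans (gcd_mul_qd' q r).dvd, hr.ne'⟩
      · rw [← prod_filter, wFac]
        refine prod_congr ?_ fun _ _ => rfl
        ext p
        simp only [mem_filter, pairPrimes, mem_union, Nat.mem_primeFactors]
        constructor
        · rintro ⟨h1, h2, h3⟩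
          exact ⟨⟨h1.elim (·.1) (·.1), h2, (Nat.gcd_pos_of_pos_left r hq).ne'⟩, h3⟩
        · rintro ⟨⟨h1, h2, -⟩, h3⟩
          exact ⟨Or.inl ⟨h1, h2.trans (Nat.gcd_dvd_left q r), hq.ne'⟩, h2, h3⟩
  refine (integral_bump_mul_le_coin A B A B hq hr hψq hψr).trans ?_
  refine (mul_le_mul_of_nonneg_left (sum_le_sum hkey) (by positivity)).trans (le_of_eq ?_)
  rw [← sum_filter]
  have e : (nearSet γ ψ q r).filter (fun n => n ∈ admSet γ ψ A B q r) = admSet γ ψ A B q r := by
    ext n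
    simp only [mem_filter, admSet]
    tauto
  rw [e, ← mul_sum, ← mul_assoc]
  congr 1
  rw [hτ, wt, wt]
  field_simp

/-- Far pairs are quasi-independent, whatever the two approximations are. -/
theorem exists_integral_bump_mul_far_le :
    ∃ C : ℝ, ∀ (γ : ℝ) (ψ : ℕ → ℝ) (A A' : ℤ) (B B' q r : ℕ) (L : ℝ),
      0 < q → 0 < r → 0 < ψ q → 0 < ψ r → ψ q ≤ 1 / 2 → ψ r ≤ 1 / 2 →
      IsCoprime A (B : ℤ) → IsCoprime A' (B' : ℤ) → 1 ≤ L →
      (q : ℝ) ≤ Real.exp (2 * L) → (r : ℝ) ≤ Real.exp (2 * L) →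
      ∀ ell : ℝ, L ≤ ell ^ 2 → 1 ≤ ell → Real.exp (Real.sqrt ell) ≤ dist2 ψ q r →
      ∫ x, bump γ ψ A B q x * bump γ ψ A' B' r x ≤ C * (wt ψ q * wt ψ r) := by
  obtain ⟨Cp, hCp⟩ := exists_sum_inv_prime_le
  set E := max (Cp * (32 : ℕ)) 0 + 32768 + 8 with hE
  refine ⟨16 * Real.exp (4 * E), ?_⟩
  intro γ ψ A A' B B' q r L hq hr hψq hψr _ _ _ _ hL hqL hrL ell hLell hell hDfar
  have hg : (0 : ℝ) < Nat.gcd q r := by exact_mod_cast Nat.gcd_pos_of_pos_left r hq
  have hD1 : 1 ≤ dist2 ψ q r := le_trans (Real.one_le_exp (Real.sqrt_nonneg _)) hDfar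
  set y := ⌊Real.sqrt ell / 4⌋₊ with hy
  set T := pairPrimes q r with hT
  set Ts := T.filter (fun p => p ≤ y) with hTs
  set Tl := T.filter (fun p => ¬ p ≤ y) with hTl
  have hTp : ∀ p ∈ T, p.Prime := fun p hp => prime_of_mem_pairPrimes hp
  have hTsp : ∀ p ∈ Ts, p.Prime := fun p hp => hTp p (mem_filter.1 hp).1
  have hTlp : ∀ p ∈ Tl, p.Prime := fun p hp => hTp p (mem_filter.1 hp).1
  -- the reciprocal sum of the large primes
  have hcard : (T.card : ℝ) ≤ 8 * L := by
    have h1 : (T.card : ℝ) ≤ q.primeFactors.card + r.primeFactors.card := by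
      exact_mod_cast card_union_le _ _
    linarith [card_primeFactors_le hq hqL, card_primeFactors_le hr hrL]
  have hrec : ∑ p ∈ Tl, 1 / (p : ℝ) ≤ E := by
    have hinv : ∀ p ∈ Tl, 1 / (p : ℝ) ≤ 1 := fun p hp => by
      rw [div_le_one (by exact_mod_cast (hTlp p hp).pos)]
      exact_mod_cast (hTlp p hp).one_le
    have hTlc : (Tl.card : ℝ) ≤ 8 * L :=
      le_trans (by exact_mod_cast card_le_card (filter_subset _ _)) hcard
    have hmax : 0 ≤ max (Cp * (32 : ℕ)) 0 := le_max_right _ _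
    have hsq : Real.sqrt ell / 4 < y + 1 := Nat.lt_floor_add_one _
    have hell4 : ell ≤ 16 * ((y : ℝ) + 1) ^ 2 := by
      have h := Real.sq_sqrt (by linarith : (0 : ℝ) ≤ ell)
      nlinarith [Real.sqrt_nonneg ell]
    rcases Nat.lt_or_ge y 2 with hy2 | hy2
    · have hy1 : (y : ℝ) ≤ 1 := by exact_mod_cast Nat.lt_succ_iff.1 hy2
      have he64 : ell ≤ 64 := by nlinarith
      have hL' : L ≤ 4096 := by nlinarith
      calc ∑ p ∈ Tl, 1 / (p : ℝ) ≤ ∑ _p ∈ Tl, (1 : ℝ) := sum_le_sum hinv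
        _ = Tl.card := by simp
        _ ≤ E := by linarith
    · have hy2' : (2 : ℝ) ≤ y := by exact_mod_cast hy2
      have hLy : L ≤ (y : ℝ) ^ 32 := by
        have a1 : 4 * ((y : ℝ) + 1) ≤ (y : ℝ) ^ 4 := by nlinarith [sq_nonneg ((y : ℝ) - 2)]
        calc L ≤ ell ^ 2 := hLell
          _ ≤ (16 * ((y : ℝ) + 1) ^ 2) ^ 2 := by gcongr
          _ = (4 * ((y : ℝ) + 1)) ^ 4 := by ring
          _ ≤ ((y : ℝ) ^ 4) ^ 4 := by gcongr
          _ = (y : ℝ) ^ 16 := by ring
          _ ≤ (y : ℝ) ^ 32 := pow_le_pow_right₀ (by linarith) (by norm_num)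
      rw [← sum_filter_add_sum_filter_not Tl (fun p => p ≤ y ^ 32)]
      have p1 : ∑ p ∈ Tl.filter (fun p => p ≤ y ^ 32), 1 / (p : ℝ) ≤ max (Cp * (32 : ℕ)) 0 := by
        refine le_trans ?_ ((hCp y 32 hy2 (by norm_num)).trans (le_max_left _ _))
        refine sum_le_sum_of_subset_of_nonneg (fun p hp => ?_) fun _ _ _ => by positivity
        obtain ⟨h1, h2⟩ := mem_filter.1 hp
        exact mem_filter.2 ⟨mem_Ioc.2 ⟨not_le.1 (mem_filter.1 h1).2, h2⟩, hTlp p h1⟩
      have p2 : ∑ p ∈ Tl.filter (fun p => ¬ p ≤ y ^ 32), 1 / (p : ℝ) ≤ 8 := by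
        calc _ ≤ ∑ _p ∈ Tl.filter (fun p => ¬ p ≤ y ^ 32), 1 / L := sum_le_sum fun p hp => by
              have h2 : y ^ 32 < p := not_le.1 (mem_filter.1 hp).2
              have h3 : (y : ℝ) ^ 32 ≤ p := by exact_mod_cast h2.le
              exact one_div_le_one_div_of_le (by linarith) (hLy.trans h3)
          _ = (Tl.filter (fun p => ¬ p ≤ y ^ 32)).card * (1 / L) := by
              rw [sum_const, nsmul_eq_mul]
          _ ≤ 8 * L * (1 / L) := by
              refine mul_le_mul_of_nonneg_right (le_trans ?_ hTlc) (by positivity)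
              exact_mod_cast card_le_card (filter_subset _ _)
          _ = 8 := by field_simp
      exact (add_le_add p1 p2).trans (by linarith)
  -- the small primes
  set u := ⌊-(γ * mdiff q r) - 2 * dist2 ψ q r⌋ with hu
  set v := ⌈-(γ * mdiff q r) + 2 * dist2 ψ q r⌉ with hv
  set f : ℤ → ℝ := fun n => ∏ p ∈ Ts, nFac A B A' B' q r p (n % (p : ℤ)).toNat with hf
  have hf0 : ∀ n, 0 ≤ f n := fun n => prod_nonneg fun p hp => nFac_nonneg _ _ _ _ q r (hTsp p hp) _
  have hkey : ∀ n, wConst B q * wConst B' r * (coinSet A B A' B' q r n).card ≤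
      (Nat.gcd q r : ℝ) * f n := by
    intro n
    rcases (coinSet A B A' B' q r n).eq_empty_or_nonempty with he | ⟨⟨a0, b0⟩, h0⟩
    · rw [he]
      simp only [card_empty, Nat.cast_zero, mul_zero]
      exact mul_nonneg hg.le (hf0 n)
    refine (coinSet_card_le hq hr h0 Ts hTsp).trans (mul_le_mul_of_nonneg_left
      (prod_le_prod (fun p hp => ?_) fun p hp =>
        lineAvg_le_nFac A B A' B' hq (mem_filter.1 h0).2 (hTsp p hp)) hg.le)
    exact div_nonneg (sum_nonneg fun _ _ => mul_nonneg (lw_nonneg _ _ _ (hTsp p hp) _)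
      (lw_nonneg _ _ _ (hTsp p hp) _)) (Nat.cast_nonneg p)
  set τs := ∏ p ∈ Ts, lwAvg q p * lwAvg r p with hτs
  set τ := (Nat.totient q : ℝ) / q * ((Nat.totient r : ℝ) / r) with hτ
  have hτs0 : 0 ≤ τs := prod_nonneg fun p hp =>
    (mul_pos (lwAvg_pos q (hTsp p hp)) (lwAvg_pos r (hTsp p hp))).le
  have hτle : τs ≤ Real.exp (4 * E) * τ := by
    have e : τ = τs * ∏ p ∈ Tl, lwAvg q p * lwAvg r p := by
      rw [hτ, ← prod_lwAvg_pairPrimes hq hr, hτs, hTs, hTl, prod_filter_mul_prod_filter_not]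
    have h1 := inv_prod_lwAvg_le (q := q) (r := r) Tl hTlp
    have h2 : Real.exp (4 * ∑ p ∈ Tl, 1 / (p : ℝ)) ≤ Real.exp (4 * E) :=
      Real.exp_le_exp.2 (by linarith)
    have h3 : 0 ≤ ∏ p ∈ Tl, lwAvg q p * lwAvg r p := prod_nonneg fun p hp =>
      (mul_pos (lwAvg_pos q (hTlp p hp)) (lwAvg_pos r (hTlp p hp))).le
    have h4 : 1 ≤ Real.exp (4 * E) * ∏ p ∈ Tl, lwAvg q p * lwAvg r p :=
      h1.trans (mul_le_mul_of_nonneg_right h2 h3)
    calc τs ≤ τs * (Real.exp (4 * E) * ∏ p ∈ Tl, lwAvg q p * lwAvg r p) :=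
          le_mul_of_one_le_right hτs0 h4
      _ = _ := by rw [e]; ring
  have hPsmall : ∏ p ∈ Ts, (p : ℝ) ≤ dist2 ψ q r := by
    refine le_trans ?_ hDfar
    have h1 : ∏ p ∈ Ts, p ≤ 4 ^ y :=
      le_trans (prod_le_prod_of_subset_of_one_le
        (fun p hp => mem_filter.2 ⟨mem_range.2 (Nat.lt_succ_iff.2 (mem_filter.1 hp).2), hTsp p hp⟩)
        (fun _ _ => Nat.zero_le _) fun p hp _ => (mem_filter.1 hp).2.one_le)
        (primorial_le_four_pow y)
    have h2 : ∏ p ∈ Ts, (p : ℝ) ≤ (4 : ℝ) ^ y := by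
      have h := (Nat.cast_le (α := ℝ)).2 h1
      push_cast at h
      exact h
    refine h2.trans ?_
    have h3 : (4 : ℝ) ≤ Real.exp 4 := by linarith [Real.add_one_le_exp (4 : ℝ)]
    calc (4 : ℝ) ^ y ≤ Real.exp 4 ^ y := by gcongr
      _ = Real.exp ((y : ℝ) * 4) := (Real.exp_nat_mul 4 y).symm
      _ ≤ _ := Real.exp_le_exp.2 (by
          have := Nat.floor_le (div_nonneg (Real.sqrt_nonneg ell) (by norm_num : (0 : ℝ) ≤ 4))
          rw [← hy] at this
          linarith)
  have hsum : ∑ n ∈ nearSet γ ψ q r, f n ≤ 8 * dist2 ψ q r * τs := by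
    refine (sum_le_sum_of_subset_of_nonneg (filter_subset _ _) fun n _ _ => hf0 n).trans ?_
    refine (sum_Icc_prod_mod_le Ts hTsp (fun p i => if p.Prime then nFac A B A' B' q r p i else 0)
      (fun p i => by split_ifs with h <;> [exact nFac_nonneg _ _ _ _ q r h i; exact le_rfl])
      u v |> le_trans (le_of_eq (sum_congr rfl fun n _ => prod_congr rfl fun p hp => by
        rw [if_pos (hTsp p hp)]))).trans ?_
    refine mul_le_mul ?_ (le_of_eq ?_) ?_ (by linarith)
    · have h1 := Int.sub_one_lt_floor (-(γ * mdiff q r) - 2 * dist2 ψ q r)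
      have h2 := Int.ceil_lt_add_one (-(γ * mdiff q r) + 2 * dist2 ψ q r)
      rw [← hu] at h1
      rw [← hv] at h2
      have : max ((v : ℝ) - u + 1) 0 ≤ 7 * dist2 ψ q r := max_le (by linarith) (by linarith)
      linarith
    · refine prod_congr rfl fun p hp => ?_
      have hp0 : (p : ℝ) ≠ 0 := by exact_mod_cast (hTsp p hp).ne_zero
      simp only [if_pos (hTsp p hp), sum_nFac A B A' B' q r (hTsp p hp)]
      field_simp
    · refine prod_nonneg fun p hp => div_nonneg (sum_nonneg fun i _ => ?_) (Nat.cast_nonneg p)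
      simp only [if_pos (hTsp p hp)]
      exact nFac_nonneg _ _ _ _ q r (hTsp p hp) i
  refine (integral_bump_mul_le_coin A B A' B' hq hr hψq hψr).trans ?_
  have hDpos : 0 < dist2 ψ q r := by linarith
  calc 2 * (ψ q * ψ r / (Nat.gcd q r * dist2 ψ q r)) *
        ∑ n ∈ nearSet γ ψ q r, wConst B q * wConst B' r * (coinSet A B A' B' q r n).card ≤
      2 * (ψ q * ψ r / (Nat.gcd q r * dist2 ψ q r)) *
        ((Nat.gcd q r : ℝ) * (8 * dist2 ψ q r * (Real.exp (4 * E) * τ))) := by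
        refine mul_le_mul_of_nonneg_left ((sum_le_sum fun n _ => hkey n).trans ?_) (by positivity)
        rw [← mul_sum]
        exact mul_le_mul_of_nonneg_left (hsum.trans
          (mul_le_mul_of_nonneg_left hτle (by positivity))) hg.le
    _ = _ := by
        rw [hτ, wt, wt]
        field_simp
        ring

end Vale.Agent.P028
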