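import Vale.Agent.P028.SameWindow

/-!
From the second moment bound in a window to full measure.

Blocks of total weight `≍ 1` with bounded second moment, whose bumps are equidistributed on
intervals, force the complement of the limsup set to be null.  The moduli are split into the windows
`2 ^ n ≤ log q < 2 ^ (n + 1)`; only one class of `n` modulo `4` is kept, so that two moduli in
different windows are far apart.
-/

noncomputable section

namespace Vale.Agent.P028

open Finset MeasureTheory Filter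

/-- The set `W_γ(ψ)`. -/
def approxSet (γ : ℝ) (ψ : ℕ → ℝ) : Set ℝ :=
  {x | {q : ℕ | 0 < q ∧ ∃ a : ℤ, |(q : ℝ) * x - a - γ| < ψ q}.Infinite}

theorem approxSet_mono {γ : ℝ} {ψ ψ' : ℕ → ℝ} (h : ∀ q, ψ q ≤ ψ' q) :
    approxSet γ ψ ⊆ approxSet γ ψ' := fun x hx => by
  refine Set.Infinite.mono ?_ hx
  exact fun q ⟨hq, a, ha⟩ => ⟨hq, a, ha.trans_le (h q)⟩

theorem approxSet_sub_int (γ : ℝ) (ψ : ℕ → ℝ) (k : ℤ) :
    approxSet (γ - k) ψ = approxSet γ ψ := by
  have key : ∀ (γ : ℝ) (k : ℤ) (x : ℝ) (q : ℕ),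
      (∃ a : ℤ, |(q : ℝ) * x - a - γ| < ψ q) → ∃ a : ℤ, |(q : ℝ) * x - a - (γ - k)| < ψ q := by
    rintro γ k x q ⟨a, ha⟩
    refine ⟨a + k, ?_⟩
    push_cast
    ring_nf at ha ⊢
    exact ha
  ext x
  simp only [approxSet, Set.mem_ofPred_eq]
  refine Iff.of_eq (congrArg Set.Infinite (Set.ext fun q => ?_))
  constructor
  · rintro ⟨hq, h⟩
    have := key (γ - k) (-k) x q h
    exact ⟨hq, by simpa using this⟩
  · rintro ⟨hq, h⟩
    exact ⟨hq, key γ k x q h⟩

theorem main_bump_nonneg (γ : ℝ) (ψ : ℕ → ℝ) (A : ℤ) (B q : ℕ) (x : ℝ) : 0 ≤ bump γ ψ A B q x := by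
  refine mul_nonneg (Finset.prod_nonneg fun p hp => ?_) (Finset.sum_nonneg fun a _ => ?_)
  · have h1 : (1 : ℝ) ≤ (p : ℝ) := by
      have := (Nat.prime_of_mem_primeFactors (Finset.mem_filter.1 hp).1).one_le
      exact_mod_cast this
    rw [sub_nonneg]
    exact (div_le_one (by linarith)).2 h1
  · exact Set.indicator_nonneg (fun _ _ => zero_le_one) x

theorem main_bump_eq_zero {γ : ℝ} {ψ : ℕ → ℝ} {A : ℤ} {B q : ℕ} {x : ℝ} (hq : 0 < q)
    (h : ∀ a : ℤ, ψ q ≤ |(q : ℝ) * x - a - γ|) : bump γ ψ A B q x = 0 := by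
  rw [bump, Finset.sum_eq_zero, mul_zero]
  intro a _
  refine Set.indicator_of_notMem (fun hx => ?_) _
  have hq' : (0 : ℝ) < q := Nat.cast_pos.2 hq
  obtain ⟨h1, h2⟩ := hx
  rw [div_lt_iff₀ hq'] at h1
  rw [lt_div_iff₀ hq'] at h2
  refine (not_lt.2 (h a)) (abs_lt.2 ?_)
  push_cast
  constructor <;> linarith

theorem main_integrable_bump (γ : ℝ) (ψ : ℕ → ℝ) (A : ℤ) (B q : ℕ) :
    Integrable (bump γ ψ A B q) := by
  refine (integrable_finsetSum _ fun a _ => ?_).const_mul (wConst B q)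
  refine (integrable_indicator_iff measurableSet_Ioo).2 ?_
  exact integrableOn_const (hs := (measure_Ioo_lt_top).ne)

theorem main_integrable_bump_mul_bump (γ : ℝ) (ψ : ℕ → ℝ) (A A' : ℤ) (B B' q r : ℕ) :
    Integrable (fun x => bump γ ψ A B q x * bump γ ψ A' B' r x) := by
  refine Integrable.bdd_mul (c := |wConst B q| * (admA A B q).card)
    (main_integrable_bump γ ψ A' B' r) (main_integrable_bump γ ψ A B q).1
    (ae_of_all _ fun x => ?_)
  rw [Real.norm_eq_abs, bump, abs_mul]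
  refine mul_le_mul_of_nonneg_left ?_ (abs_nonneg _)
  refine (Finset.abs_sum_le_sum_abs _ _).trans ?_
  refine (Finset.sum_le_card_nsmul _ _ 1 fun a _ => ?_).trans (by simp)
  rw [Set.indicator_apply]
  split <;> simp

/-- The block criterion for full measure. -/
theorem null_compl_of_blocks (γ : ℝ) (ψ : ℕ → ℝ) (C : ℝ) (hγ : 0 ≤ γ) (hγ1 : γ < 1)
    (Aq : ℕ → ℤ) (Bq : ℕ → ℕ) (hco : ∀ q, IsCoprime (Aq q) ((Bq q : ℕ) : ℤ))
    (hψ : ∀ q, 0 ≤ ψ q) (hψ2 : ∀ q, ψ q ≤ 1 / 2)
    (hblocks : ∀ Q : ℕ, ∃ S : Finset ℕ, (∀ q ∈ S, Q ≤ q ∧ 0 < q) ∧ 1 ≤ mass ψ S ∧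
      mass ψ S ≤ 2 ∧
      ∑ q ∈ S, ∑ r ∈ S, ∫ x, bump γ ψ (Aq q) (Bq q) q x * bump γ ψ (Aq r) (Bq r) r x ≤ C) :
    volume (approxSet γ ψ)ᶜ = 0 := by
  let Z : ℕ → Set ℝ := fun Q =>
    Set.Ioc (0 : ℝ) 1 ∩ ⋂ q ∈ {q : ℕ | Q ≤ q ∧ 0 < q}, ⋂ a : ℤ,
      {x : ℝ | ψ q ≤ |(q : ℝ) * x - a - γ|}
  have hZm : ∀ Q, MeasurableSet (Z Q) := fun Q => measurableSet_Ioc.inter
    (MeasurableSet.iInter fun q => MeasurableSet.iInter fun _ => MeasurableSet.iInter fun a =>
      measurableSet_le measurable_const (by fun_prop))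
  suffices hnull : ∀ Q, volume (Z Q) = 0 by
    refine measure_mono_null (t := ⋃ k : ℤ, (fun x : ℝ => x + (k : ℝ)) ⁻¹' ⋃ Q, Z Q) ?_ ?_
    · intro x hx
      simp only [approxSet, Set.mem_compl_iff, Set.mem_ofPred_eq, Set.not_infinite] at hx
      obtain ⟨Q, hQ⟩ := hx.bddAbove
      refine Set.mem_iUnion.2 ⟨1 - ⌈x⌉, Set.mem_iUnion.2 ⟨Q + 1, ⟨?_, ?_⟩, ?_⟩⟩
      · have := Int.ceil_lt_add_one x
        push_cast
        linarith
      · have := Int.le_ceil x
        push_cast
        linarith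
      · simp only [Set.mem_iInter, Set.mem_ofPred_eq]
        rintro q ⟨hq, hq0⟩ a
        by_contra hlt
        have hmem := hQ (a := q) ⟨hq0, a - q * (1 - ⌈x⌉), ?_⟩
        · omega
        · push_cast at hlt ⊢
          rw [not_le] at hlt
          ring_nf at hlt ⊢
          exact hlt
    · refine measure_iUnion_null fun k => ?_
      rw [measure_preimage_add_right]
      exact measure_iUnion_null hnull
  intro Q
  have hfin : volume (Z Q) ≠ ⊤ :=
    ne_top_of_le_ne_top (measure_Ioc_lt_top (a := (0 : ℝ)) (b := 1)).ne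
      (measure_mono Set.inter_subset_left)
  by_contra hne
  obtain ⟨v, hv, hvZ⟩ : ∃ v : ℝ, 0 < v ∧ volume (Z Q) = ENNReal.ofReal v :=
    ⟨(volume (Z Q)).toReal, ENNReal.toReal_pos hne hfin, (ENNReal.ofReal_toReal hfin).symm⟩
  -- parameters
  set t : ℝ := (|C| + 1) / v with ht
  have htpos : 0 < t := div_pos (by positivity) hv
  obtain ⟨δ, hδ, hδt, hδv⟩ : ∃ δ : ℝ, 0 < δ ∧ δ * t ≤ v / 4 ∧ δ ≤ v / 4 :=
    ⟨min (v / 4 / t) (v / 4), lt_min (by positivity) (by positivity),
      (le_div_iff₀ htpos).1 (min_le_left _ _), min_le_right _ _⟩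
  have hδ0 : ENNReal.ofReal δ ≠ 0 := (ENNReal.ofReal_pos.2 hδ).ne'
  obtain ⟨O, hZO, hO, -, hOZ⟩ := (hZm Q).exists_isOpen_sdiff_lt hfin hδ0
  obtain ⟨K, hKZ, hK, hZK⟩ := (hZm Q).exists_isCompact_sdiff_lt hfin hδ0
  obtain ⟨η, hη, hKO⟩ := hK.exists_thickening_subset_open hO (hKZ.trans hZO)
  obtain ⟨n, hn⟩ := exists_nat_gt (1 / η)
  have hn0 : (0 : ℝ) < n := lt_trans (by positivity) hn
  have hn' : (1 : ℝ) / n < η := by
    rw [div_lt_iff₀ hn0]
    rw [div_lt_iff₀ hη] at hn
    linarith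
  classical
  let I : ℕ → Set ℝ := fun i => Set.Ioc ((i : ℝ) / n) (((i : ℝ) + 1) / n)
  let T : Finset ℕ := (Finset.range n).filter fun i => (I i ∩ K).Nonempty
  let U : Set ℝ := ⋃ i ∈ T, I i
  have hUO : U ⊆ O := by
    intro y hy
    obtain ⟨i, hi, hyi⟩ := Set.mem_iUnion₂.1 hy
    obtain ⟨x, ⟨hx1, hx2⟩, hxK⟩ := (Finset.mem_filter.1 hi).2
    refine hKO (Metric.mem_thickening_iff.2 ⟨x, hxK, ?_⟩)
    rw [Real.dist_eq, abs_lt]
    rw [add_div] at hx2
    obtain ⟨hy1, hy2⟩ := hyi
    rw [add_div] at hy2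
    constructor <;> linarith
  have hKU : K ⊆ U := by
    intro x hx
    obtain ⟨hx0, hx1⟩ := (hKZ hx).1
    have h0 : 0 < ⌈(n : ℝ) * x⌉₊ := Nat.ceil_pos.2 (by positivity)
    obtain ⟨i, hi⟩ : ∃ i, ⌈(n : ℝ) * x⌉₊ = i + 1 := ⟨_, (Nat.succ_pred_eq_of_pos h0).symm⟩
    have hle : ⌈(n : ℝ) * x⌉₊ ≤ n := Nat.ceil_le.2 (by nlinarith)
    have hxi : x ∈ I i := by
      have h1 := Nat.ceil_lt_add_one (show 0 ≤ (n : ℝ) * x by positivity)
      have h2 := Nat.le_ceil ((n : ℝ) * x)
      rw [hi] at h1 h2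
      push_cast at h1 h2
      refine ⟨?_, ?_⟩
      · rw [div_lt_iff₀ hn0]; linarith
      · rw [le_div_iff₀ hn0]; linarith
    exact Set.mem_iUnion₂.2 ⟨i, Finset.mem_filter.2 ⟨Finset.mem_range.2 (by omega), x, hxi, hx⟩,
      hxi⟩
  have hcard : v - δ ≤ (T.card : ℝ) / n := by
    have h1 : volume (Z Q) ≤ ENNReal.ofReal ((T.card : ℝ) / n) + ENNReal.ofReal δ := by
      refine (measure_le_inter_add_sdiff volume (Z Q) K).trans (add_le_add ?_ hZK.le)
      refine (measure_mono (Set.inter_subset_right.trans hKU)).trans ?_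
      refine (measure_biUnion_finset_le T I).trans (le_of_eq ?_)
      have hI : ∀ i ∈ T, volume (I i) = ENNReal.ofReal (1 / n) := fun i _ => by
        rw [Real.volume_Ioc, ← sub_div, add_sub_cancel_left]
      rw [Finset.sum_congr rfl hI, Finset.sum_const, nsmul_eq_mul, ← ENNReal.ofReal_natCast,
        ← ENNReal.ofReal_mul (Nat.cast_nonneg _), mul_one_div]
    rw [hvZ, ← ENNReal.ofReal_add (by positivity) hδ.le,
      ENNReal.ofReal_le_ofReal_iff (by positivity)] at h1
    linarith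
  obtain ⟨q0, hq0⟩ := exists_two_pow_omega_le (δ / (16 * n)) (by positivity)
  obtain ⟨S, hS, hS1, hS2, hSC⟩ := hblocks (max Q q0)
  let N : ℝ → ℝ := fun x => ∑ q ∈ S, bump γ ψ (Aq q) (Bq q) q x
  have hNi : Integrable N := integrable_finsetSum _ fun q _ => main_integrable_bump _ _ _ _ _
  have hsq : (fun x => N x * N x) =
      fun x => ∑ q ∈ S, ∑ r ∈ S,
        bump γ ψ (Aq q) (Bq q) q x * bump γ ψ (Aq r) (Bq r) r x :=
    funext fun x => Finset.sum_mul_sum _ _ _ _
  have hN2i : Integrable (fun x => N x * N x) := by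
    rw [hsq]
    exact integrable_finsetSum _ fun q _ => integrable_finsetSum _ fun r _ =>
      main_integrable_bump_mul_bump _ _ _ _ _ _ _ _
  have hN2 : ∫ x, N x * N x ≤ C := by
    rw [hsq, integral_finsetSum _ fun q _ => integrable_finsetSum _ fun r _ =>
      main_integrable_bump_mul_bump _ _ _ _ _ _ _ _]
    refine le_of_eq_of_le (Finset.sum_congr rfl fun q _ => ?_) hSC
    exact integral_finsetSum _ fun r _ => main_integrable_bump_mul_bump _ _ _ _ _ _ _ _
  have hUm : MeasurableSet U := T.measurableSet_biUnion fun i _ => measurableSet_Ioc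
  -- upper bound
  have hup : ∫ x in U, N x ≤ t / 2 * δ + |C| / (2 * t) := by
    have hOZm : MeasurableSet (O \ Z Q) := hO.measurableSet.diff (hZm Q)
    have hind : Integrable ((O \ Z Q).indicator fun _ : ℝ => t / 2) :=
      (integrable_indicator_iff hOZm).2
        (integrableOn_const (hs := ne_top_of_lt hOZ))
    calc ∫ x in U, N x = ∫ x, U.indicator N x := (integral_indicator hUm).symm
      _ ≤ ∫ x, ((O \ Z Q).indicator (fun _ => t / 2) x + N x * N x / (2 * t)) := by
          refine integral_mono (hNi.indicator hUm) (hind.add (hN2i.div_const _)) fun x => ?_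
          have hsqx : 0 ≤ N x * N x / (2 * t) := div_nonneg (mul_self_nonneg _) (by positivity)
          have hindx : 0 ≤ (O \ Z Q).indicator (fun _ : ℝ => t / 2) x :=
            Set.indicator_nonneg (fun _ _ => by positivity) x
          by_cases hxU : x ∈ U
          · rw [Set.indicator_of_mem hxU]
            by_cases hxZ : x ∈ Z Q
            · have : N x = 0 := by
                refine Finset.sum_eq_zero fun q hq => main_bump_eq_zero (hS q hq).2 fun a => ?_
                have := hxZ.2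
                simp only [Set.mem_iInter, Set.mem_ofPred_eq] at this
                exact this q ⟨(le_max_left _ _).trans (hS q hq).1, (hS q hq).2⟩ a
              rw [this] at hsqx ⊢
              linarith
            · rw [Set.indicator_of_mem (show x ∈ O \ Z Q from ⟨hUO hxU, hxZ⟩)]
              rw [← sub_nonneg,
                show t / 2 + N x * N x / (2 * t) - N x = (t - N x) ^ 2 / (2 * t) by
                  field_simp; ring]
              positivity
          · rw [Set.indicator_of_notMem hxU]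
            linarith
      _ ≤ t / 2 * δ + |C| / (2 * t) := by
          rw [integral_add hind (hN2i.div_const _), integral_div, integral_indicator hOZm,
            setIntegral_const, smul_eq_mul, mul_comm]
          refine add_le_add (mul_le_mul_of_nonneg_left ?_ (by positivity))
            (div_le_div_of_nonneg_right (hN2.trans (le_abs_self C)) (by positivity))
          exact ENNReal.toReal_le_of_le_ofReal hδ.le hOZ.le
  -- lower bound
  have hlow : 2 * ((T.card : ℝ) / n) - δ ≤ ∫ x in U, N x := by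
    have hdisj : Set.PairwiseDisjoint (T : Set ℕ) I := by
      intro i _ j _ hij
      refine Set.disjoint_left.2 fun x hxi hxj => hij ?_
      obtain ⟨a1, a2⟩ := hxi
      obtain ⟨b1, b2⟩ := hxj
      rw [div_lt_iff₀ hn0] at a1 b1
      rw [le_div_iff₀ hn0] at a2 b2
      have e1 : (i : ℝ) < ((j + 1 : ℕ) : ℝ) := by push_cast; linarith
      have e2 : (j : ℝ) < ((i + 1 : ℕ) : ℝ) := by push_cast; linarith
      rw [Nat.cast_lt] at e1 e2
      omega
    rw [integral_biUnion_finset T (fun i _ => measurableSet_Ioc) hdisj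
      fun i _ => hNi.integrableOn]
    have hone : ∀ i ∈ T, 2 * (1 / (n : ℝ)) - δ / n ≤ ∫ x in I i, N x := by
      intro i hi
      have hin : i + 1 ≤ n := Finset.mem_range.1 (Finset.mem_filter.1 hi).1
      have hterm : ∀ q ∈ S,
          (2 * (1 / (n : ℝ)) - 8 * (δ / (16 * n))) * wt ψ q ≤
            ∫ x in I i, bump γ ψ (Aq q) (Bq q) q x := by
        intro q hq
        have hwt : 0 ≤ wt ψ q := mul_nonneg (by positivity) (hψ q)
        have hE := integral_bump_Ioc γ ψ (Aq q) (Bq q) q (hS q hq).2 (hψ q) (hψ2 q) (hco q) hγ hγ1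
          ((i : ℝ) / n) (((i : ℝ) + 1) / n) (by positivity)
          (by gcongr; linarith) ((div_le_one hn0).2 (by exact_mod_cast hin))
        rw [← sub_div, add_sub_cancel_left, abs_le] at hE
        have hom := hq0 q ((le_max_right _ _).trans (hS q hq).1)
        rw [← div_le_iff₀ (Nat.cast_pos.2 (Nat.totient_pos.2 (hS q hq).2))] at hom
        have := mul_le_mul_of_nonneg_left hom (show 0 ≤ 8 * wt ψ q by positivity)
        linarith [hE.1]
      calc 2 * (1 / (n : ℝ)) - δ / n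
          ≤ (2 * (1 / (n : ℝ)) - 8 * (δ / (16 * n))) * mass ψ S := by
            have e : 8 * (δ / (16 * (n : ℝ))) = δ / n / 2 := by field_simp; ring
            rw [e]
            have h2n : 0 ≤ 2 * (1 / (n : ℝ)) := by positivity
            have hdn : 0 ≤ δ / (n : ℝ) := by positivity
            nlinarith
        _ ≤ ∑ q ∈ S, ∫ x in I i, bump γ ψ (Aq q) (Bq q) q x := by
            rw [mass, Finset.mul_sum]
            exact Finset.sum_le_sum hterm
        _ = ∫ x in I i, N x :=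
            (integral_finsetSum _ fun q _ => (main_integrable_bump _ _ _ _ _).integrableOn).symm
    refine le_trans ?_ (Finset.sum_le_sum hone)
    have hTn : (T.card : ℝ) ≤ n := by
      have := Finset.card_filter_le (Finset.range n) fun i => (I i ∩ K).Nonempty
      rw [Finset.card_range] at this
      exact_mod_cast this
    rw [Finset.sum_const, nsmul_eq_mul, mul_sub]
    have : (T.card : ℝ) * (δ / n) ≤ δ := by
      rw [← mul_div_assoc, div_le_iff₀ hn0]
      nlinarith
    have e : (T.card : ℝ) * (2 * (1 / (n : ℝ))) = 2 * ((T.card : ℝ) / n) := by ring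
    linarith
  have hC : |C| / (2 * t) ≤ v / 2 := by
    rw [ht, div_le_iff₀ (by positivity)]
    field_simp
    linarith [abs_nonneg C]
  linarith

/-- The window of a modulus. -/
def windowIdx (q : ℕ) : ℕ := Nat.log 2 ⌊Real.log q⌋₊

theorem windowIdx_spec {q : ℕ} (h : 1 ≤ Real.log q) :
    (2 : ℝ) ^ windowIdx q ≤ Real.log q ∧ Real.log q < 2 * (2 : ℝ) ^ windowIdx q := by
  have h1 : 1 ≤ ⌊Real.log q⌋₊ := Nat.le_floor (by exact_mod_cast h)
  refine ⟨le_trans ?_ (Nat.floor_le (by linarith)), lt_of_lt_of_le (Nat.lt_floor_add_one _) ?_⟩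
  · exact_mod_cast Nat.pow_log_le_self 2 (show ⌊Real.log q⌋₊ ≠ 0 by omega)
  · have := Nat.lt_pow_succ_log_self (show 1 < 2 by norm_num) ⌊Real.log q⌋₊
    rw [pow_succ'] at this
    exact_mod_cast this

/-- A Dirichlet approximation in lowest terms at scale `exp e`. -/
theorem exists_dirichlet (γ e : ℝ) :
    ∃ (A : ℤ) (B : ℕ), 0 < B ∧ IsCoprime A (B : ℤ) ∧
      (0 ≤ e → (B : ℝ) ≤ Real.exp e ∧ |(B : ℝ) * γ - A| ≤ Real.exp (-e)) := by
  obtain ⟨r, hr, hden⟩ :=
    Real.exists_rat_abs_sub_le_and_den_le γ (n := max 1 ⌊Real.exp e⌋₊) (by positivity)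
  refine ⟨r.num, r.den, r.den_pos, Rat.isCoprime_num_den r, fun he => ?_⟩
  have h1 : 1 ≤ ⌊Real.exp e⌋₊ := Nat.le_floor (by simpa using Real.one_le_exp he)
  rw [max_eq_right h1] at hr hden
  have hd : (0 : ℝ) < r.den := Nat.cast_pos.2 r.den_pos
  refine ⟨(Nat.cast_le.2 hden).trans (Nat.floor_le (Real.exp_pos e).le), ?_⟩
  have hx : (r.den : ℝ) * γ - r.num = r.den * (γ - r) := by
    rw [Rat.cast_def r]
    field_simp
  rw [hx, abs_mul, abs_of_pos hd, Real.exp_neg]
  have := mul_le_mul_of_nonneg_left hr hd.le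
  refine le_trans this ?_
  rw [← one_div, ← div_div, mul_div_assoc', mul_div_cancel_left₀ _ hd.ne']
  exact one_div_le_one_div_of_le (Real.exp_pos e) (Nat.lt_floor_add_one _).le

/-- Consecutive moduli of total weight between `1` and `2`. -/
theorem exists_block (ψ : ℕ → ℝ) (hψ : ∀ q, 0 ≤ ψ q) (hψ2 : ∀ q, ψ q ≤ 1 / 2)
    (hdiv : ¬ Summable (wt ψ)) (Q : ℕ) :
    ∃ S : Finset ℕ, (∀ q ∈ S, Q ≤ q ∧ 0 < q ∧ ψ q ≠ 0) ∧ 1 ≤ mass ψ S ∧ mass ψ S ≤ 2 := by
  classical
  have hnn : ∀ q, 0 ≤ wt ψ q := fun q => mul_nonneg (by positivity) (hψ q)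
  have hle : ∀ q, wt ψ q ≤ 1 / 2 := fun q => by
    refine (mul_le_of_le_one_left (hψ q) ?_).trans (hψ2 q)
    exact div_le_one_of_le₀ (Nat.cast_le.2 (Nat.totient_le q)) (Nat.cast_nonneg q)
  have hex : ∃ M, 1 ≤ ∑ q ∈ Finset.Ico (Q + 1) M, wt ψ q := by
    by_contra hno
    push Not at hno
    refine hdiv (summable_of_sum_range_le hnn (c := ∑ q ∈ Finset.range (Q + 1), wt ψ q + 1)
      fun M => ?_)
    refine le_trans ?_ (add_le_add le_rfl (hno M).le)
    rw [← Finset.sum_union]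
    · refine Finset.sum_le_sum_of_subset_of_nonneg (fun q hq => ?_) fun q _ _ => hnn q
      simp only [Finset.mem_union, Finset.mem_range, Finset.mem_Ico] at hq ⊢
      omega
    · refine Finset.disjoint_left.2 fun q hq hq' => ?_
      simp only [Finset.mem_range, Finset.mem_Ico] at hq hq'
      omega
  refine ⟨(Finset.Ico (Q + 1) (Nat.find hex)).filter (fun q => ψ q ≠ 0), fun q hq => ?_, ?_⟩
  · obtain ⟨hq1, hq2⟩ := Finset.mem_filter.1 hq
    rw [Finset.mem_Ico] at hq1
    exact ⟨by omega, by omega, hq2⟩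
  have hmass : mass ψ ((Finset.Ico (Q + 1) (Nat.find hex)).filter (fun q => ψ q ≠ 0)) =
      ∑ q ∈ Finset.Ico (Q + 1) (Nat.find hex), wt ψ q :=
    Finset.sum_filter_of_ne fun q _ h hz => h (by rw [wt, hz, mul_zero])
  rw [hmass]
  refine ⟨Nat.find_spec hex, ?_⟩
  have hM : Q + 1 < Nat.find hex := by
    by_contra h
    have h1 := Nat.find_spec hex
    rw [Finset.Ico_eq_empty_of_le (by omega), Finset.sum_empty] at h1
    linarith
  obtain ⟨M, hM'⟩ : ∃ M, Nat.find hex = M + 1 := ⟨Nat.find hex - 1, by omega⟩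
  have hlt := Nat.find_min hex (show M < Nat.find hex by omega)
  rw [hM', Finset.sum_Ico_succ_top (by omega)]
  linarith [hle M, not_le.1 hlt]

/-- `q / r ≤ q'`. -/
theorem main_div_le_qd (q r : ℕ) (hr : 0 < r) : (q : ℝ) / r ≤ (qd q r : ℝ) := by
  have hg : 0 < Nat.gcd q r := Nat.gcd_pos_of_pos_right q hr
  rw [qd, Nat.cast_div (Nat.gcd_dvd_left q r) (Nat.cast_ne_zero.2 hg.ne')]
  exact div_le_div_of_nonneg_left (Nat.cast_nonneg q) (Nat.cast_pos.2 hg)
    (Nat.cast_le.2 (Nat.le_of_dvd hr (Nat.gcd_dvd_right q r)))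

/-- Moduli in different windows of one class are far apart. -/
theorem le_dist2_of_window_lt {ψ : ℕ → ℝ} {q r : ℕ} (hq : 4 ≤ Real.log q) (hr : 1 ≤ Real.log r)
    (hψr : 1 / (r : ℝ) ^ 3 ≤ ψ r) (h : windowIdx r + 4 ≤ windowIdx q) :
    Real.exp (Real.sqrt (Real.log q)) ≤ dist2 ψ q r ∧ Real.log r ≤ Real.log q := by
  have hr0 : (0 : ℝ) < r := by
    rcases Nat.eq_zero_or_pos r with h0 | h0
    · subst h0; norm_num at hr
    · exact Nat.cast_pos.2 h0
  have hq0 : (0 : ℝ) < q := by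
    rcases Nat.eq_zero_or_pos q with h0 | h0
    · subst h0; norm_num at hq
    · exact Nat.cast_pos.2 h0
  have hpow : (16 : ℝ) * 2 ^ windowIdx r ≤ 2 ^ windowIdx q := by
    have := pow_le_pow_right₀ (show (1 : ℝ) ≤ 2 by norm_num) h
    rw [pow_add] at this
    linarith
  have h1 := (windowIdx_spec hr).2
  have h2 := (windowIdx_spec (show 1 ≤ Real.log q by linarith)).1
  have h8 : 8 * Real.log r ≤ Real.log q := by linarith
  refine ⟨?_, by linarith⟩
  calc Real.exp (Real.sqrt (Real.log q)) ≤ Real.exp (Real.log q - 4 * Real.log r) := by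
        refine Real.exp_le_exp.2 (le_trans ?_ (show Real.log q / 2 ≤ _ by linarith))
        rw [Real.sqrt_le_iff]
        constructor <;> nlinarith
    _ = (q : ℝ) / (r : ℝ) ^ 4 := by
        rw [Real.exp_sub, Real.exp_log hq0,
          show (4 : ℝ) * Real.log r = Real.log ((r : ℝ) ^ 4) by rw [Real.log_pow]; norm_num,
          Real.exp_log (pow_pos hr0 4)]
    _ = 1 / (r : ℝ) ^ 3 * ((q : ℝ) / r) := by field_simp
    _ ≤ ψ r * (qd q r : ℝ) :=
        mul_le_mul hψr (main_div_le_qd q r (Nat.cast_pos.1 hr0)) (by positivity)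
          (le_trans (by positivity) hψr)
    _ ≤ dist2 ψ q r := le_max_right _ _

/-- The weak inhomogeneous Duffin-Schaeffer statement for `ψ(q) ≤ exp (-K log q / log log q)`. -/
theorem exists_weakDS :
    ∃ K : ℝ, 0 < K ∧ ∀ (γ : ℝ) (ψ : ℕ → ℝ), (∀ q, 0 ≤ ψ q) →
      (∀ᶠ q : ℕ in atTop, ψ q ≤ Real.exp (-(K * Real.log q / Real.log (Real.log q)))) →
      ¬ Summable (fun q : ℕ => (Nat.totient q : ℝ) / q * ψ q) →
      volume (approxSet γ ψ)ᶜ = 0 := by
  obtain ⟨Cd, L0, hCd, hdiv⟩ := exists_divisors_card_le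
  obtain ⟨Cs, ell0, hsame⟩ := exists_sameWindow_le
  obtain ⟨Cf, hfar⟩ := exists_integral_bump_mul_far_le
  have hnu : 0 < nuC := by norm_num [nuC]
  set K : ℝ := 8 * Cd / nuC + 1 with hK
  have hK1 : 1 ≤ K := by have : 0 ≤ 8 * Cd / nuC := by positivity
                         linarith
  refine ⟨K, by linarith, ?_⟩
  suffices key : ∀ (γ : ℝ) (ψ : ℕ → ℝ), 0 ≤ γ → γ < 1 → (∀ q, 0 ≤ ψ q) →
      (∀ᶠ q : ℕ in atTop, ψ q ≤ Real.exp (-(K * Real.log q / Real.log (Real.log q)))) →
      ¬ Summable (fun q : ℕ => (Nat.totient q : ℝ) / q * ψ q) →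
      volume (approxSet γ ψ)ᶜ = 0 by
    intro γ ψ h0 h1 h2
    rw [← approxSet_sub_int γ ψ ⌊γ⌋]
    exact key _ ψ (by linarith [Int.floor_le γ]) (by linarith [Int.lt_floor_add_one γ]) h0 h1 h2
  intro γ ψ hγ hγ1 hψ hev hns
  -- the threshold
  have hlim : Tendsto (fun L : ℝ => L / Real.log (2 * L)) atTop atTop := by
    have h1 : (fun L : ℝ => Real.log (2 * L)) =o[atTop] fun L => L := by
      have := Real.isLittleO_log_id_atTop.comp_tendsto
        (tendsto_id.const_mul_atTop (show (0 : ℝ) < 2 by norm_num))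
      exact this.trans_isBigO ((Asymptotics.isBigO_refl id atTop).const_mul_left 2)
    have h2 := h1.tendsto_div_nhds_zero
    have h3 : ∀ᶠ L : ℝ in atTop, 0 < Real.log (2 * L) / L := by
      filter_upwards [eventually_ge_atTop 1] with L hL
      exact div_pos (Real.log_pos (by linarith)) (by linarith)
    have h4 := Tendsto.inv_tendsto_nhdsGT_zero
      (tendsto_nhdsWithin_iff.2 ⟨h2, h3⟩)
    refine h4.congr fun L => ?_
    simp [inv_div]
  let ellOf : ℝ → ℝ := fun L => K * (L / Real.log (2 * L))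
  have hgood : ∀ᶠ L : ℝ in atTop,
      3 ≤ L ∧ L0 ≤ 8 * L ∧ ell0 ≤ ellOf L ∧ 1 ≤ ellOf L ∧ L ≤ ellOf L ^ 2 := by
    have hsqrt : ∀ᶠ L : ℝ in atTop, Real.log (2 * L) ≤ Real.sqrt L := by
      have h1 := ((isLittleO_log_rpow_atTop (show (0 : ℝ) < 1 / 2 by norm_num)).def
        (show (0 : ℝ) < 1 / 2 by norm_num))
      have h2 := (tendsto_id.const_mul_atTop (show (0 : ℝ) < 2 by norm_num)).eventually h1
      filter_upwards [h2, eventually_ge_atTop 1] with L hL hL1
      simp only [id, Real.norm_eq_abs, ← Real.sqrt_eq_rpow,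
        abs_of_nonneg (Real.sqrt_nonneg _)] at hL
      refine (le_abs_self _).trans (hL.trans ?_)
      rw [Real.sqrt_mul (by norm_num : (0 : ℝ) ≤ 2)]
      have h22 : Real.sqrt 2 ≤ 2 := by
        rw [Real.sqrt_le_iff]; norm_num
      nlinarith [Real.sqrt_nonneg L]
    filter_upwards [eventually_ge_atTop 3, eventually_ge_atTop (L0 / 8),
      (hlim.const_mul_atTop (show 0 < K by linarith)).eventually_ge_atTop (max ell0 1),
      hsqrt] with L h3 h0 hl hs
    refine ⟨h3, by linarith, (le_max_left _ _).trans hl, (le_max_right _ _).trans hl, ?_⟩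
    have hlog : 0 < Real.log (2 * L) := Real.log_pos (by linarith)
    have hkey : Real.sqrt L ≤ ellOf L := by
      refine le_trans ?_ (le_mul_of_one_le_left (by positivity) hK1)
      rw [le_div_iff₀ hlog]
      calc Real.sqrt L * Real.log (2 * L) ≤ Real.sqrt L * Real.sqrt L :=
            mul_le_mul_of_nonneg_left hs (Real.sqrt_nonneg _)
        _ = L := Real.mul_self_sqrt (by linarith)
    calc L = Real.sqrt L ^ 2 := (Real.sq_sqrt (by linarith)).symm
      _ ≤ ellOf L ^ 2 := pow_le_pow_left₀ (Real.sqrt_nonneg _) hkey 2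
  obtain ⟨L1, hL1⟩ := eventually_atTop.1 hgood
  obtain ⟨q1, hq1⟩ := eventually_atTop.1 hev
  obtain ⟨q2, hq2⟩ := eventually_atTop.1
    ((Real.tendsto_log_atTop.comp tendsto_natCast_atTop_atTop).eventually_ge_atTop
      (max (2 * L1) 4))
  set q0 := max (max q1 q2) 1 with hq0
  -- the four classes
  classical
  let ψc : ℕ → ℕ → ℝ := fun c q =>
    if q0 ≤ q ∧ 1 / (q : ℝ) ^ 3 ≤ ψ q ∧ windowIdx q % 4 = c then ψ q else 0
  have hψc : ∀ c q, 0 ≤ ψc c q ∧ ψc c q ≤ ψ q := by
    intro c q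
    simp only [ψc]
    split
    · exact ⟨hψ q, le_rfl⟩
    · exact ⟨le_rfl, hψ q⟩
  obtain ⟨c, hc⟩ : ∃ c, ¬ Summable (wt (ψc c)) := by
    by_contra hall
    push Not at hall
    refine hns (Summable.of_nonneg_of_le (fun q => mul_nonneg (by positivity) (hψ q))
      (f := fun q => (if q < q0 then wt ψ q else 0) + 1 / (q : ℝ) ^ 3 +
        ∑ c ∈ Finset.range 4, wt (ψc c) q) (fun q => ?_) ?_)
    · show wt ψ q ≤ _
      have hw : ∀ c, 0 ≤ wt (ψc c) q := fun c => mul_nonneg (by positivity) (hψc c q).1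
      have h3 : 0 ≤ 1 / (q : ℝ) ^ 3 := by positivity
      have hsum : 0 ≤ ∑ c ∈ Finset.range 4, wt (ψc c) q := Finset.sum_nonneg fun c _ => hw c
      by_cases hq : q < q0
      · rw [if_pos hq]; linarith
      rw [if_neg hq]
      by_cases hs : 1 / (q : ℝ) ^ 3 ≤ ψ q
      · have := Finset.single_le_sum (fun c _ => hw c)
          (Finset.mem_range.2 (Nat.mod_lt (windowIdx q) (show 4 > 0 by norm_num)))
        have e : ψc (windowIdx q % 4) q = ψ q := if_pos ⟨by omega, hs, rfl⟩
        rw [wt, e, ← wt] at this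
        linarith
      · have : wt ψ q ≤ ψ q := mul_le_of_le_one_left (hψ q)
          (div_le_one_of_le₀ (Nat.cast_le.2 (Nat.totient_le q)) (Nat.cast_nonneg q))
        rw [not_le] at hs
        linarith
    · refine ((?_ : Summable _).add (Real.summable_one_div_nat_pow.2 (by norm_num))).add
        (summable_sum fun c _ => hall c)
      exact summable_of_ne_finset_zero (s := Finset.range q0) fun q hq =>
        if_neg (by simpa using hq)
  set φ := ψc c with hφ
  -- facts on the support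
  have hsupp : ∀ q, φ q ≠ 0 → 0 < q ∧ windowIdx q % 4 = c ∧ 1 / (q : ℝ) ^ 3 ≤ φ q ∧
      4 ≤ Real.log q ∧ L1 ≤ (2 : ℝ) ^ windowIdx q ∧
      φ q ≤ Real.exp (-(ellOf ((2 : ℝ) ^ windowIdx q))) := by
    intro q hq
    simp only [hφ, ψc] at hq ⊢
    split at hq
    swap
    · exact absurd rfl hq
    rename_i hcond
    obtain ⟨hqq, h3, hcl⟩ := hcond
    rw [if_pos ⟨hqq, h3, hcl⟩]
    have hlog := hq2 q (le_trans (le_trans (le_max_right _ _) (le_max_left _ _)) hqq)
    simp only [Function.comp_apply, max_le_iff] at hlog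
    have hsp := windowIdx_spec (show 1 ≤ Real.log q by linarith)
    have hL : L1 ≤ (2 : ℝ) ^ windowIdx q := by linarith
    refine ⟨by omega, hcl, h3, hlog.2, hL, ?_⟩
    refine (hq1 q (le_trans (le_trans (le_max_left _ _) (le_max_left _ _)) hqq)).trans
      (Real.exp_le_exp.2 (neg_le_neg ?_))
    have hL3 := (hL1 _ hL).1
    rw [mul_div_assoc]
    refine mul_le_mul_of_nonneg_left ?_ (by linarith)
    exact div_le_div₀ (by linarith) hsp.1 (Real.log_pos (by linarith))
      (Real.log_le_log (by linarith) hsp.2.le)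
  have hφ2 : ∀ q, φ q ≤ 1 / 2 := by
    intro q
    by_cases hq : φ q = 0
    · rw [hq]; norm_num
    obtain ⟨-, -, -, -, hL, he⟩ := hsupp q hq
    refine he.trans (le_trans (Real.exp_le_exp.2 (neg_le_neg (hL1 _ hL).2.2.2.1)) ?_)
    rw [Real.exp_neg, ← one_div]
    exact one_div_le_one_div_of_le (by norm_num) (by linarith [Real.add_one_le_exp (1 : ℝ)])
  -- approximations
  choose A B hBpos hco happ using fun n : ℕ =>
    exists_dirichlet γ (etaC * ellOf ((2 : ℝ) ^ n))
  refine measure_mono_null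
    (Set.compl_subset_compl.2 (approxSet_mono fun q => (hψc c q).2)) ?_
  refine null_compl_of_blocks γ φ (max Cs 0 * 6 + max Cf 0 * 4) hγ hγ1
    (fun q => A (windowIdx q)) (fun q => B (windowIdx q)) (fun q => hco _)
    (fun q => (hψc c q).1) hφ2 fun Q => ?_
  obtain ⟨S, hS, hS1, hS2⟩ := exists_block φ (fun q => (hψc c q).1) hφ2 hc Q
  refine ⟨S, fun q hq => ⟨(hS q hq).1, (hS q hq).2.1⟩, hS1, hS2, ?_⟩
  set F : ℕ → ℕ → ℝ := fun q r => ∫ x,
    bump γ φ (A (windowIdx q)) (B (windowIdx q)) q x *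
      bump γ φ (A (windowIdx r)) (B (windowIdx r)) r x with hF
  have hw0 : ∀ q, 0 ≤ wt φ q := fun q => mul_nonneg (by positivity) (hψc c q).1
  have hF0 : ∀ q r, 0 ≤ F q r := fun q r =>
    integral_nonneg fun x => mul_nonneg (main_bump_nonneg _ _ _ _ _ _) (main_bump_nonneg _ _ _ _ _ _)
  -- distinct windows
  have hcross : ∀ q ∈ S, ∀ r ∈ S, windowIdx q ≠ windowIdx r →
      F q r ≤ max Cf 0 * (wt φ q * wt φ r) := by
    have hone : ∀ q ∈ S, ∀ r ∈ S, windowIdx r < windowIdx q →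
        F q r ≤ max Cf 0 * (wt φ q * wt φ r) := by
      intro q hq r hr hlt
      obtain ⟨hqp, hqc, hq3, hql, -, -⟩ := hsupp q (hS q hq).2.2
      obtain ⟨hrp, hrc, hr3, hrl, -, -⟩ := hsupp r (hS r hr).2.2
      obtain ⟨hD, hlr⟩ := le_dist2_of_window_lt (ψ := φ) hql (by linarith) hr3
        (by omega)
      have hexp : ∀ s : ℕ, 0 < s → Real.log s ≤ Real.log q →
          (s : ℝ) ≤ Real.exp (2 * Real.log q) := fun s hs hsl => by
        calc (s : ℝ) = Real.exp (Real.log s) := (Real.exp_log (Nat.cast_pos.2 hs)).symm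
          _ ≤ _ := Real.exp_le_exp.2 (by linarith)
      have hpos : ∀ s ∈ S, 0 < φ s := fun s hs =>
        lt_of_le_of_ne (hψc c s).1 (Ne.symm (hS s hs).2.2)
      refine (hfar γ φ (A (windowIdx q)) (A (windowIdx r)) (B (windowIdx q)) (B (windowIdx r))
        q r (Real.log q) hqp hrp (hpos q hq) (hpos r hr) (hφ2 q) (hφ2 r) (hco _) (hco _)
        (by linarith) (hexp q hqp le_rfl) (hexp r hrp hlr) (Real.log q) (by nlinarith)
        (by linarith) hD).trans ?_
      exact mul_le_mul_of_nonneg_right (le_max_left _ _) (mul_nonneg (hw0 q) (hw0 r))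
    intro q hq r hr hne
    rcases lt_or_gt_of_ne hne with h | h
    · have := hone r hr q hq h
      rw [mul_comm (wt φ r)] at this
      refine le_of_eq_of_le ?_ this
      simp only [hF]
      exact integral_congr_ae (ae_of_all _ fun x => mul_comm _ _)
    · exact hone q hq r hr h
  -- one window
  have hwin : ∀ n ∈ S.image windowIdx,
      ∑ q ∈ S.filter (fun q => windowIdx q = n), ∑ r ∈ S.filter (fun r => windowIdx r = n),
        F q r ≤ max Cs 0 * (3 * mass φ (S.filter fun q => windowIdx q = n)) := by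
    intro n hn
    obtain ⟨s, hs, rfl⟩ := Finset.mem_image.1 hn
    set n := windowIdx s with hndef
    set S' := S.filter (fun q => windowIdx q = n) with hS'
    obtain ⟨-, -, -, -, hLn, -⟩ := hsupp s (hS s hs).2.2
    obtain ⟨h3, hL0, hell0, hell1, hsq⟩ := hL1 _ hLn
    have hlog : 0 < Real.log (2 * (2 : ℝ) ^ n) := Real.log_pos (by linarith)
    have hW : Win φ S' γ (A n) (B n) (ellOf ((2 : ℝ) ^ n)) ((2 : ℝ) ^ n) := by
      have hq' : ∀ q ∈ S', 0 < φ q ∧ 0 < q ∧ (q : ℝ) ≤ Real.exp (2 * (2 : ℝ) ^ n) ∧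
          φ q ≤ Real.exp (-(ellOf ((2 : ℝ) ^ n))) := by
        intro q hq
        obtain ⟨hqS, hqn⟩ := Finset.mem_filter.1 hq
        obtain ⟨hqp, -, -, hql, -, he⟩ := hsupp q (hS q hqS).2.2
        refine ⟨lt_of_le_of_ne (hψc c q).1 (Ne.symm (hS q hqS).2.2), hqp, ?_, hqn ▸ he⟩
        rw [← Real.log_le_iff_le_exp (Nat.cast_pos.2 hqp), ← hqn]
        exact (windowIdx_spec (by linarith)).2.le
      have heta : 0 ≤ etaC * ellOf ((2 : ℝ) ^ n) :=
        mul_nonneg (by norm_num [etaC]) (by linarith)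
      refine ⟨by linarith, hsq, fun q hq => (hq' q hq).2.1, fun q hq => (hq' q hq).2.2.1,
        fun q hq => (hq' q hq).1, fun q hq => (hq' q hq).2.2.2, hBpos n, (happ n heta).1,
        (happ n heta).2, hco n, fun m hm hm8 => ?_⟩
      refine (hdiv (8 * (2 : ℝ) ^ n) hL0 m hm hm8).trans (Real.exp_le_exp.2 ?_)
      calc Cd * (8 * (2 : ℝ) ^ n) / Real.log (8 * (2 : ℝ) ^ n)
          ≤ Cd * (8 * (2 : ℝ) ^ n) / Real.log (2 * (2 : ℝ) ^ n) :=
            div_le_div_of_nonneg_left (by positivity) hlog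
              (Real.log_le_log (by linarith) (by linarith))
        _ = 8 * Cd * ((2 : ℝ) ^ n / Real.log (2 * (2 : ℝ) ^ n)) := by ring
        _ ≤ nuC * K * ((2 : ℝ) ^ n / Real.log (2 * (2 : ℝ) ^ n)) := by
            refine mul_le_mul_of_nonneg_right ?_ (div_nonneg (by positivity) hlog.le)
            rw [hK, mul_add, mul_div_cancel₀ _ hnu.ne']
            linarith
        _ = _ := mul_assoc _ _ _
    have hm0 : 0 ≤ mass φ S' := Finset.sum_nonneg fun q _ => hw0 q
    have hm2 : mass φ S' ≤ 2 :=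
      (Finset.sum_le_sum_of_subset_of_nonneg (Finset.filter_subset _ _)
        fun q _ _ => hw0 q).trans hS2
    calc ∑ q ∈ S', ∑ r ∈ S', F q r
        = ∑ q ∈ S', ∑ r ∈ S', ∫ x,
            bump γ φ (A n) (B n) q x * bump γ φ (A n) (B n) r x := by
          refine Finset.sum_congr rfl fun q hq => Finset.sum_congr rfl fun r hr => ?_
          simp only [hF]
          rw [(Finset.mem_filter.1 hq).2, (Finset.mem_filter.1 hr).2]
      _ ≤ Cs * (mass φ S' + mass φ S' ^ 2) := hsame φ S' γ _ _ _ _ hW hell0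
      _ ≤ max Cs 0 * (mass φ S' + mass φ S' ^ 2) :=
          mul_le_mul_of_nonneg_right (le_max_left _ _) (by positivity)
      _ ≤ max Cs 0 * (3 * mass φ S') :=
          mul_le_mul_of_nonneg_left (by nlinarith) (le_max_right _ _)
  calc ∑ q ∈ S, ∑ r ∈ S, F q r
      ≤ ∑ q ∈ S, (∑ r ∈ S.filter (fun r => windowIdx r = windowIdx q), F q r +
          ∑ r ∈ S, max Cf 0 * (wt φ q * wt φ r)) := by
        refine Finset.sum_le_sum fun q hq => ?_
        rw [← Finset.sum_filter_add_sum_filter_not S (fun r => windowIdx r = windowIdx q)]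
        refine add_le_add le_rfl (le_trans (Finset.sum_le_sum fun r hr => ?_)
          (Finset.sum_le_sum_of_subset_of_nonneg (Finset.filter_subset _ _) fun r _ _ =>
            mul_nonneg (le_max_right _ _) (mul_nonneg (hw0 q) (hw0 r))))
        obtain ⟨hrS, hne⟩ := Finset.mem_filter.1 hr
        exact hcross q hq r hrS (Ne.symm hne)
    _ = (∑ n ∈ S.image windowIdx, ∑ q ∈ S.filter (fun q => windowIdx q = n),
          ∑ r ∈ S.filter (fun r => windowIdx r = n), F q r) +
          max Cf 0 * (mass φ S * mass φ S) := by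
        rw [Finset.sum_add_distrib]
        congr 1
        · rw [← Finset.sum_fiberwise_of_maps_to (fun q hq => Finset.mem_image_of_mem windowIdx hq)
            (fun q => ∑ r ∈ S.filter (fun r => windowIdx r = windowIdx q), F q r)]
          refine Finset.sum_congr rfl fun n _ => Finset.sum_congr rfl fun q hq => ?_
          rw [(Finset.mem_filter.1 hq).2]
        · rw [mass, Finset.sum_mul_sum, Finset.mul_sum]
          exact Finset.sum_congr rfl fun q _ => (Finset.mul_sum _ _ _).symm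
    _ ≤ max Cs 0 * (3 * mass φ S) + max Cf 0 * (mass φ S * mass φ S) := by
        refine add_le_add ?_ le_rfl
        refine (Finset.sum_le_sum hwin).trans (le_of_eq ?_)
        rw [← Finset.mul_sum, ← Finset.mul_sum]
        congr 2
        exact Finset.sum_fiberwise_of_maps_to
          (fun q hq => Finset.mem_image_of_mem windowIdx hq) (wt φ)
    _ ≤ max Cs 0 * 6 + max Cf 0 * 4 := by
        refine add_le_add (mul_le_mul_of_nonneg_left (by linarith) (le_max_right _ _))
          (mul_le_mul_of_nonneg_left (by nlinarith) (le_max_right _ _))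

end Vale.Agent.P028
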