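import Vale.Agent.P028.Rec
import Vale.Agent.P028.BilinearAux

/-!
Pairs `(v, w)` whose reduced parts `q'`, `r'` are supported on a given set of primes `T`.

After splitting by the valuations at all primes of `T` such pairs form a matching, so the trivial
bounds `F v ≤ y`, `G w ≤ y` give the exponent `θ`.  At every prime the splitting factor is
`1 + O (p ^ (-e))` with `e = 1 - c / (1 - θ)`, unconditionally: either it is at most `1`, or both
distributions concentrate at a common valuation.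
-/

noncomputable section

namespace Vale.Agent.P028.Smooth

open Finset BilinearAux

/-! ### One prime -/

theorem sum_dist_ne_le {u : ℝ} (h0 : 0 ≤ u) (h1 : u < 1) (n i : ℕ) :
    ∑ j ∈ (Finset.range n).filter (fun j => j ≠ i), u ^ Nat.dist i j ≤ 2 * u / (1 - u) := by
  have hside : ∀ s : Finset ℕ, Set.InjOn (fun j => Nat.dist i j) (s : Set ℕ) →
      (∀ j ∈ s, j ≠ i) → ∑ j ∈ s, u ^ Nat.dist i j ≤ u / (1 - u) := by
    intro s hinj hs
    calc ∑ j ∈ s, u ^ Nat.dist i j = ∑ d ∈ s.image (fun j => Nat.dist i j), u ^ d :=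
          (Finset.sum_image hinj).symm
      _ ≤ ∑ d ∈ Finset.Ico 1 ((s.image (fun j => Nat.dist i j)).sup id + 1), u ^ d := by
          refine Finset.sum_le_sum_of_subset_of_nonneg (fun d hd => ?_) fun d _ _ => pow_nonneg h0 _
          obtain ⟨j, hj, rfl⟩ := Finset.mem_image.1 hd
          refine Finset.mem_Ico.2 ⟨?_, Nat.lt_succ_of_le (Finset.le_sup (f := id) hd)⟩
          have := hs j hj
          simp only [Nat.dist]
          omega
      _ ≤ u ^ 1 / (1 - u) := geom_sum_Ico_le_of_lt_one h0 h1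
      _ = u / (1 - u) := by rw [pow_one]
  rw [← Finset.sum_filter_add_sum_filter_not ((Finset.range n).filter fun j => j ≠ i)
    (fun j => j < i), mul_div_assoc, two_mul]
  refine add_le_add (hside _ ?_ ?_) (hside _ ?_ ?_)
  · intro a ha b hb hab
    simp only [Finset.coe_filter, Set.mem_ofPred_eq, Finset.mem_filter] at ha hb
    simp only [Nat.dist] at hab
    omega
  · intro j hj
    exact (Finset.mem_filter.1 (Finset.mem_filter.1 hj).1).2
  · intro a ha b hb hab
    simp only [Finset.coe_filter, Set.mem_ofPred_eq, Finset.mem_filter] at ha hb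
    simp only [Nat.dist] at hab
    omega
  · intro j hj
    exact (Finset.mem_filter.1 (Finset.mem_filter.1 hj).1).2

/-- The weighted double sum when both distributions are concentrated at `k`. -/
theorem concentrated_le {θ u H : ℝ} (hθ : 1 / 2 ≤ θ) (hu0 : 0 ≤ u)
    (hu1 : u < 1) (n k : ℕ) (hk : k < n) (a b : ℕ → ℝ) (ha : ∀ i, 0 ≤ a i) (hb : ∀ i, 0 ≤ b i)
    (hsa : ∑ i ∈ Finset.range n, a i = 1) (hsb : ∑ i ∈ Finset.range n, b i = 1)
    (hka : 1 - a k ≤ H) (hkb : 1 - b k ≤ H) (hH : 0 ≤ H) :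
    ∑ i ∈ Finset.range n, ∑ j ∈ Finset.range n, (a i * b j) ^ θ * u ^ Nat.dist i j ≤
      1 + 2 * (2 * u / (1 - u)) * H ^ θ + (1 + 2 * u / (1 - u)) * H ^ (2 * θ) := by
  have hθ0 : 0 < θ := by linarith
  set s := Finset.range n with hs
  set N : ℝ := 2 * u / (1 - u) with hN
  set t := s.filter (fun j => j ≠ k) with ht
  have hks : k ∈ s := Finset.mem_range.2 hk
  have hak : a k ≤ 1 := hsa ▸ Finset.single_le_sum (fun i _ => ha i) hks
  have hbk : b k ≤ 1 := hsb ▸ Finset.single_le_sum (fun i _ => hb i) hks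
  have hsplit : ∀ f : ℕ → ℝ, ∑ i ∈ s, f i = f k + ∑ i ∈ t, f i := by
    intro f
    rw [ht, Finset.filter_ne', Finset.add_sum_erase _ f hks]
  have hta : ∑ i ∈ t, a i ≤ H := by have := hsplit a; linarith
  have htb : ∑ i ∈ t, b i ≤ H := by have := hsplit b; linarith
  have hai : ∀ i ∈ t, a i ≤ H := fun i hi =>
    (Finset.single_le_sum (fun j _ => ha j) hi).trans hta
  have hbi : ∀ i ∈ t, b i ≤ H := fun i hi =>
    (Finset.single_le_sum (fun j _ => hb j) hi).trans htb
  have hrowk : ∑ j ∈ t, u ^ Nat.dist k j ≤ N := sum_dist_ne_le hu0 hu1 n k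
  have hrow : ∀ i, ∑ j ∈ t, u ^ Nat.dist i j ≤ 1 + N := by
    intro i
    refine (Finset.sum_le_sum_of_subset_of_nonneg (Finset.filter_subset _ _)
      fun j _ _ => pow_nonneg hu0 _).trans ?_
    rw [← Finset.sum_filter_add_sum_filter_not s (fun j => j ≠ i), add_comm]
    refine add_le_add ?_ (sum_dist_ne_le hu0 hu1 n i)
    calc ∑ j ∈ s.filter (fun j => ¬ j ≠ i), u ^ Nat.dist i j
        ≤ ∑ j ∈ ({i} : Finset ℕ), u ^ Nat.dist i j :=
          Finset.sum_le_sum_of_subset_of_nonneg (fun j hj => by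
            simp only [ne_eq, not_not, Finset.mem_filter] at hj
            exact Finset.mem_singleton.2 hj.2) fun j _ _ => pow_nonneg hu0 _
      _ = 1 := by simp
  have hpow : ∀ z, 0 ≤ z → z ≤ H → (z ^ θ) ^ 2 ≤ H ^ (2 * θ - 1) * z := by
    intro z hz hzh
    have e : (z ^ θ) ^ 2 = z ^ (2 * θ - 1) * z := by
      conv_rhs => rw [← Real.rpow_add_one' hz (by linarith)]
      rw [← Real.rpow_natCast (z ^ θ) 2, ← Real.rpow_mul hz]
      congr 1
      push_cast
      ring
    rw [e]
    exact mul_le_mul_of_nonneg_right (Real.rpow_le_rpow hz hzh (by linarith)) hz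
  have hoffoff : ∑ i ∈ t, ∑ j ∈ t, (a i * b j) ^ θ * u ^ Nat.dist i j ≤ (1 + N) * H ^ (2 * θ) := by
    calc ∑ i ∈ t, ∑ j ∈ t, (a i * b j) ^ θ * u ^ Nat.dist i j
        ≤ ∑ i ∈ t, ∑ j ∈ t, H ^ (2 * θ - 1) * ((a i + b j) / 2) * u ^ Nat.dist i j := by
          refine Finset.sum_le_sum fun i hi => Finset.sum_le_sum fun j hj => ?_
          refine mul_le_mul_of_nonneg_right ?_ (pow_nonneg hu0 _)
          rw [Real.mul_rpow (ha i) (hb j)]
          nlinarith [hpow _ (ha i) (hai i hi), hpow _ (hb j) (hbi j hj),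
            sq_nonneg (a i ^ θ - b j ^ θ)]
      _ = H ^ (2 * θ - 1) / 2 * (∑ i ∈ t, a i * ∑ j ∈ t, u ^ Nat.dist i j
            + ∑ j ∈ t, b j * ∑ i ∈ t, u ^ Nat.dist j i) := by
          simp only [Finset.mul_sum]
          rw [Finset.sum_comm (f := fun j i => b j * u ^ Nat.dist j i), ← Finset.sum_add_distrib,
            Finset.mul_sum]
          refine Finset.sum_congr rfl fun i _ => ?_
          rw [← Finset.sum_add_distrib, Finset.mul_sum]
          refine Finset.sum_congr rfl fun j _ => ?_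
          rw [Nat.dist_comm j i]
          ring
      _ ≤ H ^ (2 * θ - 1) / 2 * ((∑ i ∈ t, a i) * (1 + N) + (∑ j ∈ t, b j) * (1 + N)) := by
          rw [Finset.sum_mul, Finset.sum_mul]
          gcongr with i _ j _
          · exact ha i
          · exact hrow i
          · exact hb j
          · exact hrow j
      _ ≤ H ^ (2 * θ - 1) / 2 * (H * (1 + N) + H * (1 + N)) := by
          have : 0 ≤ 1 + N := add_nonneg zero_le_one (div_nonneg (by linarith) (by linarith))
          gcongr
      _ = (1 + N) * (H ^ (2 * θ - 1) * H) := by ring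
      _ = (1 + N) * H ^ (2 * θ) := by
          rw [← Real.rpow_add_one' hH (by linarith), sub_add_cancel]
  have hHθ : 0 ≤ H ^ θ := Real.rpow_nonneg hH _
  have hside : ∀ (x : ℕ → ℝ) (z : ℝ), (∀ i, 0 ≤ x i) → (∀ i ∈ t, x i ≤ H) → 0 ≤ z → z ≤ 1 →
      ∑ j ∈ t, (z * x j) ^ θ * u ^ Nat.dist k j ≤ H ^ θ * N := by
    intro x z hx hxH hz hz1
    refine le_trans (Finset.sum_le_sum (g := fun j => H ^ θ * u ^ Nat.dist k j) fun j hj => ?_) ?_
    · refine mul_le_mul_of_nonneg_right (Real.rpow_le_rpow (mul_nonneg hz (hx j)) ?_ hθ0.le)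
        (pow_nonneg hu0 _)
      exact (mul_le_of_le_one_left (hx j) hz1).trans (hxH j hj)
    · rw [← Finset.mul_sum]
      exact mul_le_mul_of_nonneg_left hrowk hHθ
  rw [hsplit]
  simp only [hsplit (fun j => _ * u ^ Nat.dist _ j)]
  rw [Finset.sum_add_distrib]
  have h1 : (a k * b k) ^ θ * u ^ Nat.dist k k ≤ 1 := by
    rw [Nat.dist_self, pow_zero, mul_one]
    exact Real.rpow_le_one (mul_nonneg (ha k) (hb k))
      (mul_le_one₀ hak (hb k) hbk) hθ0.le
  have h2 := hside b (a k) hb hbi (ha k) hak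
  have h3 : ∑ i ∈ t, (a i * b k) ^ θ * u ^ Nat.dist i k ≤ H ^ θ * N := by
    refine le_trans (le_of_eq (Finset.sum_congr rfl fun i _ => ?_)) (hside a (b k) ha hai (hb k) hbk)
    rw [mul_comm (a i), Nat.dist_comm i k]
  linarith

/-- At every prime the splitting factor is `1 + O (p ^ (-β / (1 - θ)))`. -/
theorem exists_prime_factor_le (θ β : ℝ) (hθ : 1 / 2 < θ) (hθ1 : θ < 1) (hβ : 0 < β) :
    ∃ C : ℝ, 0 ≤ C ∧ ∀ p : ℕ, 2 ≤ p → ∀ (n : ℕ) (a b : ℕ → ℝ),
      (∀ i, 0 ≤ a i) → (∀ i, 0 ≤ b i) →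
      (∑ i ∈ Finset.range n, a i = 1) → (∑ i ∈ Finset.range n, b i = 1) →
      ∑ i ∈ Finset.range n, ∑ j ∈ Finset.range n,
          (a i * b j) ^ θ / (p : ℝ) ^ (β * (Nat.dist i j : ℝ)) ≤
        1 + C * (p : ℝ) ^ (-(β / (1 - θ))) := by
  obtain ⟨Cc, pc, hconc⟩ := exists_concentration θ β hθ hθ1 hβ
  set e : ℝ := β / (1 - θ) with he
  have he0 : 0 < e := div_pos hβ (by linarith)
  set C1 : ℝ := max (max Cc 1) ((pc : ℝ) ^ e) with hC1
  have hC11 : 1 ≤ C1 := (le_max_right _ _).trans (le_max_left _ _)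
  have h2β : (2 : ℝ) ^ (-β) < 1 := Real.rpow_lt_one_of_one_lt_of_neg one_lt_two (by linarith)
  set M : ℝ := 2 / (1 - (2 : ℝ) ^ (-β)) with hM
  have hM0 : 0 ≤ M := div_nonneg (by norm_num) (by linarith)
  refine ⟨(2 * M + (1 + M)) * C1, by positivity, ?_⟩
  intro p hp n a b ha hb hsa hsb
  have hp0 : (0 : ℝ) < p := by exact_mod_cast (by omega : 0 < p)
  set q : ℝ := (p : ℝ) ^ (-e) with hq
  have hq0 : 0 < q := Real.rpow_pos_of_pos hp0 _
  set S := ∑ i ∈ Finset.range n, ∑ j ∈ Finset.range n,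
    (a i * b j) ^ θ / (p : ℝ) ^ (β * (Nat.dist i j : ℝ)) with hS
  by_cases hle : S ≤ 1
  · have : 0 ≤ (2 * M + (1 + M)) * C1 * q := by positivity
    linarith
  push Not at hle
  have hn : 0 < n := by
    rcases Nat.eq_zero_or_pos n with h | h
    · simp [h] at hsa
    · exact h
  set H : ℝ := min 1 (C1 * q) with hH
  have hH0 : 0 ≤ H := le_min zero_le_one (by positivity)
  have hHq : H ≤ C1 * q := min_le_right _ _
  obtain ⟨k, hk, hka, hkb⟩ : ∃ k, k < n ∧ 1 - a k ≤ H ∧ 1 - b k ≤ H := by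
    rcases lt_or_ge p pc with hlt | hge
    · refine ⟨0, hn, ?_⟩
      have h1 : 1 ≤ C1 * q := by
        calc (1 : ℝ) = (p : ℝ) ^ e * q := by
              rw [hq, ← Real.rpow_add hp0, add_neg_cancel, Real.rpow_zero]
          _ ≤ C1 * q := by
              refine mul_le_mul_of_nonneg_right (le_trans ?_ (le_max_right _ _)) hq0.le
              exact Real.rpow_le_rpow hp0.le (by exact_mod_cast hlt.le) he0.le
      rw [hH, min_eq_left h1]
      constructor <;> [linarith [ha 0]; linarith [hb 0]]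
    · obtain ⟨k, hk, hka, hkb⟩ := hconc p hge n a b ha hb hsa hsb hle
      have hc : Cc * q ≤ C1 * q :=
        mul_le_mul_of_nonneg_right ((le_max_left _ _).trans (le_max_left _ _)) hq0.le
      exact ⟨k, hk, le_min (by linarith [ha k]) (hka.trans hc),
        le_min (by linarith [hb k]) (hkb.trans hc)⟩
  set u : ℝ := (p : ℝ) ^ (-β) with hu
  have hu0 : 0 ≤ u := Real.rpow_nonneg hp0.le _
  have hu2 : u ≤ (2 : ℝ) ^ (-β) :=
    Real.rpow_le_rpow_of_nonpos two_pos (by exact_mod_cast hp) (by linarith)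
  have hu1 : u < 1 := hu2.trans_lt h2β
  have hN : 2 * u / (1 - u) ≤ M * u := by
    rw [hM, div_mul_eq_mul_div]
    exact div_le_div_of_nonneg_left (by positivity) (by linarith) (by linarith)
  have hmain : S ≤ 1 + 2 * (2 * u / (1 - u)) * H ^ θ + (1 + 2 * u / (1 - u)) * H ^ (2 * θ) := by
    refine le_trans (le_of_eq ?_) (concentrated_le hθ.le hu0 hu1 n k hk a b ha hb hsa hsb
      hka hkb hH0)
    refine Finset.sum_congr rfl fun i _ => Finset.sum_congr rfl fun j _ => ?_
    rw [hu, ← Real.rpow_natCast ((p : ℝ) ^ (-β)) (Nat.dist i j), ← Real.rpow_mul hp0.le,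
      neg_mul, Real.rpow_neg hp0.le, div_eq_mul_inv]
  have h2θ : H ^ (2 * θ) ≤ C1 * q :=
    (Real.rpow_le_rpow_of_exponent_ge' hH0 (min_le_left _ _) zero_le_one (by linarith)).trans
      (by rw [Real.rpow_one]; exact hHq)
  have huθ : u * H ^ θ ≤ C1 * q := by
    calc u * H ^ θ ≤ u * (C1 * q) ^ θ :=
          mul_le_mul_of_nonneg_left (Real.rpow_le_rpow hH0 hHq (by linarith)) hu0
      _ = C1 ^ θ * (u * q ^ θ) := by rw [Real.mul_rpow (by linarith) hq0.le]; ring
      _ ≤ C1 * (u * q ^ θ) := by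
          refine mul_le_mul_of_nonneg_right ?_ (by positivity)
          exact (Real.rpow_le_rpow_of_exponent_le hC11 hθ1.le).trans_eq (Real.rpow_one _)
      _ = C1 * q := by
          rw [hu, hq, ← Real.rpow_mul hp0.le, ← Real.rpow_add hp0]
          have h1θ : 1 - θ ≠ 0 := by linarith
          congr 2
          rw [he]
          field_simp
          ring
  have hA : 2 * (2 * u / (1 - u)) * H ^ θ ≤ 2 * M * (C1 * q) := by
    calc 2 * (2 * u / (1 - u)) * H ^ θ ≤ 2 * (M * u) * H ^ θ :=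
          mul_le_mul_of_nonneg_right (by linarith) (Real.rpow_nonneg hH0 _)
      _ = 2 * M * (u * H ^ θ) := by ring
      _ ≤ _ := mul_le_mul_of_nonneg_left huθ (by positivity)
  have hB : (1 + 2 * u / (1 - u)) * H ^ (2 * θ) ≤ (1 + M) * (C1 * q) := by
    refine mul_le_mul ?_ h2θ (Real.rpow_nonneg hH0 _) (by positivity)
    nlinarith
  calc S ≤ 1 + 2 * M * (C1 * q) + (1 + M) * (C1 * q) := by linarith
    _ = _ := by ring

/-! ### The recursion -/

/-- Pairs which form a matching once the valuations on `T` are fixed. -/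
theorem exists_matched_le (θ c : ℝ) (hθ : 1 / 2 < θ) (hθ1 : θ < 1) (hc1 : c < 1 - θ) :
    ∃ C : ℝ, 0 ≤ C ∧ ∀ (T : Finset ℕ), (∀ p ∈ T, 2 ≤ p) → ∀ (y : ℝ), 0 ≤ y →
      ∀ (V W : Finset ℕ) (F G : ℕ → ℝ) (R : ℕ → ℕ → Prop) [DecidableRel R],
      (∀ v, 0 ≤ F v) → (∀ w, 0 ≤ G w) →
      (∀ v ∈ V, ∀ v' ∈ V, ∀ w ∈ W, R v w → R v' w →
        (∀ p ∈ T, v.factorization p = v'.factorization p) → v = v') →
      (∀ v ∈ V, ∀ w ∈ W, ∀ w' ∈ W, R v w → R v w' →
        (∀ p ∈ T, w.factorization p = w'.factorization p) → w = w') →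
      (∀ v ∈ V, ∀ w ∈ W, R v w →
        F v * (fixedPart T w.factorization v.factorization : ℝ) ≤ y ∧
          G w * (fixedPart T v.factorization w.factorization : ℝ) ≤ y) →
      ∑ v ∈ V, ∑ w ∈ W.filter (fun w => R v w), F v * G w *
          ((fixedPart T v.factorization w.factorization *
            fixedPart T w.factorization v.factorization : ℕ) : ℝ) ^ c ≤
        Real.exp (C * ∑ p ∈ T, (p : ℝ) ^ (-((1 - θ - c) / (1 - θ)))) * y ^ (2 * (1 - θ)) *
          ((∑ v ∈ V, F v) * ∑ w ∈ W, G w) ^ θ := by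
  obtain ⟨C, hC0, hC⟩ := exists_prime_factor_le θ (1 - θ - c) hθ hθ1 (by linarith)
  refine ⟨C, hC0, fun T => ?_⟩
  induction T using Finset.induction_on with
  | empty =>
    intro _ y hy V W F G R _ hF hG hL hR hyv
    set A := ∑ v ∈ V, F v with hA
    set B := ∑ w ∈ W, G w with hB
    have hA0 : 0 ≤ A := Finset.sum_nonneg fun v _ => hF v
    have hB0 : 0 ≤ B := Finset.sum_nonneg fun v _ => hG v
    simp only [fixedPart, Finset.prod_empty, Nat.cast_one, mul_one, Real.one_rpow,
      Finset.sum_empty, mul_zero, Real.exp_zero, one_mul] at hyv ⊢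
    set X := ∑ v ∈ V, ∑ w ∈ W.filter (fun w => R v w), F v * G w with hX
    have hX0 : 0 ≤ X :=
      Finset.sum_nonneg fun v _ => Finset.sum_nonneg fun w _ => mul_nonneg (hF v) (hG w)
    have hXA : X ≤ y * A := by
      rw [hA, Finset.mul_sum]
      refine Finset.sum_le_sum fun v hv => ?_
      have hcard : (W.filter (fun w => R v w)).card ≤ 1 := Finset.card_le_one.2 fun w hw w' hw' =>
        hR v hv w (Finset.mem_filter.1 hw).1 w' (Finset.mem_filter.1 hw').1
          (Finset.mem_filter.1 hw).2 (Finset.mem_filter.1 hw').2 (by simp)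
      refine (Finset.sum_le_card_nsmul _ _ (y * F v) fun w hw => ?_).trans ?_
      · rw [mul_comm y]
        exact mul_le_mul_of_nonneg_left
          (hyv v hv w (Finset.mem_filter.1 hw).1 (Finset.mem_filter.1 hw).2).2 (hF v)
      · exact (nsmul_le_nsmul_left (mul_nonneg hy (hF v)) hcard).trans_eq (one_nsmul _)
    have hXB : X ≤ y * B := by
      have e : X = ∑ w ∈ W, ∑ v ∈ V.filter (fun v => R v w), F v * G w := by
        simp only [hX, Finset.sum_filter]
        exact Finset.sum_comm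
      rw [e, hB, Finset.mul_sum]
      refine Finset.sum_le_sum fun w hw => ?_
      have hcard : (V.filter (fun v => R v w)).card ≤ 1 := Finset.card_le_one.2 fun v hv v' hv' =>
        hL v (Finset.mem_filter.1 hv).1 v' (Finset.mem_filter.1 hv').1 w hw
          (Finset.mem_filter.1 hv).2 (Finset.mem_filter.1 hv').2 (by simp)
      refine (Finset.sum_le_card_nsmul _ _ (y * G w) fun v hv => ?_).trans ?_
      · exact mul_le_mul_of_nonneg_right
          (hyv v (Finset.mem_filter.1 hv).1 w hw (Finset.mem_filter.1 hv).2).1 (hG w)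
      · exact (nsmul_le_nsmul_left (mul_nonneg hy (hG w)) hcard).trans_eq (one_nsmul _)
    have hXAB : X ≤ A * B := by
      rw [hA, hB, Finset.sum_mul_sum]
      exact Finset.sum_le_sum fun v _ => Finset.sum_le_sum_of_subset_of_nonneg
        (Finset.filter_subset _ _) fun w _ _ => mul_nonneg (hF v) (hG w)
    have hAB : 0 ≤ A * B := mul_nonneg hA0 hB0
    calc X = X ^ (2 * θ - 1) * X ^ (2 * (1 - θ)) := by
          rw [← Real.rpow_add' hX0 (by norm_num; linarith),
            show 2 * θ - 1 + 2 * (1 - θ) = 1 by ring, Real.rpow_one]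
      _ ≤ (A * B) ^ (2 * θ - 1) * (y * y * (A * B)) ^ (1 - θ) := by
          refine mul_le_mul (Real.rpow_le_rpow hX0 hXAB (by linarith)) ?_
            (Real.rpow_nonneg hX0 _) (Real.rpow_nonneg hAB _)
          rw [Real.rpow_mul hX0, Real.rpow_two]
          refine Real.rpow_le_rpow (sq_nonneg _) ?_ (by linarith)
          calc X ^ 2 = X * X := sq X
            _ ≤ (y * A) * (y * B) := mul_le_mul hXA hXB hX0 (mul_nonneg hy hA0)
            _ = _ := by ring
      _ = y ^ (2 * (1 - θ)) * ((A * B) ^ (2 * θ - 1) * (A * B) ^ (1 - θ)) := by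
          rw [Real.mul_rpow (by positivity) hAB, ← sq, Real.rpow_mul hy, Real.rpow_two]
          ring
      _ = _ := by
          rw [← Real.rpow_add' hAB (by linarith), show 2 * θ - 1 + (1 - θ) = θ by ring]
  | insert p T hpT ih =>
    intro hT2 y hy V W F G R _ hF hG hL hR hyv
    have hp2 : 2 ≤ p := hT2 p (Finset.mem_insert_self _ _)
    have ih := ih (fun q hq => hT2 q (Finset.mem_insert_of_mem hq)) y hy
    set Pr := Real.exp (C * ∑ q ∈ T, (q : ℝ) ^ (-((1 - θ - c) / (1 - θ)))) with hPr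
    set A := ∑ v ∈ V, F v with hA
    set B := ∑ w ∈ W, G w with hB
    have hA0 : 0 ≤ A := Finset.sum_nonneg fun v _ => hF v
    have hB0 : 0 ≤ B := Finset.sum_nonneg fun v _ => hG v
    have hp0 : (0 : ℝ) < p := by exact_mod_cast (by omega : 0 < p)
    set n : ℕ := max (V.sup (fun v => v.factorization p)) (W.sup (fun v => v.factorization p)) + 1
      with hn
    have hVn : ∀ v ∈ V, v.factorization p ∈ Finset.range n := fun v hv => Finset.mem_range.2
      (Nat.lt_succ_of_le ((Finset.le_sup (f := fun v : ℕ => v.factorization p) hv).trans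
        (le_max_left _ _)))
    have hWn : ∀ v ∈ W, v.factorization p ∈ Finset.range n := fun v hv => Finset.mem_range.2
      (Nat.lt_succ_of_le ((Finset.le_sup (f := fun v : ℕ => v.factorization p) hv).trans
        (le_max_right _ _)))
    set Vf := fun a => V.filter (fun v => v.factorization p = a) with hVf
    set Wf := fun a => W.filter (fun v => v.factorization p = a) with hWf
    have hfib : ∀ a b : ℕ,
        ∑ v ∈ Vf a, ∑ w ∈ (Wf b).filter (fun w => R v w), F v * G w *
          ((fixedPart (insert p T) v.factorization w.factorization *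
            fixedPart (insert p T) w.factorization v.factorization : ℕ) : ℝ) ^ c ≤
        Pr * y ^ (2 * (1 - θ)) *
          (((∑ v ∈ Vf a, F v) * ∑ w ∈ Wf b, G w) ^ θ /
            (p : ℝ) ^ ((1 - θ - c) * (Nat.dist a b : ℝ))) := by
      intro a b
      set P1 : ℝ := (p : ℝ) ^ (a - b) with hP1
      set P2 : ℝ := (p : ℝ) ^ (b - a) with hP2
      have hP10 : 0 < P1 := pow_pos hp0 _
      have hP20 : 0 < P2 := pow_pos hp0 _
      have hfp : ∀ v ∈ Vf a, ∀ w ∈ Wf b,
          (fixedPart (insert p T) v.factorization w.factorization : ℝ) =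
            P1 * fixedPart T v.factorization w.factorization ∧
          (fixedPart (insert p T) w.factorization v.factorization : ℝ) =
            P2 * fixedPart T w.factorization v.factorization := by
        intro v hv w hw
        simp only [fixedPart, Finset.prod_insert hpT, (Finset.mem_filter.1 hv).2,
          (Finset.mem_filter.1 hw).2, Nat.cast_mul, Nat.cast_pow, hP1, hP2, and_self]
      have h := ih (Vf a) (Wf b) (fun v => F v * P2) (fun w => G w * P1) R
        (fun v => mul_nonneg (hF v) hP20.le) (fun w => mul_nonneg (hG w) hP10.le)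
        (fun v hv v' hv' w hw h1 h2 h3 => hL v (Finset.mem_filter.1 hv).1 v'
          (Finset.mem_filter.1 hv').1 w (Finset.mem_filter.1 hw).1 h1 h2 fun q hq => by
            rcases Finset.mem_insert.1 hq with e | hq
            · rw [e, (Finset.mem_filter.1 hv).2, (Finset.mem_filter.1 hv').2]
            · exact h3 q hq)
        (fun v hv w hw w' hw' h1 h2 h3 => hR v (Finset.mem_filter.1 hv).1 w
          (Finset.mem_filter.1 hw).1 w' (Finset.mem_filter.1 hw').1 h1 h2 fun q hq => by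
            rcases Finset.mem_insert.1 hq with e | hq
            · rw [e, (Finset.mem_filter.1 hw).2, (Finset.mem_filter.1 hw').2]
            · exact h3 q hq)
        (fun v hv w hw hr => by
          obtain ⟨e1, e2⟩ := hfp v hv w hw
          have := hyv v (Finset.mem_filter.1 hv).1 w (Finset.mem_filter.1 hw).1 hr
          rw [e1, e2] at this
          constructor
          · rw [mul_assoc]; exact this.1
          · rw [mul_assoc]; exact this.2)
      rw [← Finset.sum_mul, ← Finset.sum_mul] at h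
      have hVA : 0 ≤ ∑ v ∈ Vf a, F v := Finset.sum_nonneg fun v _ => hF v
      have hWB : 0 ≤ ∑ w ∈ Wf b, G w := Finset.sum_nonneg fun w _ => hG w
      rw [show (∑ v ∈ Vf a, F v) * P2 * ((∑ w ∈ Wf b, G w) * P1) =
        (P1 * P2) * ((∑ v ∈ Vf a, F v) * ∑ w ∈ Wf b, G w) by ring,
        Real.mul_rpow (by positivity) (mul_nonneg hVA hWB)] at h
      have hdist : P1 * P2 = (p : ℝ) ^ (Nat.dist a b : ℝ) := by
        rw [Real.rpow_natCast, hP1, hP2, ← pow_add, Nat.dist]
      set X := (∑ v ∈ Vf a, F v) * ∑ w ∈ Wf b, G w with hX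
      have hX0 : 0 ≤ X := mul_nonneg hVA hWB
      have key : (P1 * P2) ^ θ * X ^ θ * ((P1 * P2) ^ c / (P1 * P2)) =
          X ^ θ / (p : ℝ) ^ ((1 - θ - c) * (Nat.dist a b : ℝ)) := by
        rw [mul_comm ((1 - θ - c)), Real.rpow_mul hp0.le, ← hdist,
          show (1 - θ - c) = 1 - (θ + c) by ring, Real.rpow_sub (by positivity), Real.rpow_one,
          Real.rpow_add (by positivity)]
        field_simp
      rw [← key, ← mul_assoc]
      refine le_trans (le_of_eq ?_)
        (mul_le_mul_of_nonneg_right h (by positivity : 0 ≤ (P1 * P2) ^ c / (P1 * P2)))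
      rw [Finset.sum_mul]
      refine Finset.sum_congr rfl fun v hv => ?_
      rw [Finset.sum_mul]
      refine Finset.sum_congr rfl fun w hw => ?_
      obtain ⟨e1, e2⟩ := hfp v hv w (Finset.mem_filter.1 hw).1
      rw [Nat.cast_mul, e1, e2, Nat.cast_mul,
        show P1 * (fixedPart T v.factorization w.factorization : ℝ) *
          (P2 * fixedPart T w.factorization v.factorization) =
          P1 * P2 * ((fixedPart T v.factorization w.factorization : ℝ) *
            fixedPart T w.factorization v.factorization) by ring,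
        Real.mul_rpow (by positivity) (by positivity)]
      field_simp
    rw [Finset.sum_insert hpT, mul_add, Real.exp_add, mul_comm (Real.exp (C * (p : ℝ) ^ _))]
    rw [← hPr]
    have hsplit : ∑ v ∈ V, ∑ w ∈ W.filter (fun w => R v w), F v * G w *
          ((fixedPart (insert p T) v.factorization w.factorization *
            fixedPart (insert p T) w.factorization v.factorization : ℕ) : ℝ) ^ c =
        ∑ a ∈ Finset.range n, ∑ b ∈ Finset.range n,
          ∑ v ∈ Vf a, ∑ w ∈ (Wf b).filter (fun w => R v w), F v * G w *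
          ((fixedPart (insert p T) v.factorization w.factorization *
            fixedPart (insert p T) w.factorization v.factorization : ℕ) : ℝ) ^ c := by
      rw [← Finset.sum_fiberwise_of_maps_to hVn]
      refine Finset.sum_congr rfl fun a _ => ?_
      rw [Finset.sum_comm (s := Finset.range n)]
      refine Finset.sum_congr rfl fun v _ => ?_
      rw [← Finset.sum_fiberwise_of_maps_to (g := fun w => w.factorization p) (t := Finset.range n)
        (fun w hw => hWn w (Finset.mem_filter.1 hw).1)]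
      exact Finset.sum_congr rfl fun b _ => by rw [Finset.filter_comm]
    rw [hsplit]
    refine (Finset.sum_le_sum fun a _ => Finset.sum_le_sum fun b _ => hfib a b).trans ?_
    simp only [← Finset.mul_sum]
    have hnz : 0 ≤ Pr * y ^ (2 * (1 - θ)) := by positivity
    rw [show ∀ z, Pr * z * y ^ (2 * (1 - θ)) * (A * B) ^ θ =
      Pr * y ^ (2 * (1 - θ)) * (z * (A * B) ^ θ) from fun z => by ring]
    refine mul_le_mul_of_nonneg_left ?_ hnz
    have hexp : (1 : ℝ) + C * (p : ℝ) ^ (-((1 - θ - c) / (1 - θ))) ≤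
        Real.exp (C * (p : ℝ) ^ (-((1 - θ - c) / (1 - θ)))) := by
      linarith [Real.add_one_le_exp (C * (p : ℝ) ^ (-((1 - θ - c) / (1 - θ))))]
    have hsA : ∑ a ∈ Finset.range n, ∑ v ∈ Vf a, F v = A := Finset.sum_fiberwise_of_maps_to hVn F
    have hsB : ∑ a ∈ Finset.range n, ∑ w ∈ Wf a, G w = B := Finset.sum_fiberwise_of_maps_to hWn G
    rcases hA0.eq_or_lt with hAz | hAp
    · refine le_trans (le_of_eq (Finset.sum_eq_zero fun a ha => Finset.sum_eq_zero fun b _ => ?_))
        (by positivity)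
      rw [(Finset.sum_eq_zero_iff_of_nonneg fun a _ => Finset.sum_nonneg fun v _ => hF v).1
        (hsA.trans hAz.symm) a ha, zero_mul, Real.zero_rpow (by linarith), zero_div]
    rcases hB0.eq_or_lt with hBz | hBp
    · refine le_trans (le_of_eq (Finset.sum_eq_zero fun a _ => Finset.sum_eq_zero fun b hb => ?_))
        (by positivity)
      rw [(Finset.sum_eq_zero_iff_of_nonneg fun a _ => Finset.sum_nonneg fun v _ => hG v).1
        (hsB.trans hBz.symm) b hb, mul_zero, Real.zero_rpow (by linarith), zero_div]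
    have hone := hC p hp2 n (fun a => (∑ v ∈ Vf a, F v) / A) (fun b => (∑ w ∈ Wf b, G w) / B)
      (fun a => div_nonneg (Finset.sum_nonneg fun v _ => hF v) hA0)
      (fun a => div_nonneg (Finset.sum_nonneg fun v _ => hG v) hB0)
      (by rw [← Finset.sum_div, hsA, div_self hAp.ne'])
      (by rw [← Finset.sum_div, hsB, div_self hBp.ne'])
    refine le_trans (le_of_eq ?_)
      (mul_le_mul_of_nonneg_right (hone.trans hexp) (by positivity))
    rw [Finset.sum_mul]
    refine Finset.sum_congr rfl fun a _ => ?_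
    rw [Finset.sum_mul]
    refine Finset.sum_congr rfl fun b _ => ?_
    rw [div_mul_div_comm, Real.div_rpow (mul_nonneg (Finset.sum_nonneg fun v _ => hF v)
      (Finset.sum_nonneg fun v _ => hG v)) (by positivity)]
    have : (0 : ℝ) < (A * B) ^ θ := by positivity
    field_simp

/-- Pairs whose `q' r'` is supported on the primes of `T`. -/
theorem exists_supported_pair_le (θ c : ℝ) (hθ : 1 / 2 < θ) (hθ1 : θ < 1) (hc1 : c < 1 - θ) :
    ∃ C : ℝ, 0 ≤ C ∧ ∀ (T V W : Finset ℕ) (F G : ℕ → ℝ) (y : ℝ),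
      (∀ p ∈ T, p.Prime) → (∀ v ∈ V, 0 < v) → (∀ w ∈ W, 0 < w) →
      (∀ v, 0 ≤ F v) → (∀ w, 0 ≤ G w) → 0 ≤ y →
      ∑ v ∈ V, ∑ w ∈ W.filter (fun w => (qd v w * qd w v).primeFactors ⊆ T ∧
          F v * (qd w v : ℝ) ≤ y ∧ G w * (qd v w : ℝ) ≤ y),
          F v * G w * ((qd v w * qd w v : ℕ) : ℝ) ^ c ≤
        Real.exp (C * ∑ p ∈ T, (p : ℝ) ^ (-((1 - θ - c) / (1 - θ)))) * y ^ (2 * (1 - θ)) *
          ((∑ v ∈ V, F v) * ∑ w ∈ W, G w) ^ θ := by
  obtain ⟨C, hC0, hC⟩ := exists_matched_le θ c hθ hθ1 hc1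
  refine ⟨C, hC0, ?_⟩
  intro T V W F G y hT hV hW hF hG hy
  have hsupp : ∀ v ∈ V, ∀ w ∈ W, (qd v w * qd w v).primeFactors ⊆ T →
      (∀ p, p ∉ T → v.factorization p = w.factorization p) ∧
        qd v w = fixedPart T v.factorization w.factorization ∧
        qd w v = fixedPart T w.factorization v.factorization := by
    intro v hv w hw hs
    have h1 := qd_pos (w := w) (hV v hv)
    have h2 := qd_pos (w := v) (hW w hw)
    have hz : ∀ p, p ∉ T → (qd v w).factorization p = 0 ∧ (qd w v).factorization p = 0 := by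
      intro p hp
      have : (qd v w * qd w v).factorization p = 0 := by
        by_contra h0
        exact hp (hs (by rw [← Nat.support_factorization]; exact Finsupp.mem_support_iff.2 h0))
      rw [Nat.factorization_mul h1.ne' h2.ne', Finsupp.add_apply] at this
      omega
    have heq : ∀ x y : ℕ, 0 < x → 0 < y → (∀ p, p ∉ T → (qd x y).factorization p = 0) →
        qd x y = fixedPart T x.factorization y.factorization := by
      intro x y hx hy hzero
      refine Nat.eq_of_factorization_eq (qd_pos hx).ne' (prodPow_pos hT _).ne' fun p => ?_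
      rw [fixedPart, factorization_prodPow hT]
      split_ifs with hp
      · exact factorization_qd hx hy p
      · exact hzero p hp
    refine ⟨fun p hp => ?_, heq v w (hV v hv) (hW w hw) fun p hp => (hz p hp).1,
      heq w v (hW w hw) (hV v hv) fun p hp => (hz p hp).2⟩
    obtain ⟨e1, e2⟩ := hz p hp
    rw [factorization_qd (hV v hv) (hW w hw)] at e1
    rw [factorization_qd (hW w hw) (hV v hv)] at e2
    omega
  refine le_trans (le_of_eq ?_) (hC T (fun p hp => (hT p hp).two_le) y hy V W F G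
    (fun v w => (qd v w * qd w v).primeFactors ⊆ T ∧
      F v * (qd w v : ℝ) ≤ y ∧ G w * (qd v w : ℝ) ≤ y) hF hG ?_ ?_ ?_)
  · refine Finset.sum_congr rfl fun v hv => Finset.sum_congr rfl fun w hw => ?_
    obtain ⟨hw, h⟩ := Finset.mem_filter.1 hw
    obtain ⟨-, e1, e2⟩ := hsupp v hv w hw h.1
    rw [← e1, ← e2]
  · intro v hv v' hv' w hw h1 h2 h3
    refine Nat.eq_of_factorization_eq (hV v hv).ne' (hV v' hv').ne' fun p => ?_
    by_cases hp : p ∈ T
    · exact h3 p hp
    · rw [(hsupp v hv w hw h1.1).1 p hp, (hsupp v' hv' w hw h2.1).1 p hp]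
  · intro v hv w hw w' hw' h1 h2 h3
    refine Nat.eq_of_factorization_eq (hW w hw).ne' (hW w' hw').ne' fun p => ?_
    by_cases hp : p ∈ T
    · exact h3 p hp
    · rw [← (hsupp v hv w hw h1.1).1 p hp, ← (hsupp v hv w' hw' h2.1).1 p hp]
  · intro v hv w hw h
    obtain ⟨-, e1, e2⟩ := hsupp v hv w hw h.1
    exact ⟨e2 ▸ h.2.1, e1 ▸ h.2.2⟩

/-- The smooth lemma: pairs with `q'`, `r'` free of primes above `Z` and `q' r' ≥ E`. -/
theorem exists_smooth_pair_le (θ c : ℝ) (hθ : 1 / 2 < θ) (hθ1 : θ < 1) (hc0 : 0 < c)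
    (hc1 : c < 1 - θ) :
    ∃ C : ℝ, 0 ≤ C ∧ ∀ (V W : Finset ℕ) (F G : ℕ → ℝ) (y E : ℝ) (Z : ℕ),
      (∀ v ∈ V, 0 < v) → (∀ w ∈ W, 0 < w) → (∀ v, 0 ≤ F v) → (∀ w, 0 ≤ G w) → 0 ≤ y → 0 < E →
      ∑ v ∈ V, ∑ w ∈ W.filter (fun w => (∀ p ∈ (qd v w * qd w v).primeFactors, p ≤ Z) ∧
          E ≤ ((qd v w * qd w v : ℕ) : ℝ) ∧ F v * (qd w v : ℝ) ≤ y ∧ G w * (qd v w : ℝ) ≤ y),
          F v * G w ≤
        Real.exp (C * (Z : ℝ) ^ (c / (1 - θ))) * y ^ (2 * (1 - θ)) * E ^ (-c) *
          ((∑ v ∈ V, F v) * ∑ w ∈ W, G w) ^ θ := by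
  obtain ⟨C, hC0, hC⟩ := exists_supported_pair_le θ c hθ hθ1 hc1
  have h1θ : 0 < 1 - θ := by linarith
  set e : ℝ := (1 - θ - c) / (1 - θ) with he
  have he0 : 0 < e := div_pos (by linarith) h1θ
  have he' : 1 - e = c / (1 - θ) := by rw [he]; field_simp; ring
  have he1 : e < 1 := by linarith [div_pos hc0 h1θ]
  refine ⟨C / (1 - e), div_nonneg hC0 (by linarith), ?_⟩
  intro V W F G y E Z hV hW hF hG hy hE
  set T := (Finset.range (Z + 1)).filter Nat.Prime with hT
  have hsum : ∑ p ∈ T, (p : ℝ) ^ (-e) ≤ (Z : ℝ) ^ (1 - e) / (1 - e) := by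
    calc ∑ p ∈ T, (p : ℝ) ^ (-e)
        ≤ ∑ p ∈ (Finset.range Z).image (fun j : ℕ => j + 1), (p : ℝ) ^ (-e) := by
          refine Finset.sum_le_sum_of_subset_of_nonneg (fun p hp => ?_)
            fun p _ _ => Real.rpow_nonneg (Nat.cast_nonneg p) _
          obtain ⟨hp, hpp⟩ := Finset.mem_filter.1 hp
          have := Finset.mem_range.1 hp
          have := hpp.two_le
          exact Finset.mem_image.2 ⟨p - 1, Finset.mem_range.2 (by omega), by omega⟩
      _ = ∑ j ∈ Finset.range Z, ((j : ℝ) + 1) ^ (-e) := by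
          rw [Finset.sum_image (fun a _ b _ h => by simpa using h)]
          push_cast
          rfl
      _ ≤ _ := sum_range_rpow_neg_le he0 he1 Z
  have hmain := hC T V W F G y (fun p hp => (Finset.mem_filter.1 hp).2) hV hW hF hG hy
  have hexp : Real.exp (C * ∑ p ∈ T, (p : ℝ) ^ (-e)) ≤
      Real.exp (C / (1 - e) * (Z : ℝ) ^ (c / (1 - θ))) := by
    rw [Real.exp_le_exp, ← he']
    exact (mul_le_mul_of_nonneg_left hsum hC0).trans_eq (by ring)
  have hAB : 0 ≤ (∑ v ∈ V, F v) * ∑ w ∈ W, G w :=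
    mul_nonneg (Finset.sum_nonneg fun v _ => hF v) (Finset.sum_nonneg fun v _ => hG v)
  refine le_trans ?_ (le_of_eq (show E ^ (-c) * (Real.exp (C / (1 - e) * (Z : ℝ) ^ (c / (1 - θ))) *
    y ^ (2 * (1 - θ)) * ((∑ v ∈ V, F v) * ∑ w ∈ W, G w) ^ θ) = _ by ring))
  refine le_trans ?_ (mul_le_mul_of_nonneg_left (hmain.trans (mul_le_mul_of_nonneg_right
    (mul_le_mul_of_nonneg_right hexp (Real.rpow_nonneg hy _)) (Real.rpow_nonneg hAB _)))
    (Real.rpow_nonneg hE.le _))
  rw [Finset.mul_sum]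
  refine Finset.sum_le_sum fun v _ => ?_
  rw [Finset.mul_sum]
  refine le_trans (Finset.sum_le_sum fun w hw => ?_)
    (Finset.sum_le_sum_of_subset_of_nonneg (fun w hw => ?_) fun w _ _ => by
      exact mul_nonneg (Real.rpow_nonneg hE.le _)
        (mul_nonneg (mul_nonneg (hF v) (hG w)) (Real.rpow_nonneg (Nat.cast_nonneg _) _)))
  · have hle : E ≤ ((qd v w * qd w v : ℕ) : ℝ) := (Finset.mem_filter.1 hw).2.2.1
    have h1 : 1 ≤ E ^ (-c) * ((qd v w * qd w v : ℕ) : ℝ) ^ c := by
      rw [Real.rpow_neg hE.le, ← div_eq_inv_mul, one_le_div (Real.rpow_pos_of_pos hE _)]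
      exact Real.rpow_le_rpow hE.le hle hc0.le
    calc F v * G w ≤ F v * G w * (E ^ (-c) * ((qd v w * qd w v : ℕ) : ℝ) ^ c) :=
          le_mul_of_one_le_right (mul_nonneg (hF v) (hG w)) h1
      _ = _ := by ring
  · obtain ⟨hw, hs, -, h1, h2⟩ := Finset.mem_filter.1 hw
    refine Finset.mem_filter.2 ⟨hw, fun p hp => Finset.mem_filter.2
      ⟨Finset.mem_range.2 (Nat.lt_succ_of_le (hs p hp)), Nat.prime_of_mem_primeFactors hp⟩, h1, h2⟩

end Vale.Agent.P028.Smooth
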