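import Vale.Agent.P028.GainBase

/-!
Scale inequalities for the gain, and the impossibility of two major arcs off the line.
-/

noncomputable section

namespace Vale.Agent.P028

open Finset

/-- The range of `x` and `ℓ` in which the bilinear bound is used. -/
structure Scale (ell x : ℝ) : Prop where
  ell_big : 10 ^ 6 ≤ ell
  x_pos : 0 < x
  x_le : x ≤ (2 : ℝ) ^ (-(40 : ℝ))
  le_x : Real.exp (-(3 * etaC * ell)) ≤ x

theorem Scale.x_le_one {ell x : ℝ} (h : Scale ell x) : x ≤ 1 :=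
  h.x_le.trans (Real.rpow_le_one_of_one_le_of_nonpos (by norm_num) (by norm_num))

theorem Scale.exp_le {ell x : ℝ} (h : Scale ell x) {e c : ℝ} (he : 0 ≤ e)
    (hc : 3 * etaC * e ≤ c) : Real.exp (-(c * ell)) ≤ x ^ e := by
  refine le_trans ?_ (Real.rpow_le_rpow (Real.exp_pos _).le h.le_x he)
  rw [← Real.exp_mul]
  refine Real.exp_le_exp.2 ?_
  have := mul_le_mul_of_nonneg_right hc (by linarith [h.ell_big] : (0 : ℝ) ≤ ell)
  linarith

theorem Scale.rpow_le_const {ell x : ℝ} (h : Scale ell x) {e : ℝ} (he : 0 ≤ e) :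
    x ^ e ≤ (2 : ℝ) ^ (-(40 * e)) := by
  refine le_trans (Real.rpow_le_rpow h.x_pos.le h.x_le he) (le_of_eq ?_)
  rw [← Real.rpow_mul (by norm_num)]
  ring_nf

theorem Scale.exp_half {ell x : ℝ} (h : Scale ell x) :
    2 * x ^ (-(1 / 20) : ℝ) ≤ Real.exp (ell / 2) := by
  have h1 := h.exp_le (e := 1 / 20) (c := 3 * etaC * (1 / 20)) (by norm_num) le_rfl
  have h2 : x ^ (-(1 / 20) : ℝ) ≤ Real.exp (3 * etaC * (1 / 20) * ell) := by
    rw [Real.rpow_neg h.x_pos.le, ← inv_inv (Real.exp _), ← Real.exp_neg]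
    exact inv_anti₀ (Real.exp_pos _) h1
  have h3 : (2 : ℝ) ≤ Real.exp 1 := by
    have := Real.add_one_le_exp (1 : ℝ); linarith
  calc 2 * x ^ (-(1 / 20) : ℝ) ≤ Real.exp 1 * Real.exp (3 * etaC * (1 / 20) * ell) :=
        mul_le_mul h3 h2 (Real.rpow_nonneg h.x_pos.le _) (Real.exp_pos _).le
    _ ≤ Real.exp (ell / 2) := by
        rw [← Real.exp_add]
        refine Real.exp_le_exp.2 ?_
        have := h.ell_big
        norm_num [etaC]; linarith

/-- The range of the multipliers. -/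
def hRange (x : ℝ) : ℕ := ⌈x ^ (-(1 / 20) : ℝ)⌉₊

theorem Scale.one_le_inv {ell x : ℝ} (h : Scale ell x) : 1 ≤ x ^ (-(1 / 20) : ℝ) :=
  Real.one_le_rpow_of_pos_of_le_one_of_nonpos h.x_pos h.x_le_one (by norm_num)

theorem Scale.hRange_pos {ell x : ℝ} (h : Scale ell x) : 1 ≤ hRange x :=
  Nat.ceil_pos.2 (lt_of_lt_of_le one_pos h.one_le_inv)

theorem Scale.hRange_le {ell x : ℝ} (h : Scale ell x) :
    (hRange x : ℝ) ≤ 2 * x ^ (-(1 / 20) : ℝ) := by
  have h1 := h.one_le_inv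
  have h2 := Nat.ceil_lt_add_one (le_trans zero_le_one h1)
  unfold hRange
  linarith

theorem le_hRange (x : ℝ) : x ^ (-(1 / 20) : ℝ) ≤ (hRange x : ℝ) := Nat.le_ceil _

/-- A short resonance of `α` at the size of `c`. -/
def Maj (x α : ℝ) (c : ℕ) : Prop :=
  ∃ h : ℕ, 1 ≤ h ∧ h ≤ hRange x ∧ ∃ l : ℤ,
    |α * h - l| * (2 : ℝ) ^ Nat.log 2 c ≤ x ^ (19 / 20 : ℝ)

theorem Maj.elim {x α : ℝ} {c : ℕ} (h : Maj x α c) :
    ∃ h : ℕ, 1 ≤ h ∧ h ≤ hRange x ∧ ∃ l : ℤ, |α * h - l| * c ≤ 2 * x ^ (19 / 20 : ℝ) := by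
  obtain ⟨k, hk1, hk2, l, hl⟩ := h
  refine ⟨k, hk1, hk2, l, ?_⟩
  have h1 : (c : ℝ) ≤ 2 * (2 : ℝ) ^ Nat.log 2 c := by
    have h := Nat.lt_pow_succ_log_self (b := 2) (by norm_num) c
    rw [pow_succ] at h
    have : (c : ℝ) < (2 : ℝ) ^ Nat.log 2 c * 2 := by exact_mod_cast h
    linarith
  have h2 := mul_le_mul_of_nonneg_left h1 (abs_nonneg (α * k - l))
  linarith

/-- A dyadic block without a resonance is sparse. -/
theorem minor_block_le {ell x α β : ℝ} (hs : Scale ell x) {T : Finset ℕ} {j : ℕ}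
    (hbig : ∀ c ∈ T, Real.exp (ell / 2) ≤ (c : ℝ))
    (hj : ∀ c ∈ T, Nat.log 2 c = j)
    (hminor : ∀ c ∈ T, ¬ Maj x α c)
    (hn : ∀ c ∈ T, ∃ n : ℤ, |(n : ℝ) + α * c - β| ≤ 4 * x) :
    (T.card : ℝ) ≤ 10 * cBohr * x ^ (1 / 20 : ℝ) * 2 ^ j := by
  have hx := hs.x_pos
  have hx1 := hs.x_le_one
  have hB := one_le_cBohr
  rcases T.eq_empty_or_nonempty with hT | ⟨c0, hc0⟩
  · subst hT; simp only [card_empty, Nat.cast_zero]; positivity
  have hpow : ∀ c ∈ T, 2 ^ j ≤ c ∧ c < 2 * 2 ^ j := by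
    intro c hc
    have hc0' : c ≠ 0 := by
      intro h
      have := hbig c hc
      rw [h, Nat.cast_zero] at this
      linarith [Real.exp_pos (ell / 2)]
    have h1 := Nat.pow_log_le_self 2 hc0'
    have h2 := Nat.lt_pow_succ_log_self (b := 2) (by norm_num) c
    rw [hj c hc] at h1 h2
    rw [pow_succ] at h2
    omega
  have hρH : 4 * x * (hRange x : ℝ) ≤ 1 / 16 := by
    calc 4 * x * (hRange x : ℝ) ≤ 4 * x * (2 * x ^ (-(1 / 20) : ℝ)) :=
          mul_le_mul_of_nonneg_left hs.hRange_le (by positivity)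
      _ = 8 * x ^ (19 / 20 : ℝ) := by
          rw [show (19 / 20 : ℝ) = 1 + -(1 / 20) by norm_num, Real.rpow_add hx, Real.rpow_one]
          ring
      _ ≤ 8 * (2 : ℝ) ^ (-(40 * (19 / 20)) : ℝ) :=
          mul_le_mul_of_nonneg_left (hs.rpow_le_const (by norm_num)) (by norm_num)
      _ ≤ 1 / 16 := by norm_num [Real.rpow_neg]
  have key := card_bohr_le (α := α) (β := β) (ρ := 4 * x) (H := hRange x) (C0 := 2 ^ j)
    (lam := x ^ (19 / 20 : ℝ)) (T := T) (by positivity) hs.hRange_pos Nat.one_le_two_pow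
    (Real.rpow_pos_of_pos hx _) hρH ?_ ?_
  · refine le_trans key ?_
    push_cast
    set C0 : ℝ := (2 : ℝ) ^ j with hC0def
    have hC0 : 0 < C0 := by rw [hC0def]; positivity
    set u : ℝ := x ^ (1 / 20 : ℝ) with hudef
    have hu : 0 < u := by rw [hudef]; positivity
    have e1 : 4 * x * C0 ≤ 4 * u * C0 := by
      have : x ≤ u := Real.self_le_rpow_of_le_one hx.le hx1 (by norm_num)
      gcongr
    have e2 : 4 * x * C0 / x ^ (19 / 20 : ℝ) = 4 * u * C0 := by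
      have : x = u * x ^ (19 / 20 : ℝ) := by
        rw [hudef, ← Real.rpow_add hx]; norm_num
      nth_rewrite 1 [this]
      field_simp
    have e3 : C0 / (hRange x : ℝ) ≤ u * C0 := by
      have h1 := le_hRange x
      rw [Real.rpow_neg hx.le] at h1
      have h3 : ((hRange x : ℝ))⁻¹ ≤ u := inv_le_of_inv_le₀ hu h1
      rw [div_eq_mul_inv, mul_comm]
      exact mul_le_mul_of_nonneg_right h3 hC0.le
    have e4 : 1 ≤ u * C0 := by
      have h1 := hbig c0 hc0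
      have h2 : (c0 : ℝ) < 2 * C0 := by
        rw [hC0def]; exact_mod_cast (hpow c0 hc0).2
      have h3 := hs.exp_half
      rw [Real.rpow_neg hx.le, ← hudef] at h3
      have h4 : u⁻¹ ≤ C0 := by linarith
      rwa [inv_le_iff_one_le_mul₀ hu, mul_comm] at h4
    calc cBohr * (4 * x * C0 + 4 * x * C0 / x ^ (19 / 20 : ℝ) + C0 / (hRange x : ℝ) + 1)
        ≤ cBohr * (4 * u * C0 + 4 * u * C0 + u * C0 + u * C0) := by
          refine mul_le_mul_of_nonneg_left ?_ (by linarith)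
          rw [e2]; linarith
      _ = 10 * cBohr * u * C0 := by ring
  · intro h hh1 hh2 l
    have h0 := hminor c0 hc0
    simp only [Maj, not_exists, not_and, not_le] at h0
    have h1 := h0 h hh1 hh2 l
    rw [hj c0 hc0] at h1
    exact_mod_cast h1
  · intro c hc
    exact ⟨(hpow c hc).1, (hpow c hc).2, hn c hc⟩

/-- Two resonances force the coincidence onto the line `n B + A m = 0`. -/
theorem majors_absurd {ell x γ : ℝ} {A : ℤ} {B : ℕ} (hs : Scale ell x)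
    (hB : (B : ℝ) ≤ Real.exp (etaC * ell))
    (hdelta : |(B : ℝ) * γ - A| ≤ Real.exp (-(etaC * ell)))
    {a b c d Q1 R1 : ℕ}
    (hd : (Q1 : ℝ) * d ≤ Real.exp (ell / 4)) (hb : (R1 : ℝ) * b ≤ Real.exp (ell / 4))
    (ha : Real.exp (ell / 2) ≤ (a : ℝ)) (hc : Real.exp (ell / 2) ≤ (c : ℝ))
    (hR : Real.exp (3 * ell / 4) ≤ ((R1 * (c * b) : ℕ) : ℝ))
    (hcop : Nat.Coprime (Q1 * d) (R1 * b))
    (hpos1 : 0 < Q1 * d) (hpos2 : 0 < R1 * b) {n : ℤ}
    (hn : |(n : ℝ) + γ * (((R1 * (c * b) : ℕ) : ℤ) - ((Q1 * (a * d) : ℕ) : ℤ) : ℤ)| ≤ 4 * x)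
    (hZ : n * (B : ℤ) + A * (((R1 * (c * b) : ℕ) : ℤ) - ((Q1 * (a * d) : ℕ) : ℤ)) ≠ 0)
    (h1 : Maj x (γ * (R1 * b : ℕ)) c) (h2 : Maj x (γ * (Q1 * d : ℕ)) a) : False := by
  obtain ⟨k1, hk1, hk1H, l1, hl1⟩ := h1.elim
  obtain ⟨k2, hk2, hk2H, l2, hl2⟩ := h2.elim
  have hx := hs.x_pos
  have hell := hs.ell_big
  set lam : ℝ := x ^ (19 / 20 : ℝ) with hlamdef
  have hlam : 0 < lam := by rw [hlamdef]; positivity
  have hH : (hRange x : ℝ) ≤ 2 * x ^ (-(1 / 20) : ℝ) := hs.hRange_le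
  have hlamH : lam * hRange x ≤ 2 * x ^ (18 / 20 : ℝ) := by
    calc lam * hRange x ≤ lam * (2 * x ^ (-(1 / 20) : ℝ)) :=
          mul_le_mul_of_nonneg_left hH hlam.le
      _ = 2 * x ^ (18 / 20 : ℝ) := by
          rw [hlamdef, show (18 / 20 : ℝ) = 19 / 20 + -(1 / 20) by norm_num, Real.rpow_add hx]
          ring
  have hsmall : x ^ (17 / 20 : ℝ) ≤ 1 / 1000 :=
    (hs.rpow_le_const (by norm_num)).trans (by norm_num [Real.rpow_neg])
  have hsmall' : x ^ (18 / 20 : ℝ) ≤ 1 / 1000 :=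
    (hs.rpow_le_const (by norm_num)).trans (by norm_num [Real.rpow_neg])
  set B1 : ℕ := k1 * (R1 * b) with hB1
  set B2 : ℕ := k2 * (Q1 * d) with hB2
  have hc0 : (0 : ℝ) < c := lt_of_lt_of_le (Real.exp_pos _) hc
  have ha0 : (0 : ℝ) < a := lt_of_lt_of_le (Real.exp_pos _) ha
  have e1 : |γ * (B1 : ℝ) - l1| * c ≤ 2 * lam := by
    rw [hB1]; push_cast at hl1 ⊢
    convert hl1 using 3; ring
  have e2 : |γ * (B2 : ℝ) - l2| * a ≤ 2 * lam := by
    rw [hB2]; push_cast at hl2 ⊢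
    convert hl2 using 3; ring
  have hexp : Real.exp (ell / 4) ≤ Real.exp (ell / 2) := Real.exp_le_exp.2 (by linarith)
  have hB1le : (B1 : ℝ) ≤ hRange x * Real.exp (ell / 4) := by
    rw [hB1]; push_cast
    exact mul_le_mul (by exact_mod_cast hk1H) hb (by positivity) (by positivity)
  have hB2le : (B2 : ℝ) ≤ hRange x * Real.exp (ell / 4) := by
    rw [hB2]; push_cast
    exact mul_le_mul (by exact_mod_cast hk2H) hd (by positivity) (by positivity)
  have hcross : l1 * (B2 : ℤ) = l2 * (B1 : ℤ) := by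
    have h3 : |γ * (B1 : ℝ) - l1| * B2 ≤ 4 * x ^ (18 / 20 : ℝ) := by
      calc |γ * (B1 : ℝ) - l1| * B2
          ≤ |γ * (B1 : ℝ) - l1| * (hRange x * c) := by
            refine mul_le_mul_of_nonneg_left (hB2le.trans ?_) (abs_nonneg _)
            exact mul_le_mul_of_nonneg_left (hexp.trans hc) (by positivity)
        _ = |γ * (B1 : ℝ) - l1| * c * hRange x := by ring
        _ ≤ 2 * lam * hRange x := mul_le_mul_of_nonneg_right e1 (by positivity)
        _ ≤ _ := by linarith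
    have h4 : |γ * (B2 : ℝ) - l2| * B1 ≤ 4 * x ^ (18 / 20 : ℝ) := by
      calc |γ * (B2 : ℝ) - l2| * B1
          ≤ |γ * (B2 : ℝ) - l2| * (hRange x * a) := by
            refine mul_le_mul_of_nonneg_left (hB1le.trans ?_) (abs_nonneg _)
            exact mul_le_mul_of_nonneg_left (hexp.trans ha) (by positivity)
        _ = |γ * (B2 : ℝ) - l2| * a * hRange x := by ring
        _ ≤ 2 * lam * hRange x := mul_le_mul_of_nonneg_right e2 (by positivity)
        _ ≤ _ := by linarith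
    have h5 : |((l1 * (B2 : ℤ) - l2 * (B1 : ℤ) : ℤ) : ℝ)| < 1 := by
      push_cast
      calc |(l1 : ℝ) * B2 - l2 * B1|
          = |(γ * (B2 : ℝ) - l2) * B1 - (γ * (B1 : ℝ) - l1) * B2| := by congr 1; ring
        _ ≤ |(γ * (B2 : ℝ) - l2) * B1| + |(γ * (B1 : ℝ) - l1) * B2| := abs_sub _ _
        _ < 1 := by
            rw [abs_mul, abs_mul, Nat.abs_cast, Nat.abs_cast]
            linarith
    have h6 : |l1 * (B2 : ℤ) - l2 * (B1 : ℤ)| < 1 := by exact_mod_cast h5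
    have := Int.abs_lt_one_iff.1 h6
    omega
  obtain ⟨G, hG0, u, w, huw, hu, hw⟩ : ∃ G : ℕ, 0 < G ∧ ∃ u w : ℕ,
      Nat.Coprime u w ∧ B1 = u * G ∧ B2 = w * G := by
    have hG : 0 < Nat.gcd B1 B2 := Nat.gcd_pos_of_pos_left _ (Nat.mul_pos hk1 hpos2)
    obtain ⟨u, w, h1, h2, h3⟩ := Nat.exists_coprime B1 B2
    exact ⟨_, hG, u, w, h1, h2, h3⟩
  have hu0 : 0 < u := Nat.pos_of_mul_pos_right (b := G) (by rw [← hu]; exact Nat.mul_pos hk1 hpos2)
  have hw0 : 0 < w := Nat.pos_of_mul_pos_right (b := G) (by rw [← hw]; exact Nat.mul_pos hk2 hpos1)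
  have huw' : l1 * (w : ℤ) = l2 * (u : ℤ) := by
    rw [hu, hw] at hcross; push_cast at hcross
    have hG' : (G : ℤ) ≠ 0 := by exact_mod_cast hG0.ne'
    exact mul_right_cancel₀ hG' (by linear_combination hcross)
  obtain ⟨A0, hA1⟩ : (u : ℤ) ∣ l1 :=
    (Nat.isCoprime_iff_coprime.2 huw).dvd_of_dvd_mul_right
      ⟨l2, by rw [huw']; ring⟩
  have hA2 : l2 = A0 * w := by
    have hu' : (u : ℤ) ≠ 0 := by exact_mod_cast hu0.ne'
    refine mul_right_cancel₀ hu' ?_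
    rw [← huw', hA1]; ring
  have hGle : (G : ℝ) ≤ 4 * x ^ (-(1 / 10) : ℝ) := by
    have hdvd : G ∣ k1 * k2 := by
      have g1 : G ∣ k1 * k2 * (R1 * b) :=
        ⟨u * k2, by linear_combination k2 * (hB1.symm.trans hu)⟩
      have g2 : G ∣ k1 * k2 * (Q1 * d) :=
        ⟨w * k1, by linear_combination k1 * (hB2.symm.trans hw)⟩
      have g3 := Nat.dvd_gcd g1 g2
      rwa [Nat.gcd_mul_left, Nat.Coprime.gcd_eq_one hcop.symm, mul_one] at g3
    have h3 : (G : ℝ) ≤ (k1 : ℝ) * k2 := by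
      exact_mod_cast Nat.le_of_dvd (Nat.mul_pos hk1 hk2) hdvd
    have h4 : (k1 : ℝ) * k2 ≤ (hRange x : ℝ) * hRange x := by
      exact_mod_cast Nat.mul_le_mul hk1H hk2H
    have h5 : (hRange x : ℝ) * hRange x ≤
        (2 * x ^ (-(1 / 20) : ℝ)) * (2 * x ^ (-(1 / 20) : ℝ)) :=
      mul_le_mul hH hH (by positivity) (by positivity)
    have h6 : x ^ (-(1 / 10) : ℝ) = x ^ (-(1 / 20) : ℝ) * x ^ (-(1 / 20) : ℝ) := by
      rw [← Real.rpow_add hx]; norm_num
    linarith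
  set t : ℝ := |γ * (G : ℝ) - A0| with htdef
  have hGR : (0 : ℝ) < G := by exact_mod_cast hG0
  have f1 : γ * (B1 : ℝ) - l1 = u * (γ * G - A0) := by
    rw [hu, hA1]; push_cast; ring
  have f2 : γ * (B2 : ℝ) - l2 = w * (γ * G - A0) := by
    rw [hw, hA2]; push_cast; ring
  have hr' : t * ((R1 * (c * b) : ℕ) : ℝ) ≤ 2 * lam * G := by
    have h3 : ((R1 * b : ℕ) : ℝ) ≤ (u : ℝ) * G := by
      have : R1 * b ≤ u * G := by
        rw [← hu, hB1]; exact Nat.le_mul_of_pos_left _ hk1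
      exact_mod_cast this
    rw [f1, abs_mul, Nat.abs_cast] at e1
    calc t * ((R1 * (c * b) : ℕ) : ℝ) = t * c * ((R1 * b : ℕ) : ℝ) := by push_cast; ring
      _ ≤ t * c * ((u : ℝ) * G) := mul_le_mul_of_nonneg_left h3 (by positivity)
      _ = (u : ℝ) * t * c * G := by ring
      _ ≤ 2 * lam * G := mul_le_mul_of_nonneg_right e1 hGR.le
  have hq' : t * ((Q1 * (a * d) : ℕ) : ℝ) ≤ 2 * lam * G := by
    have h3 : ((Q1 * d : ℕ) : ℝ) ≤ (w : ℝ) * G := by
      have : Q1 * d ≤ w * G := by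
        rw [← hw, hB2]; exact Nat.le_mul_of_pos_left _ hk2
      exact_mod_cast this
    rw [f2, abs_mul, Nat.abs_cast] at e2
    calc t * ((Q1 * (a * d) : ℕ) : ℝ) = t * a * ((Q1 * d : ℕ) : ℝ) := by push_cast; ring
      _ ≤ t * a * ((w : ℝ) * G) := mul_le_mul_of_nonneg_left h3 (by positivity)
      _ = (w : ℝ) * t * a * G := by ring
      _ ≤ 2 * lam * G := mul_le_mul_of_nonneg_right e2 hGR.le
  have hlamG : lam * G ≤ 4 * x ^ (17 / 20 : ℝ) := by
    calc lam * G ≤ lam * (4 * x ^ (-(1 / 10) : ℝ)) := mul_le_mul_of_nonneg_left hGle hlam.le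
      _ = 4 * x ^ (17 / 20 : ℝ) := by
          rw [hlamdef, show (17 / 20 : ℝ) = 19 / 20 + -(1 / 10) by norm_num, Real.rpow_add hx]
          ring
  set r' : ℕ := R1 * (c * b) with hr'def
  set q' : ℕ := Q1 * (a * d) with hq'def
  set m : ℤ := (r' : ℤ) - (q' : ℤ) with hm
  have hi0 : n * (G : ℤ) + A0 * m = 0 := by
    have h3 : |((n * (G : ℤ) + A0 * m : ℤ) : ℝ)| < 1 := by
      have h4 : ((n * (G : ℤ) + A0 * m : ℤ) : ℝ) =
          (G : ℝ) * ((n : ℝ) + γ * (m : ℝ)) - (γ * G - A0) * ((r' : ℝ) - q') := by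
        rw [hm]; push_cast; ring
      rw [h4]
      have h5 : (G : ℝ) * (4 * x) ≤ 16 * x ^ (18 / 20 : ℝ) := by
        calc (G : ℝ) * (4 * x) ≤ 4 * x ^ (-(1 / 10) : ℝ) * (4 * x) :=
              mul_le_mul_of_nonneg_right hGle (by positivity)
          _ = 16 * x ^ (18 / 20 : ℝ) := by
              rw [show (18 / 20 : ℝ) = -(1 / 10) + 1 by norm_num, Real.rpow_add hx, Real.rpow_one]
              ring
      have h6 : t * |(r' : ℝ) - q'| ≤ 4 * lam * G := by
        calc t * |(r' : ℝ) - q'| ≤ t * ((r' : ℝ) + q') := by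
              refine mul_le_mul_of_nonneg_left ?_ (abs_nonneg _)
              refine abs_sub_le_iff.2 ⟨?_, ?_⟩ <;>
                linarith [Nat.cast_nonneg (α := ℝ) r', Nat.cast_nonneg (α := ℝ) q']
          _ ≤ 4 * lam * G := by rw [mul_add]; linarith
      have h7 : (G : ℝ) * |(n : ℝ) + γ * (m : ℝ)| ≤ (G : ℝ) * (4 * x) :=
        mul_le_mul_of_nonneg_left hn hGR.le
      refine lt_of_le_of_lt (abs_sub _ _) ?_
      rw [abs_mul, abs_mul, Nat.abs_cast, ← htdef]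
      linarith
    have h8 : |n * (G : ℤ) + A0 * m| < 1 := by exact_mod_cast h3
    exact Int.abs_lt_one_iff.1 h8
  have hAB : A0 * (B : ℤ) = A * (G : ℤ) := by
    have hr0 : (0 : ℝ) < (r' : ℝ) := lt_of_lt_of_le (Real.exp_pos _) hR
    have h3 : (B : ℝ) * t ≤ 1 / 4 := by
      have h4 : (B : ℝ) ≤ r' := hB.trans (le_trans
        (Real.exp_le_exp.2 (by norm_num [etaC]; linarith)) hR)
      have := mul_le_mul_of_nonneg_left h4 (abs_nonneg (γ * (G : ℝ) - A0))
      rw [← htdef] at this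
      linarith
    have h5 : (G : ℝ) * |(B : ℝ) * γ - A| ≤ 1 / 4 := by
      have h6 := hs.exp_le (e := 1 / 10) (c := 3 / 10 * etaC) (by norm_num) (by norm_num [etaC])
      have h7 : x ^ (-(1 / 10) : ℝ) ≤ Real.exp (3 / 10 * etaC * ell) := by
        rw [Real.rpow_neg hx.le, ← inv_inv (Real.exp _), ← Real.exp_neg]
        exact inv_anti₀ (Real.exp_pos _) h6
      calc (G : ℝ) * |(B : ℝ) * γ - A|
          ≤ 4 * x ^ (-(1 / 10) : ℝ) * Real.exp (-(etaC * ell)) :=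
            mul_le_mul hGle hdelta (abs_nonneg _) (by positivity)
        _ ≤ 4 * Real.exp (3 / 10 * etaC * ell) * Real.exp (-(etaC * ell)) :=
            mul_le_mul_of_nonneg_right (mul_le_mul_of_nonneg_left h7 (by norm_num))
              (Real.exp_pos _).le
        _ ≤ 1 / 4 := by
            rw [mul_assoc, ← Real.exp_add]
            have h8 : 3 / 10 * etaC * ell + -(etaC * ell) ≤ -(5 : ℝ) := by
              norm_num [etaC]; linarith
            have h9 : Real.exp (-(5 : ℝ)) ≤ 1 / 32 := by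
              rw [Real.exp_neg, one_div]
              refine inv_anti₀ (by norm_num) ?_
              have h2e : (2 : ℝ) ≤ Real.exp 1 := by
                have := Real.add_one_le_exp (1 : ℝ); linarith
              have : (2 : ℝ) ^ (5 : ℕ) ≤ Real.exp 1 ^ (5 : ℕ) :=
                pow_le_pow_left₀ (by norm_num) h2e 5
              rw [← Real.exp_nat_mul] at this
              norm_num at this
              exact this
            linarith [Real.exp_le_exp.2 h8]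
    have h10 : |((A0 * (B : ℤ) - A * (G : ℤ) : ℤ) : ℝ)| < 1 := by
      push_cast
      calc |(A0 : ℝ) * B - A * G|
          = |(G : ℝ) * ((B : ℝ) * γ - A) - (B : ℝ) * (γ * G - A0)| := by congr 1; ring
        _ ≤ |(G : ℝ) * ((B : ℝ) * γ - A)| + |(B : ℝ) * (γ * G - A0)| := abs_sub _ _
        _ < 1 := by
            rw [abs_mul, abs_mul, Nat.abs_cast, Nat.abs_cast, ← htdef]
            linarith
    have h11 : |A0 * (B : ℤ) - A * (G : ℤ)| < 1 := by exact_mod_cast h10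
    linarith [Int.abs_lt_one_iff.1 h11]
  apply hZ
  have hG' : (G : ℤ) ≠ 0 := by exact_mod_cast hG0.ne'
  refine (mul_eq_zero.1 (?_ : (G : ℤ) * (n * (B : ℤ) + A * m) = 0)).resolve_left hG'
  linear_combination (B : ℤ) * hi0 - m * hAB

end Vale.Agent.P028
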