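import Vale.Agent.P028.Bilinear
import Vale.Agent.P028.Counting
import Vale.Agent.P028.NumberLemmas

/-!
General bounds for the sums over one side of a final state.
-/

noncomputable section

namespace Vale.Agent.P028

open Finset

def cCen : ℝ := max 1 exists_centre_sum_le.choose

def cRat : ℝ := max 1 exists_ratio_sums_le.choose

def cBohr : ℝ := max 1 exists_card_bohr_le.choose

theorem one_le_cCen : 1 ≤ cCen := le_max_left _ _

theorem one_le_cRat : 1 ≤ cRat := le_max_left _ _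

theorem one_le_cBohr : 1 ≤ cBohr := le_max_left _ _

theorem centre_sum_le {N : ℕ} (hN : 0 < N) :
    (Nat.totient N : ℝ) / N * ∑ d ∈ N.divisors, 1 / (Nat.totient d : ℝ) ≤ cCen :=
  (exists_centre_sum_le.choose_spec N hN).trans (le_max_right _ _)

theorem sum_ratio_s_le {a : ℕ} (ha : 0 < a) {T : Finset ℕ}
    (hT : ∀ c ∈ T, 0 < c ∧ c ≤ a) :
    ∑ c ∈ T, ((a : ℝ) / c) ^ sExp ≤ cRat * a := by
  have h := (exists_ratio_sums_le.choose_spec a a ha).1
  refine le_trans (le_trans ?_ h) ?_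
  · refine sum_le_sum_of_subset_of_nonneg ?_ (fun c _ _ => by positivity)
    intro c hc
    have := hT c hc
    simp only [mem_Icc]; omega
  · exact mul_le_mul_of_nonneg_right (le_max_right _ _) (by positivity)

theorem sum_ratio_t_le {a : ℕ} (ha : 0 < a) {T : Finset ℕ}
    (hT : ∀ c ∈ T, a ≤ c) :
    ∑ c ∈ T, ((a : ℝ) / c) ^ tExp ≤ cRat * a := by
  have h := (exists_ratio_sums_le.choose_spec a (T.sup id) ha).2
  refine le_trans (le_trans ?_ h) ?_
  · refine sum_le_sum_of_subset_of_nonneg ?_ (fun c _ _ => by positivity)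
    intro c hc
    have : c ≤ T.sup id := Finset.le_sup (f := id) hc
    simp only [mem_Icc]; exact ⟨hT c hc, this⟩
  · exact mul_le_mul_of_nonneg_right (le_max_right _ _) (by positivity)

theorem card_bohr_le {α β ρ : ℝ} {H C0 : ℕ} {lam : ℝ} {T : Finset ℕ}
    (hρ : 0 < ρ) (hH : 1 ≤ H) (hC0 : 1 ≤ C0) (hlam : 0 < lam) (hρH : ρ * H ≤ 1 / 16)
    (hminor : ∀ h : ℕ, 1 ≤ h → h ≤ H → ∀ l : ℤ, lam < |α * h - l| * C0)
    (hT : ∀ c ∈ T, C0 ≤ c ∧ c < 2 * C0 ∧ ∃ n : ℤ, |(n : ℝ) + α * c - β| ≤ ρ) :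
    (T.card : ℝ) ≤ cBohr * (ρ * C0 + ρ * C0 / lam + C0 / H + 1) :=
  (exists_card_bohr_le.choose_spec α β ρ H C0 lam T hρ hH hC0 hlam hρH hminor hT).trans
    (mul_le_mul_of_nonneg_right (le_max_right _ _) (by positivity))

/-- A sum over a set which injects in pairs `(up, down)`. -/
theorem sum_pairs_le {T : Finset ℕ} {up down : ℕ → ℕ} {u f : ℕ → ℝ} {D : Finset ℕ} {M : ℝ}
    (hinj : Set.InjOn (fun w => (up w, down w)) T) (hmap : ∀ w ∈ T, down w ∈ D)
    (hu : ∀ d ∈ D, 0 ≤ u d)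
    (hM : ∀ d ∈ D, ∑ c ∈ (T.filter (fun w => down w = d)).image up, f c ≤ M) :
    ∑ w ∈ T, u (down w) * f (up w) ≤ (∑ d ∈ D, u d) * M := by
  rw [← sum_fiberwise_of_maps_to hmap, sum_mul]
  refine sum_le_sum (fun d hd => ?_)
  have heq : ∑ w ∈ T.filter (fun w => down w = d), u (down w) * f (up w) =
      u d * ∑ c ∈ (T.filter (fun w => down w = d)).image up, f c := by
    rw [sum_image, mul_sum]
    · refine sum_congr rfl (fun w hw => ?_)
      rw [(mem_filter.1 hw).2]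
    · intro w hw w' hw' h
      simp only [coe_filter, Set.mem_ofPred_eq] at hw hw'
      exact hinj hw.1 hw'.1 (Prod.ext h (hw.2.trans hw'.2.symm))
  rw [heq]
  exact mul_le_mul_of_nonneg_left (hM d hd) (hu d hd)

/-- Dyadically sparse sets of `c ≤ a`. -/
theorem sum_dyadic_s_le {a : ℕ} {T : Finset ℕ} {ε : ℝ} (hε : 0 ≤ ε)
    (hT : ∀ c ∈ T, 0 < c ∧ c ≤ a)
    (hsparse : ∀ j : ℕ, ((T.filter (fun c => Nat.log 2 c = j)).card : ℝ) ≤ ε * 2 ^ j) :
    ∑ c ∈ T, ((a : ℝ) / c) ^ sExp ≤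
      ε * a * ((2 : ℝ) ^ (1 - sExp) / ((2 : ℝ) ^ (1 - sExp) - 1)) := by
  rcases Nat.eq_zero_or_pos a with ha | ha
  · have : T = ∅ := eq_empty_of_forall_notMem (fun c hc => by have := hT c hc; omega)
    subst ha this; simp
  set r : ℝ := (2 : ℝ) ^ (1 - sExp) with hr
  have hs : 0 ≤ 1 - sExp := by norm_num [sExp]
  have hr1 : 1 < r := Real.one_lt_rpow (by norm_num) (by norm_num [sExp])
  have haR : (0 : ℝ) < a := by exact_mod_cast ha
  have hmap : ∀ c ∈ T, Nat.log 2 c ∈ range (Nat.log 2 a + 1) := fun c hc =>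
    mem_range.2 (Nat.lt_succ_of_le (Nat.log_mono_right (hT c hc).2))
  rw [← sum_fiberwise_of_maps_to hmap]
  have hblock : ∀ j ∈ range (Nat.log 2 a + 1),
      ∑ c ∈ T.filter (fun c => Nat.log 2 c = j), ((a : ℝ) / c) ^ sExp ≤
        ε * (a : ℝ) ^ sExp * r ^ j := by
    intro j _
    have h1 : ∀ c ∈ T.filter (fun c => Nat.log 2 c = j),
        ((a : ℝ) / c) ^ sExp ≤ ((a : ℝ) / 2 ^ j) ^ sExp := by
      intro c hc
      rw [mem_filter] at hc
      have hle : 2 ^ j ≤ c := hc.2 ▸ Nat.pow_log_le_self 2 (hT c hc.1).1.ne'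
      have hcR : (2 : ℝ) ^ j ≤ c := by exact_mod_cast hle
      refine Real.rpow_le_rpow (by positivity) ?_ (by norm_num [sExp])
      exact div_le_div_of_nonneg_left haR.le (by positivity) hcR
    refine le_trans (sum_le_card_nsmul _ _ _ h1) ?_
    rw [nsmul_eq_mul]
    refine le_trans (mul_le_mul_of_nonneg_right (hsparse j) (by positivity)) (le_of_eq ?_)
    have h2 : r ^ j = (2 : ℝ) ^ j / ((2 : ℝ) ^ j) ^ sExp := by
      rw [hr, ← Real.rpow_natCast, ← Real.rpow_mul (by norm_num), ← Real.rpow_natCast (2 : ℝ) j,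
        ← Real.rpow_mul (by norm_num), ← Real.rpow_sub (by norm_num)]
      congr 1; ring
    rw [h2, Real.div_rpow haR.le (by positivity)]
    ring
  refine le_trans (sum_le_sum hblock) ?_
  rw [← mul_sum, geom_sum_eq hr1.ne']
  have hJ : r ^ Nat.log 2 a ≤ (a : ℝ) ^ (1 - sExp) := by
    rw [hr, ← Real.rpow_natCast, ← Real.rpow_mul (by norm_num), mul_comm,
      Real.rpow_mul (by norm_num), Real.rpow_natCast]
    refine Real.rpow_le_rpow (by positivity) ?_ hs
    exact_mod_cast Nat.pow_log_le_self 2 ha.ne'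
  have h3 : (r ^ (Nat.log 2 a + 1) - 1) / (r - 1) ≤ (a : ℝ) ^ (1 - sExp) * (r / (r - 1)) := by
    rw [mul_div_assoc', pow_succ]
    apply div_le_div_of_nonneg_right _ (by linarith)
    have := mul_le_mul_of_nonneg_right hJ (by linarith : (0 : ℝ) ≤ r)
    linarith
  refine le_trans (mul_le_mul_of_nonneg_left h3 (by positivity)) (le_of_eq ?_)
  have h4 : (a : ℝ) ^ sExp * (a : ℝ) ^ (1 - sExp) = a := by
    rw [← Real.rpow_add haR]; simp
  linear_combination (ε * (r / (r - 1))) * h4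

/-- Dyadically sparse sets of `c ≥ a`. -/
theorem sum_dyadic_t_le {a : ℕ} (ha : 0 < a) {T : Finset ℕ} {ε : ℝ} (hε : 0 ≤ ε)
    (hT : ∀ c ∈ T, a ≤ c)
    (hsparse : ∀ j : ℕ, ((T.filter (fun c => Nat.log 2 c = j)).card : ℝ) ≤ ε * 2 ^ j) :
    ∑ c ∈ T, ((a : ℝ) / c) ^ tExp ≤
      ε * a * ((2 : ℝ) ^ (tExp - 1) / (1 - (2 : ℝ) ^ (1 - tExp))) := by
  set r : ℝ := (2 : ℝ) ^ (1 - tExp) with hr
  have ht : (1 : ℝ) - tExp ≤ 0 := by norm_num [tExp]
  have hr1 : r < 1 := Real.rpow_lt_one_of_one_lt_of_neg (by norm_num) (by norm_num [tExp])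
  have hr0 : 0 ≤ r := by positivity
  have haR : (0 : ℝ) < a := by exact_mod_cast ha
  have hmap : ∀ c ∈ T, Nat.log 2 c ∈ Ico (Nat.log 2 a) (Nat.log 2 (T.sup id) + 1) := fun c hc =>
    mem_Ico.2 ⟨Nat.log_mono_right (hT c hc),
      Nat.lt_succ_of_le (Nat.log_mono_right (Finset.le_sup (f := id) hc))⟩
  rw [← sum_fiberwise_of_maps_to hmap]
  have hblock : ∀ j ∈ Ico (Nat.log 2 a) (Nat.log 2 (T.sup id) + 1),
      ∑ c ∈ T.filter (fun c => Nat.log 2 c = j), ((a : ℝ) / c) ^ tExp ≤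
        ε * (a : ℝ) ^ tExp * r ^ j := by
    intro j _
    have h1 : ∀ c ∈ T.filter (fun c => Nat.log 2 c = j),
        ((a : ℝ) / c) ^ tExp ≤ ((a : ℝ) / 2 ^ j) ^ tExp := by
      intro c hc
      rw [mem_filter] at hc
      have hle : 2 ^ j ≤ c :=
        hc.2 ▸ Nat.pow_log_le_self 2 (by have := hT c hc.1; omega)
      have hcR : (2 : ℝ) ^ j ≤ c := by exact_mod_cast hle
      refine Real.rpow_le_rpow (by positivity) ?_ (by norm_num [tExp])
      exact div_le_div_of_nonneg_left haR.le (by positivity) hcR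
    refine le_trans (sum_le_card_nsmul _ _ _ h1) ?_
    rw [nsmul_eq_mul]
    refine le_trans (mul_le_mul_of_nonneg_right (hsparse j) (by positivity)) (le_of_eq ?_)
    have h2 : r ^ j = (2 : ℝ) ^ j / ((2 : ℝ) ^ j) ^ tExp := by
      rw [hr, ← Real.rpow_natCast, ← Real.rpow_mul (by norm_num), ← Real.rpow_natCast (2 : ℝ) j,
        ← Real.rpow_mul (by norm_num), ← Real.rpow_sub (by norm_num)]
      congr 1; ring
    rw [h2, Real.div_rpow haR.le (by positivity)]
    ring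
  refine le_trans (sum_le_sum hblock) ?_
  rw [← mul_sum]
  refine le_trans (mul_le_mul_of_nonneg_left (geom_sum_Ico_le_of_lt_one hr0 hr1) (by positivity)) ?_
  have hlog : (a : ℝ) / 2 ≤ (2 : ℝ) ^ Nat.log 2 a := by
    have h := Nat.lt_pow_succ_log_self (b := 2) (by norm_num) a
    rw [pow_succ] at h
    have : (a : ℝ) < (2 : ℝ) ^ Nat.log 2 a * 2 := by exact_mod_cast h
    linarith
  have hJ : r ^ Nat.log 2 a ≤ (a : ℝ) ^ (1 - tExp) * (2 : ℝ) ^ (tExp - 1) := by
    have h5 : (a : ℝ) ^ (1 - tExp) * (2 : ℝ) ^ (tExp - 1) = ((a : ℝ) / 2) ^ (1 - tExp) := by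
      rw [Real.div_rpow haR.le (by norm_num), show tExp - 1 = -(1 - tExp) by ring,
        Real.rpow_neg (by norm_num), div_eq_mul_inv]
    rw [h5, hr, ← Real.rpow_natCast, ← Real.rpow_mul (by norm_num), mul_comm,
      Real.rpow_mul (by norm_num), Real.rpow_natCast]
    exact Real.rpow_le_rpow_of_nonpos (by positivity) hlog ht
  refine le_trans (mul_le_mul_of_nonneg_left
    (div_le_div_of_nonneg_right hJ (by linarith)) (by positivity)) (le_of_eq ?_)
  have h4 : (a : ℝ) ^ tExp * (a : ℝ) ^ (1 - tExp) = a := by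
    rw [← Real.rpow_add haR]; simp
  linear_combination (ε * ((2 : ℝ) ^ (tExp - 1) / (1 - r))) * h4

/-- The constant of the dyadic sums. -/
def cDy : ℝ :=
  max 1 (max ((2 : ℝ) ^ (1 - sExp) / ((2 : ℝ) ^ (1 - sExp) - 1))
    ((2 : ℝ) ^ (tExp - 1) / (1 - (2 : ℝ) ^ (1 - tExp))))

theorem one_le_cDy : 1 ≤ cDy := le_max_left _ _

/-- The large divisors weigh little. -/
theorem centre_large_le {N : ℕ} (hN : 0 < N) {Γ : ℝ} (hΓ : 0 < Γ) :
    ∑ d ∈ N.divisors.filter (fun d : ℕ => Γ ≤ (d : ℝ)),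
        (Nat.totient N : ℝ) / N / (Nat.totient d : ℝ) ≤ (N.divisors.card : ℝ) ^ 2 / Γ := by
  have h1 : ∀ d ∈ N.divisors.filter (fun d : ℕ => Γ ≤ (d : ℝ)),
      (Nat.totient N : ℝ) / N / (Nat.totient d : ℝ) ≤ (N.divisors.card : ℝ) / Γ := by
    intro d hd
    rw [mem_filter] at hd
    obtain ⟨hd, hdΓ⟩ := hd
    have hd0 : 0 < d := Nat.pos_of_mem_divisors hd
    have hNR : (0 : ℝ) < N := by exact_mod_cast hN
    have hdR : (0 : ℝ) < d := by exact_mod_cast hd0
    have hp : (0 : ℝ) < Nat.totient d := by exact_mod_cast Nat.totient_pos.2 hd0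
    have hN1 : (Nat.totient N : ℝ) / N ≤ 1 :=
      (div_le_one hNR).2 (by exact_mod_cast Nat.totient_le N)
    have h2 : (d.divisors.card : ℝ) ≤ N.divisors.card := by
      exact_mod_cast card_le_card
        (Nat.divisors_subset_of_dvd hN.ne' (Nat.dvd_of_mem_divisors hd))
    calc (Nat.totient N : ℝ) / N / (Nat.totient d : ℝ) ≤ 1 / (Nat.totient d : ℝ) :=
          div_le_div_of_nonneg_right hN1 hp.le
      _ = (d : ℝ) / Nat.totient d / d := by field_simp
      _ ≤ (d.divisors.card : ℝ) / d :=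
          div_le_div_of_nonneg_right (div_totient_le_card_divisors d hd0) hdR.le
      _ ≤ (N.divisors.card : ℝ) / Γ := div_le_div₀ (by positivity) h2 hΓ hdΓ
  refine le_trans (sum_le_card_nsmul _ _ _ h1) ?_
  rw [nsmul_eq_mul, sq, mul_div_assoc]
  exact mul_le_mul_of_nonneg_right (by exact_mod_cast card_filter_le _ _) (by positivity)

end Vale.Agent.P028
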