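import Vale.Agent.P028.GainState

/-!
The four classes of pairs in a final state, and the final bound for the splitting argument.
-/

noncomputable section

namespace Vale.Agent.P028

open Finset
open scoped Classical

/-- A pair of the class `d` large. -/
def LargeD (γ : ℝ) (ψ : ℕ → ℝ) (A : ℤ) (B : ℕ) (x ell : ℝ) (U : Finset ℕ) (k : ℕ → ℕ)
    (v w : ℕ) : Prop :=
  Base γ ψ A B x ell U k v w ∧ Real.exp (ell / 8) ≤ (downDev U k w : ℝ)

/-- A pair of the class `b` large. -/
def LargeB (γ : ℝ) (ψ : ℕ → ℝ) (A : ℤ) (B : ℕ) (x ell : ℝ) (U : Finset ℕ) (k : ℕ → ℕ)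
    (v w : ℕ) : Prop :=
  Base γ ψ A B x ell U k v w ∧ Real.exp (ell / 8) ≤ (downDev U k v : ℝ)

/-- The pairs with all of `Q1`, `R1`, `b`, `d` small. -/
def Small (γ : ℝ) (ψ : ℕ → ℝ) (A : ℤ) (B : ℕ) (x ell : ℝ) (U : Finset ℕ) (k : ℕ → ℕ)
    (v w : ℕ) : Prop :=
  Base γ ψ A B x ell U k v w ∧ (downDev U k w : ℝ) < Real.exp (ell / 8) ∧
    (downDev U k v : ℝ) < Real.exp (ell / 8)

/-- A small pair with a minor arc for `c`. -/
def MinorC (γ : ℝ) (ψ : ℕ → ℝ) (A : ℤ) (B : ℕ) (x ell : ℝ) (P U : Finset ℕ) (i j k : ℕ → ℕ)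
    (v w : ℕ) : Prop :=
  Small γ ψ A B x ell U k v w ∧
    ¬ Maj x (γ * (fixedPart (P \ U) j i * downDev U k v : ℕ)) (upDev U k w)

/-- A small pair with a minor arc for `a`. -/
def MinorA (γ : ℝ) (ψ : ℕ → ℝ) (A : ℤ) (B : ℕ) (x ell : ℝ) (P U : Finset ℕ) (i j k : ℕ → ℕ)
    (v w : ℕ) : Prop :=
  Small γ ψ A B x ell U k v w ∧
    ¬ Maj x (γ * (fixedPart (P \ U) i j * downDev U k w : ℕ)) (upDev U k v)

section State

variable {γ : ℝ} {ψ : ℕ → ℝ} {A : ℤ} {B : ℕ} {x ell L : ℝ} {P S U V W : Finset ℕ}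
  {i j k : ℕ → ℕ}

theorem spare_mul (h : FinState P S U V W i j) {E : ℝ} (hE : E ≤ x ^ (17 / 1000 : ℝ))
    (hx : 0 ≤ x) :
    E ≤ x ^ (17 / 1000 : ℝ) * ((fixedPart (P \ U) i j : ℝ) ^ (2 / 1000 : ℝ) *
      (fixedPart (P \ U) j i : ℝ) ^ (1 / 1000 : ℝ)) :=
  hE.trans (le_mul_of_one_le_right (Real.rpow_nonneg hx _) (one_le_spare h))

theorem large_d_le (hwin : Win ψ S γ A B ell L) (h : FinState P S U V W i j)
    (hψ : ∀ q, 0 ≤ ψ q) (hs : Scale ell x) :
    pairSum ψ V W (LargeD γ ψ A B x ell U k) ≤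
      2 * cState * stateBound ψ S V W x (fixedPart (P \ U) i j) (fixedPart (P \ U) j i) := by
  set ε : ℝ := Real.exp (2 * nuC * ell) / Real.exp (ell / 8) with hε
  have hK : 0 ≤ cCen * cRat := mul_nonneg (by linarith [one_le_cCen]) (by linarith [one_le_cRat])
  have hε0 : 0 ≤ ε := by rw [hε]; positivity
  refine class_le h hψ hs.x_pos _ (fun _ _ _ _ h => h.1) (cRat * ε) (cCen * cRat) cState
    (mul_nonneg (by linarith [one_le_cRat]) hε0) hK ?_ (G2_const h _ (fun _ _ _ _ h => h.1)) ?_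
  · intro v hv
    by_cases he : ∃ w ∈ W, LargeD γ ψ A B x ell U k v w
    swap
    · refine le_of_eq_of_le (sum_eq_zero (fun w hw => ?_))
        (mul_nonneg (by linarith [one_le_cRat]) hε0)
      exact absurd ⟨w, mem_filter.1 hw⟩ he
    · obtain ⟨w, hw'⟩ := he
      refine le_trans (G1_le h (LargeD γ ψ A B x ell U k)
        (fun _ _ _ _ h => h.1) (fun d => Real.exp (ell / 8) ≤ d)
        (fun _ _ _ _ h => h.2) hv cRat (fun d => sum_ratio_s_le (upPos h v)
          (image_up_s _ h (fun _ _ _ _ h => h.1) hv))) ?_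
      rw [mul_comm cRat]
      refine mul_le_mul_of_nonneg_right ?_ (by linarith [one_le_cRat])
      convert large_sum_le hwin h hv hw'.1 hw'.2.1.2.1 (Real.exp_pos (ell / 8)) using 3
  · have hcr : cRat ≤ 10 * cBohr * cDy * cCen * cRat :=
      le_trans (le_mul_of_one_le_left (by linarith [one_le_cRat]) one_le_cCen) cConst_le
    refine le_trans (gx_le (mul_nonneg (by linarith [one_le_cRat]) hε0) hK hε0 zero_le_one
      (mul_le_mul_of_nonneg_right hcr hε0) (by simpa using cConst_le)) ?_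
    rw [Real.one_rpow, mul_one, mul_assoc]
    refine mul_le_mul_of_nonneg_left (spare_mul h ?_ hs.x_pos.le) (by linarith [one_le_cState])
    rw [hε, ← Real.exp_sub, ← Real.exp_mul]
    refine le_trans (Real.exp_le_exp.2 ?_) (scale_exp_small hs (c := 1 / 100) (by norm_num))
    have := hs.ell_big
    norm_num [nuC, alpha1]; linarith

theorem large_b_le (hwin : Win ψ S γ A B ell L) (h : FinState P S U V W i j)
    (hψ : ∀ q, 0 ≤ ψ q) (hs : Scale ell x) :
    pairSum ψ V W (LargeB γ ψ A B x ell U k) ≤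
      2 * cState * stateBound ψ S V W x (fixedPart (P \ U) i j) (fixedPart (P \ U) j i) := by
  set ε : ℝ := Real.exp (2 * nuC * ell) / Real.exp (ell / 8) with hε
  have hK : 0 ≤ cCen * cRat := mul_nonneg (by linarith [one_le_cCen]) (by linarith [one_le_cRat])
  have hε0 : 0 ≤ ε := by rw [hε]; positivity
  refine class_le h hψ hs.x_pos _ (fun _ _ _ _ h => h.1) (cCen * cRat) (cRat * ε) cState hK
    (mul_nonneg (by linarith [one_le_cRat]) hε0) (G1_const h _ (fun _ _ _ _ h => h.1)) ?_ ?_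
  · intro w hw
    by_cases he : ∃ v ∈ V, LargeB γ ψ A B x ell U k v w
    swap
    · refine le_of_eq_of_le (sum_eq_zero (fun v hv => ?_))
        (mul_nonneg (by linarith [one_le_cRat]) hε0)
      exact absurd ⟨v, mem_filter.1 hv⟩ he
    · obtain ⟨v, hv'⟩ := he
      refine le_trans (G2_le h (LargeB γ ψ A B x ell U k)
        (fun _ _ _ _ h => h.1) (fun d => Real.exp (ell / 8) ≤ d)
        (fun _ _ _ _ h => h.2) hw cRat (fun d => sum_ratio_t_le (upPos h w)
          (image_up_t _ (fun _ _ _ _ h => h.1) hw))) ?_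
      rw [mul_comm cRat]
      refine mul_le_mul_of_nonneg_right ?_ (by linarith [one_le_cRat])
      convert large_sum_le hwin h hv'.1 hw hv'.2.1.2.1 (Real.exp_pos (ell / 8)) using 3
  · have hcr : cRat ≤ 10 * cBohr * cDy * cCen * cRat :=
      le_trans (le_mul_of_one_le_left (by linarith [one_le_cRat]) one_le_cCen) cConst_le
    refine le_trans (gx_le hK (mul_nonneg (by linarith [one_le_cRat]) hε0) zero_le_one hε0
      (by simpa using cConst_le) (mul_le_mul_of_nonneg_right hcr hε0)) ?_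
    rw [Real.one_rpow, one_mul, mul_assoc]
    refine mul_le_mul_of_nonneg_left (spare_mul h ?_ hs.x_pos.le) (by linarith [one_le_cState])
    rw [hε, ← Real.exp_sub, ← Real.exp_mul]
    refine le_trans (Real.exp_le_exp.2 ?_) (scale_exp_small hs (c := 1 / 100) (by norm_num))
    have := hs.ell_big
    norm_num [nuC, alpha2]; linarith

theorem small_facts (h : FinState P S U V W i j)
    (hQ : (fixedPart (P \ U) i j : ℝ) < Real.exp (ell / 8))
    (hR : (fixedPart (P \ U) j i : ℝ) < Real.exp (ell / 8)) {v w : ℕ} (hv : v ∈ V) (hw : w ∈ W)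
    (hvw : Small γ ψ A B x ell U k v w) :
    Real.exp (ell / 2) ≤ (upDev U k v : ℝ) ∧ Real.exp (ell / 2) ≤ (upDev U k w : ℝ) ∧
    (fixedPart (P \ U) i j : ℝ) * downDev U k w ≤ Real.exp (ell / 4) ∧
    (fixedPart (P \ U) j i : ℝ) * downDev U k v ≤ Real.exp (ell / 4) ∧
    qd v w = fixedPart (P \ U) i j * (upDev U k v * downDev U k w) ∧
    qd w v = fixedPart (P \ U) j i * (upDev U k w * downDev U k v) := by
  obtain ⟨⟨hbad, hk, -⟩, hd, hb⟩ := hvw
  obtain ⟨e1, e2⟩ := qd_eq_of_finState h hv hw hk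
  have h14 : Real.exp (ell / 8) * Real.exp (ell / 8) = Real.exp (ell / 4) := by
    rw [← Real.exp_add]; congr 1; ring
  have f1 : (fixedPart (P \ U) i j : ℝ) * downDev U k w ≤ Real.exp (ell / 4) := by
    rw [← h14]; exact mul_le_mul hQ.le hd.le (by positivity) (Real.exp_pos _).le
  have f2 : (fixedPart (P \ U) j i : ℝ) * downDev U k v ≤ Real.exp (ell / 4) := by
    rw [← h14]; exact mul_le_mul hR.le hb.le (by positivity) (Real.exp_pos _).le
  have h34 : Real.exp (ell / 2) * Real.exp (ell / 4) = Real.exp (3 * ell / 4) := by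
    rw [← Real.exp_add]; congr 1; ring
  refine ⟨?_, ?_, f1, f2, e1, e2⟩
  · have h1 := hbad.2.2.1
    rw [e1, ← h34] at h1
    push_cast at h1
    refine le_of_mul_le_mul_right ?_ (Real.exp_pos (ell / 4))
    have := mul_le_mul_of_nonneg_left f1 (Nat.cast_nonneg (α := ℝ) (upDev U k v))
    linarith
  · have h1 := hbad.2.2.2.1
    rw [e2, ← h34] at h1
    push_cast at h1
    refine le_of_mul_le_mul_right ?_ (Real.exp_pos (ell / 4))
    have := mul_le_mul_of_nonneg_left f2 (Nat.cast_nonneg (α := ℝ) (upDev U k w))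
    linarith

theorem minor_exponent (hs : Scale ell x) {a : ℝ} (ha : 17 / 1000 ≤ 1 / 20 * a) :
    (x ^ (1 / 20 : ℝ)) ^ a ≤ x ^ (17 / 1000 : ℝ) := by
  rw [← Real.rpow_mul hs.x_pos.le]
  exact Real.rpow_le_rpow_of_exponent_ge hs.x_pos hs.x_le_one ha

theorem minor_c_le (h : FinState P S U V W i j)
    (hψ : ∀ q, 0 ≤ ψ q) (hs : Scale ell x)
    (hQ : (fixedPart (P \ U) i j : ℝ) < Real.exp (ell / 8))
    (hR : (fixedPart (P \ U) j i : ℝ) < Real.exp (ell / 8)) :
    pairSum ψ V W (MinorC γ ψ A B x ell P U i j k) ≤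
      2 * cState * stateBound ψ S V W x (fixedPart (P \ U) i j) (fixedPart (P \ U) j i) := by
  have hK : 0 ≤ cCen * cRat := mul_nonneg (by linarith [one_le_cCen]) (by linarith [one_le_cRat])
  set u : ℝ := x ^ (1 / 20 : ℝ) with hudef
  have hu : 0 ≤ u := Real.rpow_nonneg hs.x_pos.le _
  have hB := one_le_cBohr
  have hD := one_le_cDy
  have hC := one_le_cCen
  have hG1n : 0 ≤ cCen * (10 * cBohr * cDy * u) := by positivity
  refine class_le h hψ hs.x_pos _ (fun _ _ _ _ h => h.1.1) (cCen * (10 * cBohr * cDy * u))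
    (cCen * cRat) cState hG1n hK ?_ (G2_const h _ (fun _ _ _ _ h => h.1.1)) ?_
  · intro v hv
    refine le_trans (G1_le h (MinorC γ ψ A B x ell P U i j k)
      (fun _ _ _ _ h => h.1.1) (fun _ => True) (fun _ _ _ _ _ => trivial)
      hv (10 * cBohr * cDy * u) (fun d => ?_)) ?_
    · set T := ((W.filter (fun w => MinorC γ ψ A B x ell P U i j k v w)).filter
          (fun w => downDev U k w = d)).image (upDev U k) with hT
      have hmem : ∀ c ∈ T, ∃ w ∈ W, upDev U k w = c ∧ downDev U k w = d ∧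
          Small γ ψ A B x ell U k v w ∧
          ¬ Maj x (γ * (fixedPart (P \ U) j i * downDev U k v : ℕ)) c := by
        intro c hc
        simp only [hT, mem_image, mem_filter] at hc
        obtain ⟨w, ⟨⟨hw, h1, h2⟩, h3⟩, rfl⟩ := hc
        exact ⟨w, hw, rfl, h3, h1, h2⟩
      have hTpos : ∀ c ∈ T, 0 < c ∧ c ≤ upDev U k v := fun c hc => by
        obtain ⟨w, hw, rfl, -, h1, -⟩ := hmem c hc
        exact ⟨upPos h w, h1.1.2.2⟩
      refine le_trans (sum_dyadic_s_le (ε := 10 * cBohr * u) (by positivity) hTpos (fun jj => ?_)) ?_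
      · refine minor_block_le hs (α := γ * (fixedPart (P \ U) j i * downDev U k v : ℕ))
          (β := γ * (fixedPart (P \ U) i j * (upDev U k v * d) : ℕ)) ?_
          (fun c hc => (mem_filter.1 hc).2) ?_ ?_
        · intro c hc
          obtain ⟨w, hw, rfl, -, h1, -⟩ := hmem c (mem_filter.1 hc).1
          exact (small_facts h hQ hR hv hw h1).2.1
        · intro c hc
          obtain ⟨w, hw, rfl, -, -, h2⟩ := hmem c (mem_filter.1 hc).1
          exact h2
        · intro c hc
          obtain ⟨w, hw, rfl, rfl, h1, -⟩ := hmem c (mem_filter.1 hc).1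
          obtain ⟨-, -, -, -, e1, e2⟩ := small_facts h hQ hR hv hw h1
          obtain ⟨n, hn, -⟩ := h1.1.1.2.2.2.2
          refine ⟨n, le_of_eq_of_le (congrArg abs ?_) hn⟩
          simp only [mdiff, e1, e2]; push_cast; ring
      · calc 10 * cBohr * u * (upDev U k v : ℝ) *
              ((2 : ℝ) ^ (1 - sExp) / ((2 : ℝ) ^ (1 - sExp) - 1))
            ≤ 10 * cBohr * u * (upDev U k v : ℝ) * cDy := by
              refine mul_le_mul_of_nonneg_left ?_ (by positivity)
              exact le_max_of_le_right (le_max_left _ _)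
          _ = _ := by ring
    · refine mul_le_mul_of_nonneg_right ?_ (by positivity)
      refine le_of_eq_of_le (sum_congr ?_ fun _ _ => rfl) (centre_sum_filter_le (k := k) h)
      simp only [filter_true]
  · refine le_trans (gx_le hG1n hK hu zero_le_one ?_ (by simpa using cConst_le)) ?_
    · calc cCen * (10 * cBohr * cDy * u) = 10 * cBohr * cDy * cCen * 1 * u := by ring
        _ ≤ 10 * cBohr * cDy * cCen * cRat * u := by
            gcongr; exact one_le_cRat
    rw [Real.one_rpow, mul_one, mul_assoc]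
    refine mul_le_mul_of_nonneg_left (spare_mul h ?_ hs.x_pos.le) (by linarith [one_le_cState])
    exact minor_exponent hs (by norm_num [alpha1])

theorem minor_a_le (h : FinState P S U V W i j)
    (hψ : ∀ q, 0 ≤ ψ q) (hs : Scale ell x)
    (hQ : (fixedPart (P \ U) i j : ℝ) < Real.exp (ell / 8))
    (hR : (fixedPart (P \ U) j i : ℝ) < Real.exp (ell / 8)) :
    pairSum ψ V W (MinorA γ ψ A B x ell P U i j k) ≤
      2 * cState * stateBound ψ S V W x (fixedPart (P \ U) i j) (fixedPart (P \ U) j i) := by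
  have hK : 0 ≤ cCen * cRat := mul_nonneg (by linarith [one_le_cCen]) (by linarith [one_le_cRat])
  set u : ℝ := x ^ (1 / 20 : ℝ) with hudef
  have hu : 0 ≤ u := Real.rpow_nonneg hs.x_pos.le _
  have hB := one_le_cBohr
  have hD := one_le_cDy
  have hC := one_le_cCen
  have hG2n : 0 ≤ cCen * (10 * cBohr * cDy * u) := by positivity
  refine class_le h hψ hs.x_pos _ (fun _ _ _ _ h => h.1.1) (cCen * cRat)
    (cCen * (10 * cBohr * cDy * u)) cState hK hG2n (G1_const h _ (fun _ _ _ _ h => h.1.1)) ?_ ?_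
  · intro w hw
    refine le_trans (G2_le h (MinorA γ ψ A B x ell P U i j k)
      (fun _ _ _ _ h => h.1.1) (fun _ => True) (fun _ _ _ _ _ => trivial)
      hw (10 * cBohr * cDy * u) (fun d => ?_)) ?_
    · set T := ((V.filter (fun v => MinorA γ ψ A B x ell P U i j k v w)).filter
          (fun v => downDev U k v = d)).image (upDev U k) with hT
      have hmem : ∀ c ∈ T, ∃ v ∈ V, upDev U k v = c ∧ downDev U k v = d ∧
          Small γ ψ A B x ell U k v w ∧
          ¬ Maj x (γ * (fixedPart (P \ U) i j * downDev U k w : ℕ)) c := by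
        intro c hc
        simp only [hT, mem_image, mem_filter] at hc
        obtain ⟨v, ⟨⟨hv, h1, h2⟩, h3⟩, rfl⟩ := hc
        exact ⟨v, hv, rfl, h3, h1, h2⟩
      have hTpos : ∀ c ∈ T, upDev U k w ≤ c := fun c hc => by
        obtain ⟨v, hv, rfl, -, h1, -⟩ := hmem c hc
        exact h1.1.2.2
      refine le_trans (sum_dyadic_t_le (ε := 10 * cBohr * u) (upPos h w) (by positivity) hTpos
        (fun jj => ?_)) ?_
      · refine minor_block_le hs (α := γ * (fixedPart (P \ U) i j * downDev U k w : ℕ))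
          (β := γ * (fixedPart (P \ U) j i * (upDev U k w * d) : ℕ)) ?_
          (fun c hc => (mem_filter.1 hc).2) ?_ ?_
        · intro c hc
          obtain ⟨v, hv, rfl, -, h1, -⟩ := hmem c (mem_filter.1 hc).1
          exact (small_facts h hQ hR hv hw h1).1
        · intro c hc
          obtain ⟨v, hv, rfl, -, -, h2⟩ := hmem c (mem_filter.1 hc).1
          exact h2
        · intro c hc
          obtain ⟨v, hv, rfl, rfl, h1, -⟩ := hmem c (mem_filter.1 hc).1
          obtain ⟨-, -, -, -, e1, e2⟩ := small_facts h hQ hR hv hw h1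
          obtain ⟨n, hn, -⟩ := h1.1.1.2.2.2.2
          refine ⟨-n, le_of_eq_of_le ?_ hn⟩
          rw [← abs_neg]
          congr 1
          simp only [mdiff, e1, e2]; push_cast; ring
      · calc 10 * cBohr * u * (upDev U k w : ℝ) *
              ((2 : ℝ) ^ (tExp - 1) / (1 - (2 : ℝ) ^ (1 - tExp)))
            ≤ 10 * cBohr * u * (upDev U k w : ℝ) * cDy := by
              refine mul_le_mul_of_nonneg_left ?_ (by positivity)
              exact le_max_of_le_right (le_max_right _ _)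
          _ = _ := by ring
    · refine mul_le_mul_of_nonneg_right ?_ (by positivity)
      refine le_of_eq_of_le (sum_congr ?_ fun _ _ => rfl) (centre_sum_filter_le (k := k) h)
      simp only [filter_true]
  · refine le_trans (gx_le hK hG2n zero_le_one hu (by simpa using cConst_le) ?_) ?_
    · calc cCen * (10 * cBohr * cDy * u) = 10 * cBohr * cDy * cCen * 1 * u := by ring
        _ ≤ 10 * cBohr * cDy * cCen * cRat * u := by
            gcongr; exact one_le_cRat
    rw [Real.one_rpow, one_mul, mul_assoc]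
    refine mul_le_mul_of_nonneg_left (spare_mul h ?_ hs.x_pos.le) (by linarith [one_le_cState])
    exact minor_exponent hs (by norm_num [alpha2])

theorem small_cases (hwin : Win ψ S γ A B ell L) (h : FinState P S U V W i j)
    (hs : Scale ell x)
    (hQ : (fixedPart (P \ U) i j : ℝ) < Real.exp (ell / 8))
    (hR : (fixedPart (P \ U) j i : ℝ) < Real.exp (ell / 8)) {v w : ℕ} (hv : v ∈ V) (hw : w ∈ W)
    (hvw : Small γ ψ A B x ell U k v w) :
    ¬ Maj x (γ * (fixedPart (P \ U) j i * downDev U k v : ℕ)) (upDev U k w) ∨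
      ¬ Maj x (γ * (fixedPart (P \ U) i j * downDev U k w : ℕ)) (upDev U k v) := by
  by_contra hc
  obtain ⟨h1, h2⟩ := not_or.1 hc
  rw [not_not] at h1 h2
  obtain ⟨ha, hc', hd, hb, e1, e2⟩ := small_facts h hQ hR hv hw hvw
  obtain ⟨⟨hbad, hk, -⟩, -, -⟩ := hvw
  obtain ⟨n, hn, hz⟩ := hbad.2.2.2.2
  have hR' : Real.exp (3 * ell / 4) ≤ (qd w v : ℝ) := hbad.2.2.2.1
  have hcop : Nat.Coprime (qd v w) (qd w v) := by
    have hg : 0 < Nat.gcd v w := Nat.gcd_pos_of_pos_left _ (h.pos_of_mem v (h.V_sub hv))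
    have := Nat.coprime_div_gcd_div_gcd hg
    simpa [qd, Nat.gcd_comm] using this
  rw [e1, e2] at hcop
  rw [e2] at hR'
  have hcop' : Nat.Coprime (fixedPart (P \ U) i j * downDev U k w)
      (fixedPart (P \ U) j i * downDev U k v) := by
    refine hcop.of_dvd ⟨upDev U k v, ?_⟩ ⟨upDev U k w, ?_⟩ <;> ring
  refine majors_absurd (a := upDev U k v) (b := downDev U k v) (c := upDev U k w)
    (d := downDev U k w) (Q1 := fixedPart (P \ U) i j) (R1 := fixedPart (P \ U) j i) (n := n)
    hs hwin.B_le hwin.delta_le hd hb ha hc' hR' hcop'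
    (Nat.mul_pos (q1_pos h) (downPos h w)) (Nat.mul_pos (r1_pos h) (downPos h v))
    ?_ ?_ h1 h2
  · simpa only [mdiff, e1, e2] using hn
  · simpa only [zform, mdiff, e1, e2] using hz

theorem pairSum_le_add (hψ : ∀ q, 0 ≤ ψ q) {R R1 R2 : ℕ → ℕ → Prop}
    (hle : ∀ v ∈ V, ∀ w ∈ W, R v w → R1 v w ∨ R2 v w) :
    pairSum ψ V W R ≤ pairSum ψ V W R1 + pairSum ψ V W R2 := by
  rw [pairSum, pairSum, pairSum, ← sum_add_distrib]
  refine sum_le_sum (fun v hv => ?_)
  rw [← sum_add_distrib]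
  refine sum_le_sum (fun w hw => ?_)
  have hp : 0 ≤ wt ψ v * wt ψ w := mul_nonneg (wt_nonneg hψ v) (wt_nonneg hψ w)
  by_cases hR : R v w
  · rcases hle v hv w hw hR with h1 | h1
    · by_cases h2 : R2 v w <;> simp [hR, h1, h2, hp]
    · by_cases h2 : R1 v w <;> simp [hR, h1, h2, hp]
  · by_cases h1 : R1 v w <;> by_cases h2 : R2 v w <;> simp [hR, h1, h2, hp, add_nonneg hp hp]

theorem half_state_le (hwin : Win ψ S γ A B ell L) (h : FinState P S U V W i j)
    (hψ : ∀ q, 0 ≤ ψ q) (hs : Scale ell x) :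
    pairSum ψ V W (Base γ ψ A B x ell U k) ≤
      8 * cState * stateBound ψ S V W x (fixedPart (P \ U) i j) (fixedPart (P \ U) j i) := by
  have hΦ := stateBound_nonneg hψ S V W hs.x_pos (fixedPart (P \ U) i j) (fixedPart (P \ U) j i)
  have hΦ' : 0 ≤ cState * stateBound ψ S V W x (fixedPart (P \ U) i j) (fixedPart (P \ U) j i) :=
    mul_nonneg (by linarith [one_le_cState]) hΦ
  by_cases hbig : Real.exp (ell / 8) ≤ (fixedPart (P \ U) i j : ℝ) ∨
      Real.exp (ell / 8) ≤ (fixedPart (P \ U) j i : ℝ)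
  · have := big_state_le (γ := γ) (A := A) (B := B) (k := k) h hψ hs hbig
    linarith
  obtain ⟨hQ, hR⟩ := not_or.1 hbig
  rw [not_le] at hQ hR
  set Rd := LargeD γ ψ A B x ell U k with hRd
  set Rb := LargeB γ ψ A B x ell U k with hRb
  set Rs := Small γ ψ A B x ell U k with hRs
  have s1 : pairSum ψ V W (Base γ ψ A B x ell U k) ≤
      pairSum ψ V W (fun v w => Rd v w ∨ Rb v w) + pairSum ψ V W Rs := by
    refine pairSum_le_add hψ (fun v _ w _ hvw => ?_)
    by_cases h1 : Real.exp (ell / 8) ≤ (downDev U k w : ℝ)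
    · exact Or.inl (Or.inl ⟨hvw, h1⟩)
    by_cases h2 : Real.exp (ell / 8) ≤ (downDev U k v : ℝ)
    · exact Or.inl (Or.inr ⟨hvw, h2⟩)
    exact Or.inr ⟨hvw, not_le.1 h1, not_le.1 h2⟩
  have s2 := pairSum_le_add (V := V) (W := W) hψ (R := fun v w => Rd v w ∨ Rb v w) (R1 := Rd)
    (R2 := Rb) (fun _ _ _ _ h => h)
  have s3 := pairSum_le_add (V := V) (W := W) hψ (R := Rs)
    (R1 := MinorC γ ψ A B x ell P U i j k)
    (R2 := MinorA γ ψ A B x ell P U i j k)
    (fun v hv w hw hvw => (small_cases hwin h hs hQ hR hv hw hvw).imp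
      (fun h1 => ⟨hvw, h1⟩) (fun h1 => ⟨hvw, h1⟩))
  have t1 : pairSum ψ V W Rd ≤ _ := large_d_le hwin h hψ hs
  have t2 : pairSum ψ V W Rb ≤ _ := large_b_le hwin h hψ hs
  have t3 : pairSum ψ V W (MinorC γ ψ A B x ell P U i j k) ≤ _ :=
    minor_c_le h hψ hs hQ hR
  have t4 : pairSum ψ V W (MinorA γ ψ A B x ell P U i j k) ≤ _ :=
    minor_a_le h hψ hs hQ hR
  linarith

end State

theorem finalBound_bad {γ : ℝ} {ψ : ℕ → ℝ} {A : ℤ} {B : ℕ} {x ell L : ℝ} {P S : Finset ℕ}
    (hwin : Win ψ S γ A B ell L) (hψ : ∀ q, 0 ≤ ψ q) (hs : Scale ell x)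
    (hP : ∀ p ∈ P, p.Prime) (hfac : ∀ q ∈ S, q.primeFactors ⊆ P) :
    FinalBound thetaC betaC
      (16 * cState * (mass ψ S ^ (alpha1 - alpha2) * x ^ (101 / 100 : ℝ))) P S (wt ψ)
      (fun v w => if Bad γ ψ A B x ell v w then 1 else 0) := by
  intro U V W i j k hU hV hW hVfix hWfix K' _ hK'le hK'dev
  have h : FinState P S U V W i j :=
    ⟨hP, hwin.pos_of_mem, hfac, hU, hV, hW, hVfix, hWfix⟩
  set Q := fixedPart (P \ U) i j with hQdef
  set R := fixedPart (P \ U) j i with hRdef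
  have hle : ∑ v ∈ V, ∑ w ∈ W, K' v w * (wt ψ v * wt ψ w) ≤
      pairSum ψ V W (Base γ ψ A B x ell U k) + pairSum ψ W V (Base γ ψ A B x ell U k) := by
    rw [pairSum, pairSum, sum_comm (s := W) (t := V), ← sum_add_distrib]
    refine sum_le_sum (fun v _ => ?_)
    rw [← sum_add_distrib]
    refine sum_le_sum (fun w _ => ?_)
    have hp : 0 ≤ wt ψ v * wt ψ w := mul_nonneg (wt_nonneg hψ v) (wt_nonneg hψ w)
    have hl := hK'le v w
    by_cases hz : K' v w = 0
    · rw [hz, zero_mul]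
      have hp' : 0 ≤ wt ψ w * wt ψ v := by rwa [mul_comm]
      refine add_nonneg ?_ ?_ <;> split_ifs <;> first | exact hp | exact hp' | exact le_rfl
    have hdev := hK'dev v w hz
    by_cases hb : Bad γ ψ A B x ell v w
    · simp only [if_pos hb] at hl
      have h1 : K' v w * (wt ψ v * wt ψ w) ≤ wt ψ v * wt ψ w := mul_le_of_le_one_left hp hl
      rcases le_total (upDev U k w) (upDev U k v) with hcase | hcase
      · rw [if_pos (show Base γ ψ A B x ell U k v w from ⟨hb, hdev, hcase⟩)]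
        refine h1.trans (le_add_of_nonneg_right ?_)
        split_ifs
        · rwa [mul_comm]
        · exact le_rfl
      · have hb' : Base γ ψ A B x ell U k w v :=
          ⟨hb.symm, fun p hp => (hdev p hp).symm, hcase⟩
        rw [if_pos hb', mul_comm (wt ψ w)]
        refine h1.trans (le_add_of_nonneg_left ?_)
        split_ifs
        · exact hp
        · exact le_rfl
    · simp only [if_neg hb] at hl
      refine le_trans (mul_nonpos_of_nonpos_of_nonneg hl hp) ?_
      have hp' : 0 ≤ wt ψ w * wt ψ v := by rwa [mul_comm]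
      refine add_nonneg ?_ ?_ <;> split_ifs <;> first | exact hp | exact hp' | exact le_rfl
  refine hle.trans ?_
  have e1 := half_state_le (k := k) hwin h hψ hs
  have e2 := half_state_le (k := k) hwin h.symm hψ hs
  have hsym : stateBound ψ S W V x R Q = stateBound ψ S V W x Q R := by
    rw [stateBound, stateBound, mul_comm (mass ψ W) (mass ψ V), mul_comm (R : ℝ) (Q : ℝ)]
  rw [← hQdef, ← hRdef, hsym] at e2
  rw [← hQdef, ← hRdef] at e1
  refine (add_le_add e1 e2).trans (le_of_eq ?_)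
  show _ = 16 * cState * (mass ψ S ^ (alpha1 - alpha2) * x ^ (101 / 100 : ℝ)) *
    (mass ψ V * mass ψ W) ^ thetaC / ((Q * R : ℕ) : ℝ) ^ betaC
  rw [stateBound]; push_cast; ring

end Vale.Agent.P028
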