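import Vale.Agent.P028.Defs

noncomputable section

namespace Vale.Agent.P028

open Finset

/-- The normalised count of admissible coincidences of the pairs with `lo < D ≤ hi`. -/
def enSum (γ : ℝ) (ψ : ℕ → ℝ) (A : ℤ) (B : ℕ) (S : Finset ℕ) (lo hi : ℝ) : ℝ :=
  ∑ q ∈ S, ∑ r ∈ S.filter (fun r => r ≠ q ∧ lo < dist2 ψ q r ∧ dist2 ψ q r ≤ hi),
    wt ψ q * wt ψ r / dist2 ψ q r * ((admSet γ ψ A B q r).card : ℝ)

/-- Threshold below which the levels are negligible. -/
def xFine (ell : ℝ) : ℝ := Real.exp (-(2 * etaC * ell))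

end Vale.Agent.P028
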