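import Vale.Agent.P028.GainArith

/-!
The bilinear bound in a final state for the pairs with a coincidence off the line.
-/

noncomputable section

namespace Vale.Agent.P028

open Finset
open scoped Classical

/-- The pairs which the bilinear bound treats. -/
def Bad (γ : ℝ) (ψ : ℕ → ℝ) (A : ℤ) (B : ℕ) (x ell : ℝ) (v w : ℕ) : Prop :=
  v ≠ w ∧ dist2 ψ v w ≤ 2 * x ∧ Real.exp (3 * ell / 4) ≤ (qd v w : ℝ) ∧
    Real.exp (3 * ell / 4) ≤ (qd w v : ℝ) ∧
    ∃ n : ℤ, |(n : ℝ) + γ * mdiff v w| ≤ 4 * x ∧ zform A B v w n ≠ 0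

theorem dist2_comm (ψ : ℕ → ℝ) (v w : ℕ) : dist2 ψ v w = dist2 ψ w v := max_comm _ _

theorem Bad.symm {γ : ℝ} {ψ : ℕ → ℝ} {A : ℤ} {B : ℕ} {x ell : ℝ} {v w : ℕ}
    (h : Bad γ ψ A B x ell v w) : Bad γ ψ A B x ell w v := by
  obtain ⟨h1, h2, h3, h4, n, hn, hz⟩ := h
  refine ⟨h1.symm, dist2_comm ψ v w ▸ h2, h4, h3, -n, ?_, ?_⟩
  · have : ((-n : ℤ) : ℝ) + γ * mdiff w v = -((n : ℝ) + γ * mdiff v w) := by
      simp only [mdiff]; push_cast; ring
    rwa [this, abs_neg]
  · contrapose! hz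
    simp only [zform, mdiff] at hz ⊢
    linarith

/-- The pairs of a final state with `c ≤ a`. -/
def Base (γ : ℝ) (ψ : ℕ → ℝ) (A : ℤ) (B : ℕ) (x ell : ℝ) (U : Finset ℕ) (k : ℕ → ℕ)
    (v w : ℕ) : Prop :=
  Bad γ ψ A B x ell v w ∧ NoCoDev U k v w ∧ upDev U k w ≤ upDev U k v

/-- The weighted number of the related pairs. -/
def pairSum (ψ : ℕ → ℝ) (V W : Finset ℕ) (R : ℕ → ℕ → Prop) : ℝ :=
  ∑ v ∈ V, ∑ w ∈ W, if R v w then wt ψ v * wt ψ w else 0

theorem wt_nonneg {ψ : ℕ → ℝ} (hψ : ∀ q, 0 ≤ ψ q) (q : ℕ) : 0 ≤ wt ψ q :=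
  mul_nonneg (by positivity) (hψ q)

theorem mass_nonneg {ψ : ℕ → ℝ} (hψ : ∀ q, 0 ≤ ψ q) (S : Finset ℕ) : 0 ≤ mass ψ S :=
  sum_nonneg (fun q _ => wt_nonneg hψ q)

/-- The bound aimed at in a final state. -/
def stateBound (ψ : ℕ → ℝ) (S V W : Finset ℕ) (x : ℝ) (Q1 R1 : ℕ) : ℝ :=
  mass ψ S ^ (alpha1 - alpha2) * (mass ψ V * mass ψ W) ^ thetaC * x ^ (101 / 100 : ℝ) /
    ((Q1 : ℝ) * R1) ^ betaC

theorem stateBound_nonneg {ψ : ℕ → ℝ} (hψ : ∀ q, 0 ≤ ψ q) (S V W : Finset ℕ) {x : ℝ} (hx : 0 < x)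
    (Q1 R1 : ℕ) : 0 ≤ stateBound ψ S V W x Q1 R1 := by
  have := mass_nonneg hψ S
  have := mass_nonneg hψ V
  have := mass_nonneg hψ W
  unfold stateBound
  positivity

section State

variable {γ : ℝ} {ψ : ℕ → ℝ} {A : ℤ} {B : ℕ} {x ell L : ℝ} {P S U V W : Finset ℕ}
  {i j k : ℕ → ℕ}

theorem upPos (h : FinState P S U V W i j) (v : ℕ) : 0 < upDev U k v :=
  upDev_pos h.prime_U k v

theorem downPos (h : FinState P S U V W i j) (v : ℕ) : 0 < downDev U k v :=
  downDev_pos h.prime_U k v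

theorem centre_pos (h : FinState P S U V W i j) : 0 < centre U k :=
  prod_pos (fun p hp => Nat.pow_pos (h.prime_mem p (h.U_sub hp)).pos)

theorem q1_pos (h : FinState P S U V W i j) : 0 < fixedPart (P \ U) i j :=
  fixedPart_pos (fun p hp => h.prime_mem p (mem_sdiff.1 hp).1) i j

theorem r1_pos (h : FinState P S U V W i j) : 0 < fixedPart (P \ U) j i :=
  fixedPart_pos (fun p hp => h.prime_mem p (mem_sdiff.1 hp).1) j i

theorem class_le (h : FinState P S U V W i j) (hψ : ∀ q, 0 ≤ ψ q) (hx : 0 < x)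
    (R : ℕ → ℕ → Prop) (hR : ∀ v ∈ V, ∀ w ∈ W, R v w → Base γ ψ A B x ell U k v w)
    (G1 G2 Cst : ℝ) (hG1n : 0 ≤ G1) (hG2n : 0 ≤ G2)
    (hG1 : ∀ v ∈ V, ∑ w ∈ W.filter (fun w => R v w),
      (Nat.totient (centre U k) : ℝ) / centre U k / Nat.totient (downDev U k w) *
        (((upDev U k v : ℝ) / upDev U k w) ^ sExp / upDev U k v) ≤ G1)
    (hG2 : ∀ w ∈ W, ∑ v ∈ V.filter (fun v => R v w),
      (Nat.totient (centre U k) : ℝ) / centre U k / Nat.totient (downDev U k v) *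
        (((upDev U k w : ℝ) / upDev U k v) ^ tExp / upDev U k w) ≤ G2)
    (hGx : G1 ^ alpha1 * G2 ^ alpha2 ≤ Cst * x ^ (17 / 1000 : ℝ) *
      ((fixedPart (P \ U) i j : ℝ) ^ (2 / 1000 : ℝ) *
        (fixedPart (P \ U) j i : ℝ) ^ (1 / 1000 : ℝ))) :
    pairSum ψ V W R ≤
      2 * Cst * stateBound ψ S V W x (fixedPart (P \ U) i j) (fixedPart (P \ U) j i) := by
  set Q : ℝ := (fixedPart (P \ U) i j : ℝ) with hQdef
  set R' : ℝ := (fixedPart (P \ U) j i : ℝ) with hRdef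
  have hQ : 0 < Q := by rw [hQdef]; exact_mod_cast q1_pos h
  have hR' : 0 < R' := by rw [hRdef]; exact_mod_cast r1_pos h
  have hfl := final_le (k := k) h ψ hψ (2 * x) (by positivity)
    (fun v w => if R v w then 1 else 0) (fun _ _ => 1) (fun _ _ => 1)
    (fun v w => by split_ifs <;> norm_num) (fun _ _ => zero_le_one)
    (fun _ _ => zero_le_one) (fun v w => by split_ifs <;> simp)
    (fun v hv w hw hne => by
      have hRvw : R v w := by
        by_contra hc
        exact hne (if_neg hc)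
      obtain ⟨hb, h1, h2⟩ := hR v hv w hw hRvw
      exact ⟨h1, hb.2.1, h2⟩)
    G1 G2 hG1n hG2n
    (fun v hv => le_trans (le_of_eq (sum_congr (filter_congr (fun w _ => by simp)) (fun w _ => mul_one _)))
      (hG1 v hv))
    (fun w hw => le_trans (le_of_eq (sum_congr (filter_congr (fun v _ => by simp)) (fun v _ => mul_one _)))
      (hG2 w hw))
  have hlhs : pairSum ψ V W R =
      ∑ v ∈ V, ∑ w ∈ W, (if R v w then (1 : ℝ) else 0) * (wt ψ v * wt ψ w) := by
    simp [pairSum, ite_mul]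
  rw [hlhs]
  refine le_trans hfl ?_
  rw [← hQdef, ← hRdef]
  have hm := mass_nonneg hψ S
  have hmV := mass_nonneg hψ V
  have hmW := mass_nonneg hψ W
  set M : ℝ := mass ψ S ^ (alpha1 - alpha2) * (mass ψ V * mass ψ W) ^ thetaC with hMdef
  have hM : 0 ≤ M := by rw [hMdef]; positivity
  have hsplit : Q ^ alpha1 * R' ^ alpha2 =
      (Q * R') ^ betaC * (Q ^ (2 / 1000 : ℝ) * R' ^ (1 / 1000 : ℝ)) := by
    rw [Real.mul_rpow hQ.le hR'.le,
      show alpha1 = betaC + 2 / 1000 by norm_num [alpha1, betaC],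
      show alpha2 = betaC + 1 / 1000 by norm_num [alpha2, betaC],
      Real.rpow_add hQ, Real.rpow_add hR']
    ring
  have hxpow : (2 * x) ^ (alpha1 + alpha2) * x ^ (17 / 1000 : ℝ) ≤ 2 * x ^ (101 / 100 : ℝ) := by
    rw [Real.mul_rpow (by norm_num) hx.le, mul_assoc, ← Real.rpow_add hx,
      show alpha1 + alpha2 + 17 / 1000 = (101 / 100 : ℝ) by norm_num [alpha1, alpha2]]
    refine mul_le_mul_of_nonneg_right ?_ (by positivity)
    exact Real.rpow_le_self_of_one_le (by norm_num) (by norm_num [alpha1, alpha2])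
  have hC0 : 0 ≤ Cst := by
    have h0 : 0 ≤ G1 ^ alpha1 * G2 ^ alpha2 := by positivity
    by_contra hc
    push Not at hc
    have : Cst * x ^ (17 / 1000 : ℝ) * (Q ^ (2 / 1000 : ℝ) * R' ^ (1 / 1000 : ℝ)) < 0 :=
      mul_neg_of_neg_of_pos (mul_neg_of_neg_of_pos hc (by positivity)) (by positivity)
    linarith
  calc M * (2 * x) ^ (alpha1 + alpha2) * (G1 ^ alpha1 * G2 ^ alpha2) / (Q ^ alpha1 * R' ^ alpha2)
      ≤ M * (2 * x) ^ (alpha1 + alpha2) *
          (Cst * x ^ (17 / 1000 : ℝ) * (Q ^ (2 / 1000 : ℝ) * R' ^ (1 / 1000 : ℝ))) /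
          (Q ^ alpha1 * R' ^ alpha2) :=
        div_le_div_of_nonneg_right (mul_le_mul_of_nonneg_left hGx (by positivity)) (by positivity)
    _ = M * Cst * ((2 * x) ^ (alpha1 + alpha2) * x ^ (17 / 1000 : ℝ)) / (Q * R') ^ betaC := by
        rw [hsplit]; field_simp
    _ ≤ M * Cst * (2 * x ^ (101 / 100 : ℝ)) / (Q * R') ^ betaC :=
        div_le_div_of_nonneg_right (mul_le_mul_of_nonneg_left hxpow (by positivity)) (by positivity)
    _ = 2 * Cst * stateBound ψ S V W x (fixedPart (P \ U) i j) (fixedPart (P \ U) j i) := by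
        rw [stateBound, ← hMdef, ← hQdef, ← hRdef]; ring

theorem G1_le (h : FinState P S U V W i j) (R : ℕ → ℕ → Prop)
    (hR : ∀ v ∈ V, ∀ w ∈ W, R v w → Base γ ψ A B x ell U k v w) (D : ℝ → Prop)
    (hD : ∀ v ∈ V, ∀ w ∈ W, R v w → D (downDev U k w)) {v : ℕ} (hv : v ∈ V) (E : ℝ)
    (hE : ∀ d : ℕ, ∑ c ∈ ((W.filter (fun w => R v w)).filter
        (fun w => downDev U k w = d)).image (upDev U k),
        ((upDev U k v : ℝ) / c) ^ sExp ≤ E * upDev U k v) :
    ∑ w ∈ W.filter (fun w => R v w),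
      (Nat.totient (centre U k) : ℝ) / centre U k / Nat.totient (downDev U k w) *
        (((upDev U k v : ℝ) / upDev U k w) ^ sExp / upDev U k v) ≤
    (∑ d ∈ (centre U k).divisors.filter (fun d : ℕ => D d),
      (Nat.totient (centre U k) : ℝ) / centre U k / Nat.totient d) * E := by
  have ha : (0 : ℝ) < upDev U k v := by exact_mod_cast upPos h v
  refine sum_pairs_le (up := upDev U k) (down := downDev U k)
    (u := fun d => (Nat.totient (centre U k) : ℝ) / centre U k / Nat.totient d)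
    (f := fun c => ((upDev U k v : ℝ) / c) ^ sExp / upDev U k v)
    ((dev_injOn h).2.mono (coe_subset.2 (filter_subset _ _))) ?_ (fun d _ => by positivity) ?_
  · intro w hw
    rw [mem_filter] at hw
    exact mem_filter.2 ⟨Nat.mem_divisors.2
      ⟨(centre_dvd_lcm h hv hw.1 (hR v hv w hw.1 hw.2).2.1).2.2, (centre_pos h).ne'⟩,
      hD v hv w hw.1 hw.2⟩
  · intro d _
    rw [← sum_div, div_le_iff₀ ha]
    exact hE d

theorem G2_le (h : FinState P S U V W i j) (R : ℕ → ℕ → Prop)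
    (hR : ∀ v ∈ V, ∀ w ∈ W, R v w → Base γ ψ A B x ell U k v w) (D : ℝ → Prop)
    (hD : ∀ v ∈ V, ∀ w ∈ W, R v w → D (downDev U k v)) {w : ℕ} (hw : w ∈ W) (E : ℝ)
    (hE : ∀ d : ℕ, ∑ c ∈ ((V.filter (fun v => R v w)).filter
        (fun v => downDev U k v = d)).image (upDev U k),
        ((upDev U k w : ℝ) / c) ^ tExp ≤ E * upDev U k w) :
    ∑ v ∈ V.filter (fun v => R v w),
      (Nat.totient (centre U k) : ℝ) / centre U k / Nat.totient (downDev U k v) *
        (((upDev U k w : ℝ) / upDev U k v) ^ tExp / upDev U k w) ≤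
    (∑ d ∈ (centre U k).divisors.filter (fun d : ℕ => D d),
      (Nat.totient (centre U k) : ℝ) / centre U k / Nat.totient d) * E := by
  have ha : (0 : ℝ) < upDev U k w := by exact_mod_cast upPos h w
  refine sum_pairs_le (up := upDev U k) (down := downDev U k)
    (u := fun d => (Nat.totient (centre U k) : ℝ) / centre U k / Nat.totient d)
    (f := fun c => ((upDev U k w : ℝ) / c) ^ tExp / upDev U k w)
    ((dev_injOn h).1.mono (coe_subset.2 (filter_subset _ _))) ?_ (fun d _ => by positivity) ?_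
  · intro v hv
    rw [mem_filter] at hv
    exact mem_filter.2 ⟨Nat.mem_divisors.2
      ⟨(centre_dvd_lcm h hv.1 hw (hR v hv.1 w hw hv.2).2.1).2.1, (centre_pos h).ne'⟩,
      hD v hv.1 w hw hv.2⟩
  · intro d _
    rw [← sum_div, div_le_iff₀ ha]
    exact hE d

theorem image_up_s (R : ℕ → ℕ → Prop) (h : FinState P S U V W i j)
    (hR : ∀ v ∈ V, ∀ w ∈ W, R v w → Base γ ψ A B x ell U k v w) {v : ℕ} (hv : v ∈ V) {d : ℕ} :
    ∀ c ∈ ((W.filter (fun w => R v w)).filter
        (fun w => downDev U k w = d)).image (upDev U k), 0 < c ∧ c ≤ upDev U k v := by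
  intro c hc
  simp only [mem_image, mem_filter] at hc
  obtain ⟨w, ⟨⟨hw, hR'⟩, _⟩, rfl⟩ := hc
  exact ⟨upPos h w, (hR v hv w hw hR').2.2⟩

theorem image_up_t (R : ℕ → ℕ → Prop)
    (hR : ∀ v ∈ V, ∀ w ∈ W, R v w → Base γ ψ A B x ell U k v w) {w : ℕ} (hw : w ∈ W) {d : ℕ} :
    ∀ c ∈ ((V.filter (fun v => R v w)).filter
        (fun v => downDev U k v = d)).image (upDev U k), upDev U k w ≤ c := by
  intro c hc
  simp only [mem_image, mem_filter] at hc
  obtain ⟨v, ⟨⟨hv, hR'⟩, _⟩, rfl⟩ := hc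
  exact (hR v hv w hw hR').2.2

theorem centre_sum_filter_le (h : FinState P S U V W i j) :
    ∑ d ∈ (centre U k).divisors.filter (fun _ : ℕ => True),
      (Nat.totient (centre U k) : ℝ) / centre U k / Nat.totient d ≤ cCen := by
  refine le_trans (le_of_eq ?_) (centre_sum_le (centre_pos h (k := k)))
  rw [mul_sum, filter_true]
  exact sum_congr rfl (fun d _ => by ring)

theorem G1_const (h : FinState P S U V W i j) (R : ℕ → ℕ → Prop)
    (hR : ∀ v ∈ V, ∀ w ∈ W, R v w → Base γ ψ A B x ell U k v w) :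
    ∀ v ∈ V, ∑ w ∈ W.filter (fun w => R v w),
      (Nat.totient (centre U k) : ℝ) / centre U k / Nat.totient (downDev U k w) *
        (((upDev U k v : ℝ) / upDev U k w) ^ sExp / upDev U k v) ≤ cCen * cRat := by
  intro v hv
  refine le_trans (G1_le h R hR (fun _ => True) (fun _ _ _ _ _ => trivial) hv cRat (fun d =>
    sum_ratio_s_le (upPos h v) (image_up_s R h hR hv))) ?_
  refine mul_le_mul_of_nonneg_right ?_ (by linarith [one_le_cRat])
  refine le_of_eq_of_le (sum_congr ?_ fun _ _ => rfl) (centre_sum_filter_le (k := k) h)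
  simp only [filter_true]

theorem G2_const (h : FinState P S U V W i j) (R : ℕ → ℕ → Prop)
    (hR : ∀ v ∈ V, ∀ w ∈ W, R v w → Base γ ψ A B x ell U k v w) :
    ∀ w ∈ W, ∑ v ∈ V.filter (fun v => R v w),
      (Nat.totient (centre U k) : ℝ) / centre U k / Nat.totient (downDev U k v) *
        (((upDev U k w : ℝ) / upDev U k v) ^ tExp / upDev U k w) ≤ cCen * cRat := by
  intro w hw
  refine le_trans (G2_le h R hR (fun _ => True) (fun _ _ _ _ _ => trivial) hw cRat (fun d =>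
    sum_ratio_t_le (upPos h w) (image_up_t R hR hw))) ?_
  refine mul_le_mul_of_nonneg_right ?_ (by linarith [one_le_cRat])
  refine le_of_eq_of_le (sum_congr ?_ fun _ _ => rfl) (centre_sum_filter_le (k := k) h)
  simp only [filter_true]

theorem large_sum_le (hwin : Win ψ S γ A B ell L) (h : FinState P S U V W i j) {v w : ℕ}
    (hv : v ∈ V) (hw : w ∈ W) (hk : NoCoDev U k v w) {Γ : ℝ} (hΓ : 0 < Γ) :
    ∑ d ∈ (centre U k).divisors.filter (fun d : ℕ => Γ ≤ (d : ℝ)),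
      (Nat.totient (centre U k) : ℝ) / centre U k / Nat.totient d ≤
        Real.exp (2 * nuC * ell) / Γ := by
  refine le_trans (centre_large_le (centre_pos h) hΓ) (div_le_div_of_nonneg_right ?_ hΓ.le)
  have hvS := h.V_sub hv
  have hwS := h.W_sub hw
  have hN : (centre U k : ℝ) ≤ Real.exp (8 * L) := by
    have h1 : centre U k ≤ v * w := by
      refine Nat.le_of_dvd (Nat.mul_pos (h.pos_of_mem v hvS) (h.pos_of_mem w hwS)) ?_
      exact (centre_dvd_lcm h hv hw hk).1.trans (Nat.lcm_dvd_mul v w)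
    calc (centre U k : ℝ) ≤ (v : ℝ) * w := by exact_mod_cast h1
      _ ≤ Real.exp (2 * L) * Real.exp (2 * L) :=
          mul_le_mul (hwin.q_le v hvS) (hwin.q_le w hwS) (by positivity) (Real.exp_pos _).le
      _ ≤ Real.exp (8 * L) := by
          rw [← Real.exp_add]
          exact Real.exp_le_exp.2 (by linarith [hwin.one_le_L])
  calc ((centre U k).divisors.card : ℝ) ^ 2 ≤ Real.exp (nuC * ell) ^ 2 :=
        pow_le_pow_left₀ (by positivity) (hwin.divisors_le _ (centre_pos h) hN) 2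
    _ = Real.exp (2 * nuC * ell) := by rw [← Real.exp_nat_mul]; congr 1; ring

theorem rpow_const_le {K ε a : ℝ} (hK : 1 ≤ K) (hε : 0 ≤ ε) (ha1 : a ≤ 1) :
    (K * ε) ^ a ≤ K * ε ^ a := by
  rw [Real.mul_rpow (by linarith) hε]
  exact mul_le_mul_of_nonneg_right (Real.rpow_le_self_of_one_le hK ha1) (by positivity)

theorem one_le_spare (h : FinState P S U V W i j) :
    1 ≤ (fixedPart (P \ U) i j : ℝ) ^ (2 / 1000 : ℝ) *
      (fixedPart (P \ U) j i : ℝ) ^ (1 / 1000 : ℝ) := by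
  have h1 : (1 : ℝ) ≤ (fixedPart (P \ U) i j : ℝ) := by exact_mod_cast q1_pos h
  have h2 : (1 : ℝ) ≤ (fixedPart (P \ U) j i : ℝ) := by exact_mod_cast r1_pos h
  exact one_le_mul_of_one_le_of_one_le (Real.one_le_rpow h1 (by norm_num))
    (Real.one_le_rpow h2 (by norm_num))

/-- The constant of the final states. -/
def cState : ℝ := (10 * cBohr * cDy * cCen * cRat) ^ 2

theorem one_le_cAll : 1 ≤ 10 * cBohr * cDy * cCen * cRat := by
  have h1 := one_le_cBohr
  have h2 := one_le_cDy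
  have h3 := one_le_cCen
  have h4 := one_le_cRat
  have h5 : (1 : ℝ) ≤ 10 * cBohr := by linarith
  exact one_le_mul_of_one_le_of_one_le
    (one_le_mul_of_one_le_of_one_le (one_le_mul_of_one_le_of_one_le h5 h2) h3) h4

theorem one_le_cState : 1 ≤ cState := one_le_pow₀ one_le_cAll

theorem cConst_le : cCen * cRat ≤ 10 * cBohr * cDy * cCen * cRat := by
  have h1 := one_le_cBohr
  have h2 := one_le_cDy
  have h3 : 0 ≤ cCen * cRat := mul_nonneg (by linarith [one_le_cCen]) (by linarith [one_le_cRat])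
  have h5 : (1 : ℝ) ≤ 10 * cBohr * cDy :=
    one_le_mul_of_one_le_of_one_le (by linarith) h2
  calc cCen * cRat = 1 * (cCen * cRat) := by ring
    _ ≤ 10 * cBohr * cDy * (cCen * cRat) := mul_le_mul_of_nonneg_right h5 h3
    _ = _ := by ring

theorem gx_le {G1 G2 ε1 ε2 : ℝ} (hG1n : 0 ≤ G1) (hG2n : 0 ≤ G2) (h1n : 0 ≤ ε1) (h2n : 0 ≤ ε2)
    (hG1 : G1 ≤ 10 * cBohr * cDy * cCen * cRat * ε1)
    (hG2 : G2 ≤ 10 * cBohr * cDy * cCen * cRat * ε2) :
    G1 ^ alpha1 * G2 ^ alpha2 ≤ cState * (ε1 ^ alpha1 * ε2 ^ alpha2) := by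
  have hC := one_le_cAll
  have e1 := (Real.rpow_le_rpow hG1n hG1 (by norm_num [alpha1] : (0 : ℝ) ≤ alpha1)).trans
    (rpow_const_le hC h1n (by norm_num [alpha1]))
  have e2 := (Real.rpow_le_rpow hG2n hG2 (by norm_num [alpha2] : (0 : ℝ) ≤ alpha2)).trans
    (rpow_const_le hC h2n (by norm_num [alpha2]))
  refine le_trans (mul_le_mul e1 e2 (by positivity) (by positivity)) (le_of_eq ?_)
  rw [cState]; ring

theorem scale_exp_small (hs : Scale ell x) {c : ℝ} (hc : 1 / 10000 ≤ c) :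
    Real.exp (-(c * ell)) ≤ x ^ (17 / 1000 : ℝ) :=
  hs.exp_le (by norm_num) (by norm_num [etaC] at *; linarith)

theorem big_state_le (h : FinState P S U V W i j) (hψ : ∀ q, 0 ≤ ψ q) (hs : Scale ell x)
    (hbig : Real.exp (ell / 8) ≤ (fixedPart (P \ U) i j : ℝ) ∨
      Real.exp (ell / 8) ≤ (fixedPart (P \ U) j i : ℝ)) :
    pairSum ψ V W (Base γ ψ A B x ell U k) ≤
      2 * cState * stateBound ψ S V W x (fixedPart (P \ U) i j) (fixedPart (P \ U) j i) := by
  have hK : 0 ≤ cCen * cRat := mul_nonneg (by linarith [one_le_cCen]) (by linarith [one_le_cRat])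
  refine class_le h hψ hs.x_pos _ (fun _ _ _ _ h => h) (cCen * cRat) (cCen * cRat)
    cState hK hK (G1_const h _ (fun _ _ _ _ h => h)) (G2_const h _ (fun _ _ _ _ h => h)) ?_
  refine le_trans (gx_le hK hK zero_le_one zero_le_one (by simpa using cConst_le)
    (by simpa using cConst_le)) ?_
  rw [Real.one_rpow, Real.one_rpow, mul_assoc]
  refine mul_le_mul_of_nonneg_left ?_ (le_trans zero_le_one one_le_cState)
  set Q : ℝ := (fixedPart (P \ U) i j : ℝ)
  set R' : ℝ := (fixedPart (P \ U) j i : ℝ)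
  have hQ : (1 : ℝ) ≤ Q := Nat.one_le_cast.2 (q1_pos h)
  have hR' : (1 : ℝ) ≤ R' := Nat.one_le_cast.2 (r1_pos h)
  have hsp : Real.exp (ell / 8000) ≤ Q ^ (2 / 1000 : ℝ) * R' ^ (1 / 1000 : ℝ) := by
    have hE : Real.exp (ell / 8000) = Real.exp (ell / 8) ^ (1 / 1000 : ℝ) := by
      rw [← Real.exp_mul]; congr 1; ring
    rw [hE]
    rcases hbig with hb | hb
    · refine le_trans (Real.rpow_le_rpow (Real.exp_pos _).le hb (by norm_num)) ?_
      refine le_trans (Real.rpow_le_rpow_of_exponent_le hQ (by norm_num : (1 / 1000 : ℝ) ≤ 2 / 1000))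
        (le_mul_of_one_le_right (by positivity) (Real.one_le_rpow hR' (by norm_num)))
    · exact le_trans (Real.rpow_le_rpow (Real.exp_pos _).le hb (by norm_num))
        (le_mul_of_one_le_left (by positivity) (Real.one_le_rpow hQ (by norm_num)))
  have hsm := scale_exp_small hs (c := 1 / 8000) (by norm_num)
  have hx := hs.x_pos
  calc (1 : ℝ) * 1 = Real.exp (-(1 / 8000 * ell)) * Real.exp (ell / 8000) := by
        rw [← Real.exp_add, show -(1 / 8000 * ell) + ell / 8000 = 0 by ring, Real.exp_zero, mul_one]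
    _ ≤ _ := mul_le_mul hsm hsp (Real.exp_pos _).le (by positivity)

end State

end Vale.Agent.P028
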