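import Vale.Agent.P028.Gain
import Vale.Agent.P028.Overlap
import Vale.Agent.P028.SameWindow.Small
import Vale.Agent.P028.SameWindow.Big
import Vale.Agent.P028.BilinearAux

/-!
The second moment inside a window.
-/

noncomputable section

namespace Vale.Agent.P028

open Finset MeasureTheory

theorem sum_geom_top {a r : ℝ} (ha : 0 < a) (hr : 1 < r) {b : ℝ} (hb : 0 ≤ b) (T : Finset ℕ)
    (hT : ∀ k ∈ T, a * r ^ k ≤ b) : ∑ k ∈ T, a * r ^ k ≤ b * (r / (r - 1)) := by
  rcases T.eq_empty_or_nonempty with h | h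
  · subst h; simp only [sum_empty]
    exact mul_nonneg hb (div_nonneg (by linarith) (by linarith))
  obtain ⟨K, hK, hmax⟩ := exists_max_image T id h
  have hsub : T ⊆ range (K + 1) := fun k hk => mem_range.2 (Nat.lt_succ_of_le (hmax k hk))
  refine le_trans (sum_le_sum_of_subset_of_nonneg hsub (fun k _ _ => by positivity)) ?_
  rw [← mul_sum, geom_sum_eq hr.ne']
  have h1 : (r ^ (K + 1) - 1) / (r - 1) ≤ r ^ K * (r / (r - 1)) := by
    rw [← mul_div_assoc, ← pow_succ]
    exact div_le_div_of_nonneg_right (by linarith) (by linarith)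
  refine le_trans (mul_le_mul_of_nonneg_left h1 ha.le) ?_
  rw [← mul_assoc]
  exact mul_le_mul_of_nonneg_right (hT K hK) (div_nonneg (by linarith) (by linarith))

theorem sum_geom_bottom {a r : ℝ} (ha : 0 < a) (hr0 : 0 < r) (hr : r < 1) {b : ℝ} (hb : 0 ≤ b)
    (T : Finset ℕ) (hT : ∀ k ∈ T, a * r ^ k ≤ b) : ∑ k ∈ T, a * r ^ k ≤ b / (1 - r) := by
  rcases T.eq_empty_or_nonempty with h | h
  · subst h; simp only [sum_empty]
    exact div_nonneg hb (by linarith)
  obtain ⟨K, hK, hmin⟩ := exists_min_image T id h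
  have hsub : T ⊆ Ico K (T.sup id + 1) := fun k hk => mem_Ico.2
    ⟨hmin k hk, Nat.lt_succ_of_le (Finset.le_sup (f := id) hk)⟩
  refine le_trans (sum_le_sum_of_subset_of_nonneg hsub (fun k _ _ => by positivity)) ?_
  rw [← mul_sum]
  refine le_trans (mul_le_mul_of_nonneg_left (geom_sum_Ico_le_of_lt_one hr0.le hr) ha.le) ?_
  rw [← mul_div_assoc]
  exact div_le_div_of_nonneg_right (hT K hK) (by linarith)

/-- The lower end of the `k`-th level. -/
def levelX (ell : ℝ) (k : ℕ) : ℝ := xFine ell * 2 ^ k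

theorem levelX_rpow (ell e : ℝ) (k : ℕ) :
    levelX ell k ^ e = xFine ell ^ e * ((2 : ℝ) ^ e) ^ k := by
  rw [levelX, Real.mul_rpow (show 0 ≤ xFine ell from (Real.exp_pos _).le) (by positivity), ← Real.rpow_natCast,
    ← Real.rpow_mul (by norm_num), ← Real.rpow_natCast ((2 : ℝ) ^ e), ← Real.rpow_mul (by norm_num),
    mul_comm (k : ℝ) e]

theorem exists_level_of_mem {ell D : ℝ} {N : ℕ} (h0 : xFine ell < D)
    (hN : D ≤ levelX ell N) :
    ∃ k ∈ range N, levelX ell k < D ∧ D ≤ 2 * levelX ell k := by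
  classical
  have hex : ∃ k, D ≤ levelX ell k := ⟨N, hN⟩
  have h := Nat.find_spec hex
  have hmin := @Nat.find_min _ _ hex
  have hle : Nat.find hex ≤ N := Nat.find_min' hex hN
  generalize Nat.find hex = m at h hmin hle
  cases m with
  | zero => simp only [levelX, pow_zero, mul_one] at h; linarith
  | succ j =>
    refine ⟨j, mem_range.2 (by omega), not_le.1 (hmin (by omega)), ?_⟩
    simp only [levelX, pow_succ] at h ⊢
    linarith

theorem sum_levels_le_one {ell D : ℝ} (N : ℕ) :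
    ∑ k ∈ range N, (if levelX ell k < D ∧ D ≤ 2 * levelX ell k then (1 : ℝ) else 0) ≤ 1 := by
  rw [← sum_filter, sum_const, nsmul_eq_mul, mul_one]
  have : ((range N).filter (fun k => levelX ell k < D ∧ D ≤ 2 * levelX ell k)).card ≤ 1 := by
    refine card_le_one.2 (fun a ha b hb => ?_)
    simp only [mem_filter] at ha hb
    have hx : 0 < xFine ell := Real.exp_pos _
    by_contra hne
    rcases Nat.lt_or_gt_of_ne hne with h | h
    · have : (2 : ℝ) ^ (a + 1) ≤ 2 ^ b := pow_le_pow_right₀ (by norm_num) h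
      have := mul_le_mul_of_nonneg_left this hx.le
      simp only [levelX, pow_succ] at ha hb this
      linarith [ha.2.1, ha.2.2, hb.2.1, hb.2.2]
    · have : (2 : ℝ) ^ (b + 1) ≤ 2 ^ a := pow_le_pow_right₀ (by norm_num) h
      have := mul_le_mul_of_nonneg_left this hx.le
      simp only [levelX, pow_succ] at ha hb this
      linarith [ha.2.1, ha.2.2, hb.2.1, hb.2.2]
  exact_mod_cast this

theorem ovTerm_nonneg {γ : ℝ} {ψ : ℕ → ℝ} {A : ℤ} {B q r : ℕ} (hq : 0 ≤ ψ q) (hr : 0 ≤ ψ r) :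
    0 ≤ ovTerm γ ψ A B q r := by
  have h1 : 0 ≤ wt ψ q := mul_nonneg (by positivity) hq
  have h2 : 0 ≤ wt ψ r := mul_nonneg (by positivity) hr
  have hD : 0 ≤ dist2 ψ q r := le_max_of_le_left (mul_nonneg hq (Nat.cast_nonneg _))
  refine mul_nonneg (div_nonneg (mul_nonneg h1 h2) hD) (sum_nonneg (fun n _ => ?_))
  have h := one_le_factors 0 A B q r n
  rw [pFac_eq_lo_mul_hi 0, wFac_eq_lo_mul_hi 0]
  exact mul_nonneg (mul_nonneg (by linarith) (by linarith)) (mul_nonneg (by linarith) (by linarith))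

theorem ovTerm_diag_le {γ : ℝ} {ψ : ℕ → ℝ} {A : ℤ} {B q : ℕ} (hq : 0 < q) (hψ : 0 < ψ q)
    (hψ2 : ψ q ≤ 1 / 8) : ovTerm γ ψ A B q q ≤ wt ψ q := by
  have hqd : qd q q = 1 := by rw [qd, Nat.gcd_self, Nat.div_self hq]
  have hD : dist2 ψ q q = ψ q := by simp [dist2, hqd]
  have hwt : 0 ≤ wt ψ q := mul_nonneg (by positivity) hψ.le
  have hF : ∀ n, pFac B q q * wFac A B q q n ≤ ∏ p ∈ q.primeFactors, ratio p := by
    intro n
    have h1 : pFac B q q = 1 := by simp [pFac, hqd]
    rw [h1, one_mul, wFac, Nat.gcd_self]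
    exact prod_le_prod_of_subset_of_one_le (filter_subset _ _)
      (fun p hp => zero_le_one.trans
        (BilinearAux.one_le_ratio (Nat.prime_of_mem_primeFactors (mem_filter.1 hp).1)))
      (fun p hp _ => BilinearAux.one_le_ratio (Nat.prime_of_mem_primeFactors hp))
  have hcard : ((admSet γ ψ A B q q).card : ℝ) ≤ 1 := by
    exact_mod_cast CountingNeg.adm_card_le_one (hD ▸ hψ2)
  have hR : 0 ≤ ∏ p ∈ q.primeFactors, ratio p := prod_nonneg (fun p hp =>
    zero_le_one.trans (BilinearAux.one_le_ratio (Nat.prime_of_mem_primeFactors hp)))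
  have htot : (Nat.totient q : ℝ) / q * ∏ p ∈ q.primeFactors, ratio p = 1 := by
    rw [BilinearAux.totient_div_eq q hq, ← prod_mul_distrib]
    refine prod_eq_one (fun p hp => ?_)
    have hp2 : (2 : ℝ) ≤ p := by exact_mod_cast (Nat.prime_of_mem_primeFactors hp).two_le
    have : (p : ℝ) - 1 ≠ 0 := by linarith
    rw [ratio]; field_simp
  calc ovTerm γ ψ A B q q
      ≤ wt ψ q * wt ψ q / ψ q * ∏ p ∈ q.primeFactors, ratio p := by
        rw [ovTerm, hD]
        refine mul_le_mul_of_nonneg_left ?_ (div_nonneg (mul_nonneg hwt hwt) hψ.le)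
        refine le_trans (sum_le_card_nsmul _ _ _ (fun n _ => hF n)) ?_
        rw [nsmul_eq_mul]
        exact mul_le_of_le_one_left hR hcard
    _ = wt ψ q * ((Nat.totient q : ℝ) / q * ∏ p ∈ q.primeFactors, ratio p) := by
        simp only [wt]; field_simp
    _ = wt ψ q := by rw [htot, mul_one]

/-- The second moment inside a window. -/
theorem exists_sameWindow_le :
    ∃ C ell0 : ℝ, ∀ (ψ : ℕ → ℝ) (S : Finset ℕ) (γ : ℝ) (A : ℤ) (B : ℕ) (ell L : ℝ),
      Win ψ S γ A B ell L → ell0 ≤ ell →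
      ∑ q ∈ S, ∑ r ∈ S, ∫ x, bump γ ψ A B q x * bump γ ψ A B r x ≤
        C * (mass ψ S + mass ψ S ^ 2) := by
  classical
  obtain ⟨Cn, ln, hneg⟩ := exists_negligible_le
  obtain ⟨Cs, ls, hsmall⟩ := exists_level_small_le
  obtain ⟨Cb, lb, hbig⟩ := exists_level_big_le
  obtain ⟨Cf, hfar⟩ := exists_integral_bump_mul_far_le
  set r1 : ℝ := (2 : ℝ) ^ (1 / 1000 : ℝ) with hr1d
  set r2 : ℝ := (2 : ℝ) ^ (-(1 / 100) : ℝ) with hr2d
  have hr1 : 1 < r1 := Real.one_lt_rpow (by norm_num) (by norm_num)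
  have hr2 : r2 < 1 := Real.rpow_lt_one_of_one_lt_of_neg (by norm_num) (by norm_num)
  have hr20 : 0 < r2 := by positivity
  refine ⟨2 + 2 * |Cn| + |Cf| + 2 * (|Cs| * (r1 / (r1 - 1) + 40 / etaC) +
      |Cb| * (1 + 2 / (1 - r2))),
    max (10 ^ 6) (max ln (max ls lb)), fun ψ S γ A B ell L hwin hell => ?_⟩
  obtain ⟨hell6, hln, hls, hlb⟩ : (10 : ℝ) ^ 6 ≤ ell ∧ ln ≤ ell ∧ ls ≤ ell ∧ lb ≤ ell := by
    simp only [max_le_iff] at hell; tauto
  set N := ⌈ell⌉₊ with hN
  set μ := mass ψ S with hμ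
  have hpos := hwin.pos_of_mem
  have hψ := hwin.psi_pos
  have hψ8 : ∀ q ∈ S, ψ q ≤ 1 / 8 := by
    intro q hq
    refine (hwin.psi_le q hq).trans ?_
    rw [Real.exp_neg, one_div]
    exact inv_anti₀ (by norm_num) (le_trans (by linarith) (Real.add_one_le_exp ell))
  have hw : ∀ q ∈ S, 0 ≤ wt ψ q := fun q hq => mul_nonneg (by positivity) (hψ q hq).le
  have hμ0 : 0 ≤ μ := sum_nonneg hw
  have hov : ∀ q ∈ S, ∀ r ∈ S, ∫ x, bump γ ψ A B q x * bump γ ψ A B r x ≤
      2 * ovTerm γ ψ A B q r := by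
    intro q hq r hr
    refine (integral_bump_mul_bump_le γ ψ A B q r (hpos q hq) (hpos r hr) (hψ q hq) (hψ r hr)
      (by linarith [hψ8 q hq]) (by linarith [hψ8 r hr]) hwin.coprime).trans (le_of_eq ?_)
    rw [ovTerm]; ring
  set neg : ℕ → ℕ → Prop := fun q r => r ≠ q ∧ dist2 ψ q r ≤ 1 / 8 ∧
    (dist2 ψ q r ≤ xFine ell ∨ (qd q r : ℝ) * Real.exp (etaC / 2 * ell) ≤ qd r q ∨
      (qd r q : ℝ) * Real.exp (etaC / 2 * ell) ≤ qd q r) with hnegdef
  set τ := Real.exp (2 * nuC * ell) with hτd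
  set g1 : ℕ → ℕ → ℝ := fun q r => if r = q then 2 * wt ψ q else 0 with hg1
  set g2 : ℕ → ℕ → ℝ := fun q r => if neg q r then
    2 * τ * (wt ψ q * wt ψ r / dist2 ψ q r * ((admSet γ ψ A B q r).card : ℝ)) else 0 with hg2
  set g3 : ℕ → ℕ → ℝ := fun q r => |Cf| * (wt ψ q * wt ψ r) with hg3
  set K := (range N).filter (fun k => levelX ell k ≤ Real.exp (Real.sqrt ell)) with hK
  set g4 : ℕ → ℕ → ℝ := fun q r => ∑ k ∈ K,
    if r ≠ q ∧ levelX ell k < dist2 ψ q r ∧ dist2 ψ q r ≤ 2 * levelX ell k then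
      2 * ovTerm γ ψ A B q r else 0 with hg4
  have hov0 : ∀ q ∈ S, ∀ r ∈ S, 0 ≤ ovTerm γ ψ A B q r := fun q hq r hr =>
    ovTerm_nonneg (hψ q hq).le (hψ r hr).le
  have hpoint : ∀ q ∈ S, ∀ r ∈ S, ∫ x, bump γ ψ A B q x * bump γ ψ A B r x ≤
      g1 q r + g2 q r + g3 q r + g4 q r := by
    intro q hq r hr
    have hD0 : 0 ≤ dist2 ψ q r := le_max_of_le_left (mul_nonneg (hψ q hq).le (Nat.cast_nonneg _))
    have hFF : 0 ≤ wt ψ q * wt ψ r := mul_nonneg (hw q hq) (hw r hr)
    have n1 : 0 ≤ g1 q r := by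
      simp only [hg1]; split_ifs
      · linarith [hw q hq]
      · exact le_rfl
    have n2 : 0 ≤ g2 q r := by
      simp only [hg2]; split_ifs
      · exact mul_nonneg (by positivity) (mul_nonneg (div_nonneg hFF hD0) (Nat.cast_nonneg _))
      · exact le_rfl
    have n3 : 0 ≤ g3 q r := mul_nonneg (abs_nonneg _) hFF
    have n4 : 0 ≤ g4 q r := sum_nonneg (fun k _ => by
      split_ifs
      · linarith [hov0 q hq r hr]
      · exact le_rfl)
    have hI := hov q hq r hr
    by_cases h1 : r = q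
    · have : g1 q r = 2 * wt ψ q := by simp only [hg1]; rw [if_pos h1]
      subst h1
      have := ovTerm_diag_le (γ := γ) (A := A) (B := B) (hpos r hq) (hψ r hq) (hψ8 r hq)
      linarith
    by_cases h2 : dist2 ψ q r ≤ xFine ell
    · have h28 : dist2 ψ q r ≤ 1 / 8 := by
        refine h2.trans ?_
        rw [xFine, Real.exp_neg, one_div]
        exact inv_anti₀ (by norm_num) (le_trans (by norm_num [etaC]; linarith)
          (Real.add_one_le_exp _))
      have hng : neg q r := ⟨h1, h28, Or.inl h2⟩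
      have e : g2 q r = 2 * τ *
          (wt ψ q * wt ψ r / dist2 ψ q r * ((admSet γ ψ A B q r).card : ℝ)) := by
        simp only [hg2]; rw [if_pos hng]
      have hτ : ∀ a ∈ S, (a.divisors.card : ℝ) ≤ Real.exp (nuC * ell) := fun a ha =>
        hwin.divisors_le a (hpos a ha)
          ((hwin.q_le a ha).trans (Real.exp_le_exp.2 (by linarith [hwin.one_le_L])))
      have hb : ovTerm γ ψ A B q r ≤
          τ * (wt ψ q * wt ψ r / dist2 ψ q r * ((admSet γ ψ A B q r).card : ℝ)) := by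
        rw [ovTerm, mul_left_comm τ]
        refine mul_le_mul_of_nonneg_left ?_ (div_nonneg hFF hD0)
        refine le_trans (sum_le_card_nsmul _ _ τ (fun n _ => ?_)) (le_of_eq ?_)
        · refine (crude_factor_le A B q r n (hpos q hq) (hpos r hr)).trans ?_
          refine (mul_le_mul (hτ q hq) (hτ r hr) (Nat.cast_nonneg _) (Real.exp_pos _).le).trans
            (le_of_eq ?_)
          rw [hτd, ← Real.exp_add]; congr 1; ring
        · rw [nsmul_eq_mul]; ring
      linarith
    by_cases h3 : Real.exp (Real.sqrt ell) ≤ dist2 ψ q r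
    · have := hfar γ ψ A A B B q r L (hpos q hq) (hpos r hr) (hψ q hq) (hψ r hr)
        (by linarith [hψ8 q hq]) (by linarith [hψ8 r hr]) hwin.coprime hwin.coprime hwin.one_le_L
        (hwin.q_le q hq) (hwin.q_le r hr) ell hwin.L_le (by linarith) h3
      have hle : Cf * (wt ψ q * wt ψ r) ≤ g3 q r :=
        mul_le_mul_of_nonneg_right (le_abs_self _) hFF
      linarith
    · have hNle : dist2 ψ q r ≤ levelX ell N := by
        refine (not_le.1 h3).le.trans ?_
        have hs : Real.sqrt ell ≤ ell / 1000 := by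
          rw [Real.sqrt_le_left (by positivity)]; nlinarith
        have h5 : Real.exp (2 / 3 * ell) ≤ (2 : ℝ) ^ N := by
          rw [← Real.rpow_natCast, Real.rpow_def_of_pos (by norm_num)]
          refine Real.exp_le_exp.2 ?_
          have := Real.log_two_gt_d9
          have : ell ≤ N := Nat.le_ceil ell
          nlinarith
        rw [levelX, xFine]
        refine le_trans ?_ (mul_le_mul_of_nonneg_left h5 (Real.exp_pos _).le)
        rw [← Real.exp_add]
        exact Real.exp_le_exp.2 (by norm_num [etaC]; linarith)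
      obtain ⟨k, hk, hk1, hk2⟩ := exists_level_of_mem (not_le.1 h2) hNle
      have : 2 * ovTerm γ ψ A B q r ≤ g4 q r := by
        refine le_trans (le_of_eq ?_) (single_le_sum (fun j _ => ?_)
          (mem_filter.2 ⟨hk, hk1.le.trans (not_le.1 h3).le⟩))
        · rw [if_pos ⟨h1, hk1, hk2⟩]
        · split_ifs
          · linarith [hov0 q hq r hr]
          · exact le_rfl
      linarith
  refine le_trans (sum_le_sum (fun q hq => sum_le_sum (hpoint q hq))) ?_
  simp only [sum_add_distrib]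
  have s1 : ∑ q ∈ S, ∑ r ∈ S, g1 q r ≤ 2 * μ := by
    rw [hμ, mass, mul_sum]
    refine sum_le_sum (fun q hq => le_of_eq ?_)
    simp only [hg1]
    rw [sum_ite_eq', if_pos hq]
  have s2 : ∑ q ∈ S, ∑ r ∈ S, g2 q r ≤ 2 * |Cn| * μ := by
    have h := hneg ψ S γ A B ell L hwin hln
    have e : ∑ q ∈ S, ∑ r ∈ S, g2 q r = 2 * τ * ∑ q ∈ S, ∑ r ∈ S.filter (fun r => neg q r),
        wt ψ q * wt ψ r / dist2 ψ q r * ((admSet γ ψ A B q r).card : ℝ) := by
      rw [mul_sum]
      refine sum_congr rfl (fun q _ => ?_)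
      rw [mul_sum, sum_filter]
    rw [e]
    refine le_trans (mul_le_mul_of_nonneg_left (le_of_eq_of_le ?_ h) (by positivity)) ?_
    · refine sum_congr rfl (fun q _ => sum_congr ?_ fun _ _ => rfl)
      ext r; simp only [mem_filter, hnegdef]
    · have h1 : τ * Real.exp (-(etaC / 4 * ell)) ≤ 1 := by
        rw [hτd, ← Real.exp_add, Real.exp_le_one_iff]
        norm_num [etaC, nuC]; linarith
      calc 2 * τ * (Cn * mass ψ S * Real.exp (-(etaC / 4 * ell)))
          = 2 * Cn * μ * (τ * Real.exp (-(etaC / 4 * ell))) := by rw [hμ]; ring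
        _ ≤ 2 * |Cn| * μ * (τ * Real.exp (-(etaC / 4 * ell))) := by
            gcongr; exact le_abs_self Cn
        _ ≤ 2 * |Cn| * μ := mul_le_of_le_one_right (by positivity) h1
  have s3 : ∑ q ∈ S, ∑ r ∈ S, g3 q r = |Cf| * μ ^ 2 := by
    simp only [hg3]
    rw [hμ, mass, sq, sum_mul_sum, mul_sum]
    exact sum_congr rfl (fun q _ => (mul_sum _ _ _).symm)
  have hμ2 : 0 ≤ μ + μ ^ 2 := by positivity
  set e20 := Real.exp (-(etaC / 20 * ell)) with he20
  have hx : ∀ k, 0 < levelX ell k := fun k => mul_pos (Real.exp_pos _) (by positivity)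
  have hlev : ∀ k ∈ K, levelSum γ ψ A B S (levelX ell k) (2 * levelX ell k) ≤
      |Cs| * (μ + μ ^ 2) *
        ((if levelX ell k ≤ 1 / 8 then levelX ell k ^ (1 / 1000 : ℝ) else 0) + e20) +
      (|Cb| * levelMass ψ S (levelX ell k) (2 * levelX ell k) + |Cb| * (μ + μ ^ 2) *
        (if levelX ell k ≤ 1 / 8 then 0 else levelX ell k ^ (-(1 / 100) : ℝ))) := by
    intro k hk
    have hxk := hx k
    have hm0 : 0 ≤ levelMass ψ S (levelX ell k) (2 * levelX ell k) :=
      sum_nonneg (fun q hq => sum_nonneg (fun r hr => mul_nonneg (hw q hq)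
        (hw r (mem_filter.1 hr).1)))
    by_cases h8 : levelX ell k ≤ 1 / 8
    · rw [if_pos h8, if_pos h8, mul_zero, add_zero]
      have hlow : xFine ell / 2 ≤ levelX ell k := by
        have h1 : xFine ell * 1 ≤ levelX ell k :=
          mul_le_mul_of_nonneg_left (one_le_pow₀ (by norm_num)) (Real.exp_pos _).le
        have : 0 < xFine ell := Real.exp_pos _
        linarith
      refine (hsmall ψ S γ A B ell L hwin hls _ hlow h8).trans ?_
      refine le_trans ?_ (le_add_of_nonneg_right (mul_nonneg (abs_nonneg _) hm0))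
      exact mul_le_mul_of_nonneg_right (mul_le_mul_of_nonneg_right (le_abs_self _) hμ2)
        (by positivity)
    · rw [if_neg h8, if_neg h8]
      have hrest : 0 ≤ |Cs| * (μ + μ ^ 2) * (0 + e20) := by positivity
      refine (hbig ψ S γ A B ell L hwin hlb _ (not_le.1 h8).le (mem_filter.1 hk).2).trans ?_
      refine le_trans ?_ (le_add_of_nonneg_left hrest)
      refine add_le_add (mul_le_mul_of_nonneg_right (le_abs_self _) hm0) ?_
      exact mul_le_mul_of_nonneg_right (mul_le_mul_of_nonneg_right (le_abs_self _) hμ2)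
        (by positivity)
  have hsum1 : ∑ k ∈ K, ((if levelX ell k ≤ 1 / 8 then levelX ell k ^ (1 / 1000 : ℝ) else 0) + e20)
      ≤ r1 / (r1 - 1) + 40 / etaC := by
    rw [sum_add_distrib]
    refine add_le_add ?_ ?_
    · rw [← sum_filter]
      simp only [levelX_rpow]
      refine (sum_geom_top (show 0 < xFine ell ^ (1 / 1000 : ℝ) from Real.rpow_pos_of_pos (Real.exp_pos _) _)
        hr1 zero_le_one _
        (fun k hk => ?_)).trans (le_of_eq (one_mul _))
      rw [← levelX_rpow]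
      exact Real.rpow_le_one (hx k).le ((mem_filter.1 hk).2.trans (by norm_num)) (by norm_num)
    · rw [sum_const, nsmul_eq_mul]
      have hcard : (K.card : ℝ) ≤ 2 * ell := by
        refine le_trans (b := (N : ℝ)) ?_ ?_
        · exact_mod_cast (card_filter_le _ _).trans (le_of_eq (card_range N))
        · have := Nat.ceil_lt_add_one (show 0 ≤ ell by linarith)
          rw [hN]; linarith
      refine (mul_le_mul_of_nonneg_right hcard (Real.exp_pos _).le).trans ?_
      have hz : 0 < etaC / 20 * ell := by norm_num [etaC]; linarith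
      have h1 := Real.add_one_le_exp (etaC / 20 * ell)
      rw [Real.exp_neg, ← div_eq_mul_inv, div_le_iff₀ (Real.exp_pos _)]
      have h2 : 2 * ell = 40 / etaC * (etaC / 20 * ell) := by norm_num [etaC]; ring
      rw [h2]
      exact mul_le_mul_of_nonneg_left (by linarith) (by norm_num [etaC])
  have hsum2 : ∑ k ∈ K, (if levelX ell k ≤ 1 / 8 then 0 else levelX ell k ^ (-(1 / 100) : ℝ))
      ≤ 2 / (1 - r2) := by
    rw [sum_ite, sum_const_zero, zero_add]
    simp only [levelX_rpow]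
    refine sum_geom_bottom (show 0 < xFine ell ^ (-(1 / 100) : ℝ) from Real.rpow_pos_of_pos (Real.exp_pos _) _)
      hr20 hr2 (by norm_num) _
      (fun k hk => ?_)
    rw [← levelX_rpow]
    refine (Real.rpow_le_rpow_of_nonpos (by norm_num) (not_le.1 (mem_filter.1 hk).2).le
      (by norm_num)).trans ?_
    refine le_trans (le_of_eq ?_) ((Real.rpow_le_rpow_of_exponent_le (by norm_num : (1 : ℝ) ≤ 8)
      (by norm_num : (1 / 100 : ℝ) ≤ 1 / 3)).trans ?_)
    · rw [show (1 / 8 : ℝ) = 8⁻¹ by norm_num, Real.inv_rpow (by norm_num), Real.rpow_neg (by norm_num),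
        inv_inv]
    · rw [show (8 : ℝ) = 2 ^ (3 : ℝ) by norm_num, ← Real.rpow_mul (by norm_num)]
      norm_num
  have hmass : ∑ k ∈ K, levelMass ψ S (levelX ell k) (2 * levelX ell k) ≤ μ ^ 2 := by
    simp only [levelMass, sum_filter]
    rw [sum_comm, hμ, mass, sq, sum_mul_sum]
    refine sum_le_sum (fun q hq => ?_)
    rw [sum_comm]
    refine sum_le_sum (fun r hr => ?_)
    have hFF : 0 ≤ wt ψ q * wt ψ r := mul_nonneg (hw q hq) (hw r hr)
    refine le_trans (sum_le_sum_of_subset_of_nonneg (filter_subset _ _) (fun k _ _ => ?_)) ?_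
    · split_ifs
      · exact hFF
      · exact le_rfl
    refine le_trans (sum_le_sum (fun k _ => ?_))
      (le_of_eq_of_le (mul_sum _ _ _).symm
        (mul_le_of_le_one_right hFF (sum_levels_le_one (ell := ell) (D := dist2 ψ q r) N)))
    by_cases h : r ≠ q ∧ levelX ell k < dist2 ψ q r ∧ dist2 ψ q r ≤ 2 * levelX ell k
    · rw [if_pos h, if_pos h.2, mul_one]
    · rw [if_neg h]; split_ifs <;> simp [hFF]
  have s4 : ∑ q ∈ S, ∑ r ∈ S, g4 q r ≤
      2 * (|Cs| * (r1 / (r1 - 1) + 40 / etaC) + |Cb| * (1 + 2 / (1 - r2))) * (μ + μ ^ 2) := by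
    have e : ∑ q ∈ S, ∑ r ∈ S, g4 q r =
        2 * ∑ k ∈ K, levelSum γ ψ A B S (levelX ell k) (2 * levelX ell k) := by
      simp only [hg4, levelSum, sum_filter, mul_sum, mul_ite, mul_zero]
      rw [sum_comm (s := K)]
      exact sum_congr rfl (fun q _ => sum_comm)
    rw [e, mul_assoc (2 : ℝ)]
    refine mul_le_mul_of_nonneg_left ((sum_le_sum hlev).trans ?_) (by norm_num)
    rw [sum_add_distrib, sum_add_distrib, ← mul_sum, ← mul_sum, ← mul_sum]
    have c1 := mul_le_mul_of_nonneg_left hsum1 (mul_nonneg (abs_nonneg Cs) hμ2)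
    have c2 := mul_le_mul_of_nonneg_left hmass (abs_nonneg Cb)
    have c3 := mul_le_mul_of_nonneg_left hsum2 (mul_nonneg (abs_nonneg Cb) hμ2)
    have c4 : |Cb| * μ ^ 2 ≤ |Cb| * (μ + μ ^ 2) :=
      mul_le_mul_of_nonneg_left (by linarith) (abs_nonneg _)
    linarith
  have c5 : |Cf| * μ ^ 2 ≤ |Cf| * (μ + μ ^ 2) :=
    mul_le_mul_of_nonneg_left (by linarith) (abs_nonneg _)
  have c6 : (2 + 2 * |Cn|) * μ ≤ (2 + 2 * |Cn|) * (μ + μ ^ 2) :=
    mul_le_mul_of_nonneg_left (by nlinarith) (by positivity)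
  linarith

end Vale.Agent.P028
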